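import Mathlib

/-! # Scale functions for the collapse theorem, and thinness from an integral bound -/

open Set Metric MeasureTheory Filter Topology
open scoped ENNReal NNReal

set_option linter.unusedSectionVars false
set_option linter.unusedVariables false

namespace Vale.Agent.P073.H911

variable {E : Type*} [NormedAddCommGroup E] [InnerProductSpace ℝ E]

/-- Moreau envelope of `m` with parameter `e` -/
noncomputable def env (e : ℝ) (m : E → ℝ) (y : E) : ℝ := ⨅ z, (m z + e ^ 2 / 2 * ‖y - z‖ ^ 2)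

section
variable {e : ℝ} {m : E → ℝ}

theorem bddBelow_env (hm : ∀ z, 0 ≤ m z) (y : E) :
    BddBelow (range fun z => m z + e ^ 2 / 2 * ‖y - z‖ ^ 2) :=
  ⟨0, by rintro _ ⟨z, rfl⟩; have := hm z; positivity⟩

theorem env_nonneg (hm : ∀ z, 0 ≤ m z) (y : E) : 0 ≤ env e m y :=
  le_ciInf fun z => by have := hm z; positivity

theorem env_le' (hm : ∀ z, 0 ≤ m z) (y z : E) : env e m y ≤ m z + e ^ 2 / 2 * ‖y - z‖ ^ 2 :=
  ciInf_le (bddBelow_env hm y) z

theorem env_le (hm : ∀ z, 0 ≤ m z) (y : E) : env e m y ≤ m y := by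
  simpa using env_le' (e := e) hm y y

theorem exists_env_lt (hm : ∀ z, 0 ≤ m z) (y : E) {η : ℝ} (hη : 0 < η) :
    ∃ z, m z + e ^ 2 / 2 * ‖y - z‖ ^ 2 < env e m y + η :=
  exists_lt_of_ciInf_lt (lt_add_of_pos_right _ hη)

theorem convexOn_env (hm : ∀ z, 0 ≤ m z) :
    ConvexOn ℝ univ (fun y => e ^ 2 / 2 * ‖y‖ ^ 2 - env e m y) := by
  refine ⟨convex_univ, fun x _ y _ a b ha hb hab => ?_⟩
  simp only [smul_eq_mul]
  refine le_of_forall_pos_le_add fun η hη => ?_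
  obtain ⟨z, hz⟩ := exists_env_lt (e := e) hm (a • x + b • y) hη
  have h1 := env_le' (e := e) hm x z
  have h2 := env_le' (e := e) hm y z
  have key : ∀ w : E, e ^ 2 / 2 * ‖w‖ ^ 2 - (m z + e ^ 2 / 2 * ‖w - z‖ ^ 2)
      = e ^ 2 * inner ℝ w z - e ^ 2 / 2 * ‖z‖ ^ 2 - m z := by
    intro w; rw [norm_sub_sq_real]; ring
  have h3 := key x
  have h4 := key y
  have h5 := key (a • x + b • y)
  rw [inner_add_left, real_inner_smul_left, real_inner_smul_left] at h5
  have hb' : b = 1 - a := by linarith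
  subst hb'
  nlinarith [mul_le_mul_of_nonneg_left h1 ha, mul_le_mul_of_nonneg_left h2 hb]

theorem sqrt_env_lipschitz (he : 0 ≤ e) (hm : ∀ z, 0 ≤ m z) (x y : E) :
    √(env e m y) ≤ √(env e m x) + e * ‖y - x‖ := by
  refine le_of_forall_pos_le_add fun δ hδ => ?_
  set s := √(env e m x) with hs
  have hs0 : 0 ≤ s := Real.sqrt_nonneg _
  have hss : s ^ 2 = env e m x := Real.sq_sqrt (env_nonneg hm x)
  have hη : 0 < (s + δ) ^ 2 - s ^ 2 := by nlinarith
  obtain ⟨z, hz⟩ := exists_env_lt (e := e) hm x hη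
  rw [← hss] at hz
  have h1 := env_le' (e := e) hm y z
  have hz0 := hm z
  -- `A = e |x - z|`, `A^2 / 2 ≤ (s + δ)^2`
  have h2 : ‖y - z‖ ≤ ‖y - x‖ + ‖x - z‖ := by
    have : y - z = (y - x) + (x - z) := by abel
    rw [this]; exact norm_add_le _ _
  have hA : e ^ 2 / 2 * ‖x - z‖ ^ 2 ≤ (s + δ) ^ 2 - m z := by linarith
  have hd : 0 ≤ ‖y - x‖ := norm_nonneg _
  have ha : 0 ≤ ‖x - z‖ := norm_nonneg _
  have h3 : e ^ 2 / 2 * ‖y - z‖ ^ 2 ≤ e ^ 2 / 2 * (‖y - x‖ + ‖x - z‖) ^ 2 := by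
    gcongr
  have h4 : e * ‖x - z‖ ≤ 2 * (s + δ) := by
    by_contra hcon
    push Not at hcon
    have : (2 * (s + δ)) ^ 2 < (e * ‖x - z‖) ^ 2 := by
      apply pow_lt_pow_left₀ hcon (by positivity) (by norm_num)
    nlinarith
  have h5 : env e m y ≤ (s + δ + e * ‖y - x‖) ^ 2 := by
    have : e ^ 2 * ‖x - z‖ * ‖y - x‖ ≤ 2 * (s + δ) * (e * ‖y - x‖) := by
      have := mul_le_mul_of_nonneg_right h4 (mul_nonneg he hd)
      nlinarith
    nlinarith [mul_nonneg he hd, sq_nonneg (e * ‖y - x‖)]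
  calc √(env e m y) ≤ √((s + δ + e * ‖y - x‖) ^ 2) := Real.sqrt_le_sqrt h5
    _ = s + δ + e * ‖y - x‖ := Real.sqrt_sq (by positivity)
    _ = _ := by ring

theorem env_pos (he : 0 < e) (hm : ∀ z, 0 ≤ m z) {y : E} {d c : ℝ} (hd : 0 < d) (hc : 0 < c)
    (h : ∀ z, ‖y - z‖ < d → c ≤ m z) : 0 < env e m y := by
  have : min c (e ^ 2 / 2 * d ^ 2) ≤ env e m y := by
    refine le_ciInf fun z => ?_
    by_cases hz : ‖y - z‖ < d
    · have h1 := h z hz
      have : 0 ≤ e ^ 2 / 2 * ‖y - z‖ ^ 2 := by positivity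
      exact (min_le_left _ _).trans (by linarith)
    · push Not at hz
      have h1 : e ^ 2 / 2 * d ^ 2 ≤ e ^ 2 / 2 * ‖y - z‖ ^ 2 := by gcongr
      exact (min_le_right _ _).trans (by linarith [hm z])
  exact lt_of_lt_of_le (by positivity) this

end

/-- **[TAU]** A scale function below any given bound which is locally bounded from below by a
positive number on the open set `Λ`. -/
theorem exists_tau {Λ : Set E} (hΛ : IsOpen Λ) {e : ℝ} (he : 0 < e) (he1 : e ≤ 1) {ρ : E → ℝ}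
    (hρ : ∀ y ∈ Λ, ∃ c > 0, ∃ d > 0, ∀ z ∈ Λ, dist z y < d → c ≤ ρ z) :
    ∃ τ : E → ℝ, (∀ y, 0 ≤ τ y) ∧ (∀ y, 0 < τ y ↔ y ∈ Λ) ∧ (∀ y ∈ Λ, τ y ≤ ρ y) ∧
      (∀ x y, τ y ≤ τ x + e * dist y x) ∧
      ConvexOn ℝ univ (fun y => 1 / 2 * ‖y‖ ^ 2 - τ y ^ 2) ∧
      ConvexOn ℝ univ (fun y => e ^ 2 / 2 * ‖y‖ ^ 2 - τ y ^ 2) := by
  classical
  set m : E → ℝ := fun y => if y ∈ Λ then (max (ρ y) 0) ^ 2 else 0 with hm
  have hm0 : ∀ z, 0 ≤ m z := by
    intro z; simp only [hm]; split_ifs <;> positivity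
  have hρ0 : ∀ y ∈ Λ, 0 < ρ y := by
    intro y hy
    obtain ⟨c, hc, d, hd, h⟩ := hρ y hy
    exact hc.trans_le (h y hy (by simpa using hd))
  have hsq : ∀ y, √(env e m y) ^ 2 = env e m y := fun y => Real.sq_sqrt (env_nonneg hm0 y)
  have hcv := convexOn_env (e := e) hm0
  refine ⟨fun y => √(env e m y), fun y => Real.sqrt_nonneg _, fun y => ?_, fun y hy => ?_,
    fun x y => ?_, ?_, ?_⟩
  · constructor
    · intro h
      by_contra hy
      have h1 : env e m y ≤ 0 := by simpa [hm, hy] using env_le (e := e) hm0 y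
      have h2 : 0 < √(env e m y) := h
      rw [Real.sqrt_eq_zero_of_nonpos h1] at h2
      exact lt_irrefl _ h2
    · intro hy
      obtain ⟨c, hc, d, hd, h⟩ := hρ y hy
      obtain ⟨d', hd', hball⟩ := Metric.isOpen_iff.1 hΛ y hy
      refine Real.sqrt_pos.2 (env_pos he hm0 (d := min d d') (c := c ^ 2) (lt_min hd hd')
        (by positivity) fun z hz => ?_)
      have hzy : dist z y < min d d' := by rwa [dist_comm, dist_eq_norm]
      have hzΛ : z ∈ Λ := hball (hzy.trans_le (min_le_right _ _))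
      have := h z hzΛ (hzy.trans_le (min_le_left _ _))
      simp only [hm, hzΛ, if_true]
      have : c ≤ max (ρ z) 0 := this.trans (le_max_left _ _)
      gcongr
  · have h1 : env e m y ≤ (ρ y) ^ 2 := by
      have := env_le (e := e) hm0 y
      simp only [hm, hy, if_true, max_eq_left (hρ0 y hy).le] at this
      exact this
    calc √(env e m y) ≤ √((ρ y) ^ 2) := Real.sqrt_le_sqrt h1
      _ = ρ y := Real.sqrt_sq (hρ0 y hy).le
  · simpa [dist_eq_norm] using sqrt_env_lipschitz he.le hm0 x y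
  · simp only [hsq]
    have h2 : ConvexOn ℝ univ (fun y : E => (1 - e ^ 2) / 2 * ‖y‖ ^ 2) := by
      have h3 : ConvexOn ℝ univ (fun y : E => ‖y‖ ^ 2) :=
        (convexOn_univ_norm).pow (fun _ _ => norm_nonneg _) 2
      have h4 : 0 ≤ (1 - e ^ 2) / 2 := by nlinarith
      simpa [smul_eq_mul] using h3.smul h4
    have h5 := h2.add hcv
    refine h5.congr fun y _ => ?_
    simp only [Pi.add_apply]; ring
  · simp only [hsq]; exact hcv

/-- **[THIN]** thinness at every scale `≥ τ` from a bound for `∫_V τ^(-n)`. -/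
theorem thin_of_lintegral [FiniteDimensional ℝ E] [MeasurableSpace E] [BorelSpace E]
    (μ : Measure E) {τ : E → ℝ} (hτL : ∀ x y, τ y ≤ τ x + dist y x)
    {V : Set E} (hV : MeasurableSet V) (hVτ : ∀ y ∈ V, 0 < τ y) (hτ : Measurable τ) {c : ℝ≥0∞} {n : ℕ}
    (hc : ∫⁻ y in V, ENNReal.ofReal (1 / τ y) ^ n ∂μ ≤ c) {y : E} {r : ℝ} (hr : 0 < r)
    (hry : τ y ≤ r) :
    μ (V ∩ ball y r) ≤ ENNReal.ofReal (2 * r) ^ n * c := by
  have h1 : ∀ z ∈ V ∩ ball y r, 1 ≤ ENNReal.ofReal (2 * r) ^ n * ENNReal.ofReal (1 / τ z) ^ n := by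
    rintro z ⟨hzV, hz⟩
    have h2 : τ z ≤ 2 * r := by
      have := hτL y z
      rw [mem_ball] at hz
      linarith
    have h3 := hVτ z hzV
    rw [← mul_pow, ← ENNReal.ofReal_mul (by positivity)]
    refine one_le_pow₀ ?_
    rw [ENNReal.one_le_ofReal, mul_one_div, le_div_iff₀ h3, one_mul]
    exact h2
  have hm : MeasurableSet (V ∩ ball y r) := hV.inter measurableSet_ball
  calc μ (V ∩ ball y r) = ∫⁻ z in V ∩ ball y r, 1 ∂μ := by simp
    _ ≤ ∫⁻ z in V ∩ ball y r, ENNReal.ofReal (2 * r) ^ n * ENNReal.ofReal (1 / τ z) ^ n ∂μ :=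
        setLIntegral_mono' hm h1
    _ ≤ ∫⁻ z in V, ENNReal.ofReal (2 * r) ^ n * ENNReal.ofReal (1 / τ z) ^ n ∂μ :=
        lintegral_mono_set inter_subset_left
    _ = ENNReal.ofReal (2 * r) ^ n * ∫⁻ z in V, ENNReal.ofReal (1 / τ z) ^ n ∂μ := by
        rw [lintegral_const_mul]
        fun_prop
    _ ≤ _ := by gcongr

end Vale.Agent.P073.H911
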