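import Vale.Agent.P073.H911.BoxSum

/-!
# P073, H911: [SUMF-VOL] in the forms of 950's list
-/

namespace Vale.Agent.P073.H911

open MeasureTheory Set Filter Topology Metric Vale.Agent.P073.St
open Vale.Agent.P073.AB (Idx cl)
open Vale.Agent.P073.H696 (HF am Boxes blk blkS deep)
open P073.Net (dyc dyo)
open scoped ENNReal NNReal

variable {p ε M₀ : ℝ} {c : ℝ≥0∞} {τ φ κ μ : V → ℝ} {s : V → ℕ} {Ω Λ : Set V} {f : V → V}
  {F : V → Mat} {v : V} {nn : ℕ → ℕ} {K : Set Idx} {x : Idx → V}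

/-- volume of the box without the deep cubes -/
theorem vol_deep (v : V) {n : Idx → ℕ} {k : Idx} {a : ℕ} (hn : n k = k.1 + a) {c : ℝ}
    (hc : 0 ≤ c) (hc1 : c ≤ 1 / 2) :
    volume (dyc v k.1 k.2 \ deep v n c k) ≤
      ENNReal.ofReal (24 / 2 ^ a + 6 * c) * volume (dyc v k.1 k.2) := by
  refine (volume_sdiff_deep v n (by omega) hc hc1).trans ?_
  rw [show n k - k.1 = a by omega]
  gcongr
  norm_num

/-- volume of the box without the inner block -/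
theorem vol_blkS (v : V) {n : ℕ} {k : Idx} {a : ℕ} (hn : n = k.1 + a) :
    volume (dyc v k.1 k.2 \ blkS v k n) ≤
      ENNReal.ofReal (24 / 2 ^ a) * volume (dyc v k.1 k.2) := by
  refine (volume_sdiff_blkS v (by omega)).trans ?_
  rw [show n - k.1 = a by omega]
  gcongr
  norm_num

/-- the density on a part of a box -/
theorem int_HF_le (B : Boxes p ε M₀ c τ φ κ μ s Ω Λ f F v nn K x) (hp : 1 ≤ p)
    (hF : St.IsSobolev p Ω f F) {k : Idx} (hk : k ∈ K) {S : Set V} (hS : MeasurableSet S)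
    (hSk : S ⊆ dyc v k.1 k.2) :
    ∫⁻ y in S, HF p Ω F y ≤ ENNReal.ofReal (2 ^ (p - 1)) * (‖cl (F (x k))‖ₑ ^ p * volume S +
      ENNReal.ofReal (κ (x k)) * volume (dyc v k.1 k.2)) := by
  have hsub : S ⊆ Ω := hSk.trans (B.pt k hk).2.1
  have h2 : (2 : ℝ≥0∞) ^ (p - 1) = ENNReal.ofReal (2 ^ (p - 1)) := by
    rw [← ENNReal.ofReal_rpow_of_pos (by norm_num)]; norm_num
  rw [← h2]
  calc ∫⁻ y in S, HF p Ω F y = ∫⁻ y in S, ‖cl (F y)‖ₑ ^ p := by
        refine setLIntegral_congr_fun hS fun y hy => ?_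
        simp only [HF]
        rw [indicator_of_mem (hsub hy)]
    _ ≤ ∫⁻ y in S, 2 ^ (p - 1) * (‖cl (F (x k))‖ₑ ^ p +
          ‖cl (F y) - cl (F (x k))‖ₑ ^ p) := lintegral_mono fun y => enorm_rpow_add_le hp _ _
    _ = 2 ^ (p - 1) * (‖cl (F (x k))‖ₑ ^ p * volume S +
        ∫⁻ y in S, ‖cl (F y) - cl (F (x k))‖ₑ ^ p) := by
          rw [lintegral_const_mul' _ _ (two_rpow_ne_top p),
            lintegral_add_right' _ (aem_sub hF hsub _), setLIntegral_const]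
    _ ≤ _ := by
          gcongr
          exact (lintegral_mono_set hSk).trans (B.leb k hk)

/-- the boxes as a structure `Bx` -/
theorem bx_of (B : Boxes p ε M₀ c τ φ κ μ s Ω Λ f F v nn K x) {κ₀ : ℝ}
    (hκ : ∀ k ∈ K, κ (x k) ≤ κ₀) : Bx p Ω F v K x (ENNReal.ofReal κ₀) where
  sub k hk := (B.pt k hk).2.1
  disj := B.disj
  leb k hk := (B.leb k hk).trans (by gcongr; exact hκ k hk)

/-- **[CHOICE]** -/
theorem exists_choice {φ E : V → ℝ} (hφ : ∀ x, 0 < φ x) {ε : ℝ} (hε : 0 < ε) :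
    ∃ (c₀ : V → ℝ) (a : V → ℕ), (∀ x, 0 < c₀ x ∧ c₀ x ≤ 1 / 64) ∧ (∀ x, 4 ≤ a x) ∧
      ∀ x, 24 / 2 ^ a x + 24 * c₀ x ≤ φ x ∧ 24 / 2 ^ a x + 24 * c₀ x ≤ ε / (|E x| + 1) := by
  have h1 : ∀ x, ∃ (c : ℝ) (a : ℕ), (0 < c ∧ c ≤ 1 / 64) ∧ 4 ≤ a ∧
      24 / 2 ^ a + 24 * c ≤ φ x ∧ 24 / 2 ^ a + 24 * c ≤ ε / (|E x| + 1) := by
    intro x
    set η : ℝ := min (φ x) (ε / (|E x| + 1)) with hη
    have hη0 : 0 < η := lt_min (hφ x) (by positivity)
    obtain ⟨a, ha⟩ := exists_pow_lt_of_lt_one (show 0 < η / 48 by positivity)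
      (show (1 / 2 : ℝ) < 1 by norm_num)
    have h2 : (24 : ℝ) / 2 ^ (max 4 a) ≤ η / 2 := by
      have h3 : ((1 / 2 : ℝ)) ^ (max 4 a) ≤ (1 / 2) ^ a :=
        pow_le_pow_of_le_one (by norm_num) (by norm_num) (le_max_right _ _)
      have h4 : (24 : ℝ) / 2 ^ (max 4 a) = 24 * (1 / 2) ^ (max 4 a) := by
        rw [one_div_pow]
        ring
      rw [h4]
      linarith
    have h5 : 24 * min (1 / 64) (η / 48) ≤ η / 2 := by
      have := min_le_right (1 / 64) (η / 48)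
      linarith
    have h6 : 24 / 2 ^ (max 4 a) + 24 * min (1 / 64) (η / 48) ≤ η := by linarith
    exact ⟨min (1 / 64) (η / 48), max 4 a, ⟨by positivity, min_le_left _ _⟩, le_max_left _ _,
      h6.trans (min_le_left _ _), h6.trans (min_le_right _ _)⟩
  choose c₀ a h2 h3 h4 using h1
  exact ⟨c₀, a, h2, h3, h4⟩

end Vale.Agent.P073.H911
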