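import Vale.Agent.P073.Net.Defs

/-!
# P073, H911: selection of good cubes, volume form

`f : Ω → Λ` a homeomorphism between open sets of `ℝ³`, differentiable with invertible derivative on
a set `G` with `|f (Ω \ G)| = 0`. There is a locally finite family of dyadic cubes of `Ω` such that
`f` is close to affine on every cube and the images of the (slightly shrunk) cubes under the affine
maps fill `Λ` up to a set which is as small as we want for a given locally bounded weight.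
-/

open Set Metric Topology MeasureTheory Filter
open scoped ENNReal

namespace Vale.Agent.P073.H911

open Vale.Agent.P073.St (V IsHomeo)
open P073.Net (dyc dyo)

/-! ### one cube -/

/-- the centre of the dyadic cube -/
noncomputable def ctr (v : V) (m : ℕ) (z : Fin 3 → ℤ) : V := fun k => v k + (z k + 1 / 2) / 2 ^ m

/-- half the side of a dyadic cube -/
noncomputable def hs (m : ℕ) : ℝ := 1 / 2 ^ m / 2

theorem hs_pos (m : ℕ) : 0 < hs m := by unfold hs; positivity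

theorem dyc_eq (v : V) (m : ℕ) (z : Fin 3 → ℤ) : dyc v m z = closedBall (ctr v m z) (hs m) := by
  have h2 : (0 : ℝ) < 2 ^ m := by positivity
  ext x
  rw [mem_closedBall, dist_pi_le_iff (hs_pos m).le]
  simp only [dyc, mem_ofPred_eq, ctr, hs, Real.dist_eq, abs_le]
  refine forall_congr' fun k => ?_
  have e1 : (z k + 1 / 2 : ℝ) / 2 ^ m = z k / 2 ^ m + 1 / 2 ^ m / 2 := by ring
  have e2 : (z k + 1 : ℝ) / 2 ^ m = z k / 2 ^ m + 1 / 2 ^ m := by ring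
  rw [e1, e2]
  constructor
  · rintro ⟨h1, h3⟩; constructor <;> linarith
  · rintro ⟨h1, h3⟩; constructor <;> linarith

theorem dyo_eq (v : V) (m : ℕ) (z : Fin 3 → ℤ) : dyo v m z = ball (ctr v m z) (hs m) := by
  have h2 : (0 : ℝ) < 2 ^ m := by positivity
  ext x
  rw [mem_ball, dist_pi_lt_iff (hs_pos m)]
  simp only [dyo, mem_ofPred_eq, ctr, hs, Real.dist_eq, abs_lt]
  refine forall_congr' fun k => ?_
  have e1 : (z k + 1 / 2 : ℝ) / 2 ^ m = z k / 2 ^ m + 1 / 2 ^ m / 2 := by ring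
  have e2 : (z k + 1 : ℝ) / 2 ^ m = z k / 2 ^ m + 1 / 2 ^ m := by ring
  rw [e1, e2]
  constructor
  · rintro ⟨h1, h3⟩; constructor <;> linarith
  · rintro ⟨h1, h3⟩; constructor <;> linarith

/-- the shrunk cube -/
noncomputable def shr (v : V) (m : ℕ) (z : Fin 3 → ℤ) (κ : ℝ) : Set V :=
  closedBall (ctr v m z) ((1 - κ) * hs m)

theorem volume_closedBall (c : V) {r : ℝ} (hr : 0 ≤ r) :
    volume (closedBall c r) = ENNReal.ofReal ((2 * r) ^ 3) := by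
  rw [Real.volume_pi_closedBall c hr]; simp

/-- The image of a ball under a map which is close to the identity. -/
theorem sub_image {g : V → V} {c : V} {ρ κ : ℝ} (hρ : 0 < ρ) (hκ : 0 < κ) (hκ1 : κ ≤ 1 / 2)
    (hgc : ContinuousOn g (closedBall c ρ)) (hgo : IsOpen (g '' ball c ρ))
    (hg : ∀ y ∈ closedBall c ρ, ‖g y - y‖ ≤ κ / 2 * ρ) :
    closedBall c ((1 - κ) * ρ) ⊆ g '' ball c ρ := by
  have hcl : IsClosed (g '' closedBall c ρ) :=
    ((isCompact_closedBall c ρ).image_of_continuousOn hgc).isClosed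
  have hpc : IsPreconnected (closedBall c ((1 - κ) * ρ)) := (convex_closedBall c _).isPreconnected
  refine hpc.subset_left_of_subset_union hgo hcl.isOpen_compl ?_ ?_ ?_
  · rw [Set.disjoint_compl_right_iff_subset]
    exact image_mono ball_subset_closedBall
  · intro s hs
    by_cases h : s ∈ g '' closedBall c ρ
    · left
      obtain ⟨y, hy, rfl⟩ := h
      refine ⟨y, ?_, rfl⟩
      rw [mem_ball]
      by_contra hlt
      push Not at hlt
      have h1 := hg y hy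
      rw [mem_closedBall] at hs hy
      have h2 : dist y c ≤ dist (g y) c + ‖g y - y‖ := by
        rw [← dist_eq_norm, dist_comm (g y) y, add_comm]
        exact dist_triangle _ _ _
      nlinarith
    · right; exact h
  · have hc : c ∈ closedBall c ρ := mem_closedBall_self hρ.le
    refine ⟨g c, ?_, c, mem_ball_self hρ, rfl⟩
    rw [mem_closedBall, dist_eq_norm]
    refine (hg c hc).trans ?_
    nlinarith

theorem image_sub {g : V → V} {c : V} {ρ κ : ℝ} (hρ : 0 < ρ) (hκ : 0 < κ)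
    (hg : ∀ y ∈ closedBall c ρ, ‖g y - y‖ ≤ κ / 2 * ρ) :
    g '' closedBall c ρ ⊆ closedBall c ((1 + κ) * ρ) := by
  rintro _ ⟨y, hy, rfl⟩
  have h1 := hg y hy
  rw [mem_closedBall] at hy ⊢
  have h2 : dist (g y) c ≤ ‖g y - y‖ + dist y c := by
    rw [← dist_eq_norm]; exact dist_triangle _ _ _
  nlinarith

/-- volume of the gap -/
theorem volume_gap {g : V → V} {c : V} {ρ κ : ℝ} (hρ : 0 < ρ) (hκ : 0 < κ) (hκ1 : κ ≤ 1 / 2)
    (hg : ∀ y ∈ closedBall c ρ, ‖g y - y‖ ≤ κ / 2 * ρ) :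
    volume (g '' closedBall c ρ \ closedBall c ((1 - κ) * ρ)) ≤
      ENNReal.ofReal (64 * κ) * volume (closedBall c ((1 - κ) * ρ)) := by
  have h1 : volume (g '' closedBall c ρ \ closedBall c ((1 - κ) * ρ)) ≤
      volume (closedBall c ((1 + κ) * ρ) \ closedBall c ((1 - κ) * ρ)) :=
    measure_mono (sdiff_subset_sdiff_left (image_sub hρ hκ hg))
  refine h1.trans ?_
  have h0 : 0 ≤ (1 - κ) * ρ := by nlinarith
  have h0' : 0 ≤ (1 + κ) * ρ := by nlinarith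
  rw [measure_sdiff (closedBall_subset_closedBall (by nlinarith))
    isClosed_closedBall.measurableSet.nullMeasurableSet (measure_closedBall_lt_top).ne,
    volume_closedBall c h0, volume_closedBall c h0', ← ENNReal.ofReal_mul (by positivity),
    ← ENNReal.ofReal_sub _ (by positivity)]
  refine ENNReal.ofReal_le_ofReal ?_
  have e : (2 * ((1 + κ) * ρ)) ^ 3 - (2 * ((1 - κ) * ρ)) ^ 3 =
      (2 * ρ) ^ 3 * ((1 + κ) ^ 3 - (1 - κ) ^ 3) := by ring
  have e2 : 64 * κ * (2 * ((1 - κ) * ρ)) ^ 3 = (2 * ρ) ^ 3 * (64 * κ * (1 - κ) ^ 3) := by ring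
  rw [e, e2]
  refine mul_le_mul_of_nonneg_left ?_ (by positivity)
  have h3 : (1 / 2 : ℝ) ^ 3 ≤ (1 - κ) ^ 3 := by gcongr; linarith
  nlinarith [mul_nonneg hκ.le hκ.le, pow_pos hκ 3]

theorem volume_affine_image (L : V →L[ℝ] V) (a x : V) (S : Set V) :
    volume ((fun y => a + L (y - x)) '' S) = ENNReal.ofReal |L.det| * volume S := by
  have h1 : (fun y => a + L (y - x)) '' S = (fun y => (a - L x) + y) '' (L '' S) := by
    rw [image_image]
    refine image_congr fun y _ => ?_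
    rw [map_sub]; abel
  rw [h1, image_add_left, measure_preimage_add, Measure.addHaar_image_continuousLinearMap]

theorem isOpen_image {Ω Λ : Set V} {f : V → V} (hΛ : IsOpen Λ) (hf : IsHomeo Ω Λ f) {U : Set V}
    (hU : IsOpen U) (hUΩ : U ⊆ Ω) : IsOpen (f '' U) := by
  obtain ⟨h, hinv, hfc, hhc⟩ := hf
  have e : f '' U = Λ ∩ h ⁻¹' U := by
    ext y
    constructor
    · rintro ⟨x, hx, rfl⟩
      have h1 := hinv.1 x (hUΩ hx)
      exact ⟨h1.1, by rw [mem_preimage, h1.2]; exact hx⟩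
    · rintro ⟨hy, hyU⟩
      exact ⟨h y, hyU, (hinv.2 y hy).2⟩
  rw [e]
  exact hhc.isOpen_inter_preimage hΛ hU

theorem ofReal_mul_le_aux {η : ℝ≥0∞} (hη : η ≠ 0) (C : NNReal) {κ₀ : ℝ} (hκ₀ : 0 < κ₀) :
    ∃ κ : ℝ, 0 < κ ∧ κ ≤ κ₀ ∧ κ ≤ 1 / 2 ∧ (C : ℝ≥0∞) * ENNReal.ofReal (64 * κ) ≤ η := by
  obtain ⟨η', h0, h1⟩ := ENNReal.lt_iff_exists_nnreal_btwn.1 (pos_iff_ne_zero.2 hη)
  have h0' : (0 : ℝ) < η' := by exact_mod_cast h0
  have hC : (0 : ℝ) < C + 1 := by positivity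
  refine ⟨min (min κ₀ (1 / 2)) (η' / (64 * (C + 1))), by positivity,
    (min_le_left _ _).trans (min_le_left _ _), (min_le_left _ _).trans (min_le_right _ _), ?_⟩
  refine le_trans ?_ h1.le
  have h2 : min (min κ₀ (1 / 2)) (η' / (64 * (C + 1))) ≤ η' / (64 * (C + 1)) := min_le_right _ _
  have h3 : (C : ℝ≥0∞) = ENNReal.ofReal C := by simp
  have h4 : (η' : ℝ≥0∞) = ENNReal.ofReal η' := by simp
  rw [h3, h4, ← ENNReal.ofReal_mul (by positivity)]
  refine ENNReal.ofReal_le_ofReal ?_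
  calc (C : ℝ) * (64 * min (min κ₀ (1 / 2)) (η' / (64 * (C + 1))))
      ≤ C * (64 * (η' / (64 * (C + 1)))) := by gcongr
    _ = η' * (C / (C + 1)) := by field_simp
    _ ≤ η' * 1 := by
      gcongr
      rw [div_le_one hC]; linarith
    _ = η' := mul_one _

/-- **All small dyadic cubes containing a good point are good.** -/
theorem good_cube {Ω Λ : Set V} {f : V → V} (hΩ : IsOpen Ω) (hΛ : IsOpen Λ) (hf : IsHomeo Ω Λ f)
    {x : V} (hx : x ∈ Ω) {L : V →L[ℝ] V} (hL : HasFDerivAt f L x) (hdet : L.det ≠ 0)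
    {w : V → ℝ≥0∞} (hw : ∃ C : NNReal, ∀ᶠ y in 𝓝 (f x), w y ≤ C) {η : ℝ≥0∞} (hη : η ≠ 0)
    {κ₀ : ℝ} (hκ₀ : 0 < κ₀) (v : V) :
    ∃ κ : ℝ, 0 < κ ∧ κ ≤ κ₀ ∧ κ ≤ 1 / 2 ∧ ∃ M : ℕ, ∀ m ≥ M, ∀ z, x ∈ dyc v m z →
      dyc v m z ⊆ Ω ∧
      (∀ y ∈ dyc v m z, ‖f y - (f x + L (y - x))‖ ≤ κ / 2 ^ m ∧
        ∃ y', ‖y' - y‖ ≤ κ / 4 / 2 ^ m ∧ f y = f x + L (y' - x)) ∧
      (fun y => f x + L (y - x)) '' shr v m z κ ⊆ f '' dyo v m z ∧
      ∫⁻ y in f '' dyc v m z \ (fun y => f x + L (y - x)) '' shr v m z κ, w y ≤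
        η * volume (f '' dyo v m z) := by
  obtain ⟨C, hC⟩ := hw
  obtain ⟨κ, hκ, hκκ₀, hκ1, hκη⟩ := ofReal_mul_le_aux hη C hκ₀
  refine ⟨κ, hκ, hκκ₀, hκ1, ?_⟩
  set Le : V ≃L[ℝ] V := L.toContinuousLinearEquivOfDetNeZero hdet with hLe
  have hLe1 : ∀ u, L (Le.symm u) = u := fun u => Le.apply_symm_apply u
  have hLe2 : ∀ u, Le.symm (L u) = u := fun u => Le.symm_apply_apply u
  set N : ℝ := ‖(Le.symm : V →L[ℝ] V)‖ with hN
  have hN0 : 0 ≤ N := norm_nonneg _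
  -- the small constant
  set ε : ℝ := min κ (κ / (4 * (N + 1))) with hε
  have hε0 : 0 < ε := by positivity
  have hNε : N * ε ≤ κ / 4 := by
    calc N * ε ≤ (N + 1) * (κ / (4 * (N + 1))) := by
          gcongr
          · linarith
          · exact min_le_right _ _
      _ = κ / 4 := by field_simp
  have hd := hL.isLittleO.def hε0
  obtain ⟨δ₁, hδ₁, h1⟩ := Metric.eventually_nhds_iff.1 hd
  obtain ⟨δ₂, hδ₂, h2⟩ := Metric.eventually_nhds_iff.1 (hL.continuousAt.eventually hC)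
  obtain ⟨δ₃, hδ₃, h3⟩ := Metric.isOpen_iff.1 hΩ x hx
  obtain ⟨M, hM⟩ := exists_pow_lt_of_lt_one (lt_min (lt_min hδ₁ hδ₂) hδ₃)
    (by norm_num : (1 / 2 : ℝ) < 1)
  refine ⟨M, fun m hm z hxz => ?_⟩
  have hsm : (1 / 2 : ℝ) ^ m < min (min δ₁ δ₂) δ₃ :=
    lt_of_le_of_lt (pow_le_pow_of_le_one (by norm_num) (by norm_num) hm) hM
  have hs2 : (1 / 2 : ℝ) ^ m = 1 / 2 ^ m := by rw [one_div_pow]
  have hs3 : (1 : ℝ) / 2 ^ m = 2 * hs m := by unfold hs; ring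
  rw [dyc_eq] at hxz
  have hdist : ∀ y ∈ closedBall (ctr v m z) (hs m), dist y x ≤ 1 / 2 ^ m := by
    intro y hy
    rw [hs3]
    refine (dist_triangle y (ctr v m z) x).trans ?_
    rw [mem_closedBall] at hy hxz
    rw [dist_comm] at hxz
    linarith
  have hy1 : ∀ y ∈ closedBall (ctr v m z) (hs m), dist y x < min (min δ₁ δ₂) δ₃ := fun y hy =>
    lt_of_le_of_lt (hdist y hy) (hs2 ▸ hsm)
  have hsubΩ : closedBall (ctr v m z) (hs m) ⊆ Ω := fun y hy =>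
    h3 (lt_of_lt_of_le (hy1 y hy) (min_le_right _ _))
  -- `f` is close to affine
  have hcl : ∀ y ∈ closedBall (ctr v m z) (hs m), ‖f y - (f x + L (y - x))‖ ≤ ε / 2 ^ m := by
    intro y hy
    have h5 := h1 (lt_of_lt_of_le (hy1 y hy) ((min_le_left _ _).trans (min_le_left _ _)))
    have h6 : f y - (f x + L (y - x)) = f y - f x - L (y - x) := by abel
    rw [h6]
    refine h5.trans ?_
    rw [← dist_eq_norm, div_eq_mul_one_div]
    exact mul_le_mul_of_nonneg_left (hdist y hy) hε0.le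
  -- the map in the domain
  set g : V → V := fun y => x + Le.symm (f y - f x) with hg
  have hfg : ∀ y, f y = f x + L (g y - x) := by
    intro y
    simp only [hg, add_sub_cancel_left, hLe1]
    abel
  have hgid : ∀ y ∈ closedBall (ctr v m z) (hs m), ‖g y - y‖ ≤ κ / 4 / 2 ^ m := by
    intro y hy
    have h5 : g y - y = (Le.symm : V →L[ℝ] V) (f y - (f x + L (y - x))) := by
      have h6 : f y - (f x + L (y - x)) = (f y - f x) - L (y - x) := by abel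
      rw [h6, map_sub]
      have h7 : (Le.symm : V →L[ℝ] V) (L (y - x)) = y - x := hLe2 _
      rw [h7]
      simp only [hg, ContinuousLinearEquiv.coe_coe]
      abel
    rw [h5]
    refine ((Le.symm : V →L[ℝ] V).le_opNorm _).trans ?_
    calc N * ‖f y - (f x + L (y - x))‖ ≤ N * (ε / 2 ^ m) :=
          mul_le_mul_of_nonneg_left (hcl y hy) hN0
      _ = N * ε / 2 ^ m := by ring
      _ ≤ κ / 4 / 2 ^ m := by gcongr
  have hgid' : ∀ y ∈ closedBall (ctr v m z) (hs m), ‖g y - y‖ ≤ κ / 2 * hs m := by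
    intro y hy
    refine (hgid y hy).trans (le_of_eq ?_)
    unfold hs; ring
  have hfc : ContinuousOn f Ω := by
    obtain ⟨h, -, h4, -⟩ := hf
    exact h4
  have hgc : ContinuousOn g (closedBall (ctr v m z) (hs m)) := by
    refine continuousOn_const.add (Le.symm.continuous.comp_continuousOn ?_)
    exact (hfc.mono hsubΩ).sub continuousOn_const
  have hfo : IsOpen (f '' ball (ctr v m z) (hs m)) :=
    isOpen_image hΛ hf isOpen_ball (ball_subset_closedBall.trans hsubΩ)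
  have hgo : IsOpen (g '' ball (ctr v m z) (hs m)) := by
    have e : g '' ball (ctr v m z) (hs m) =
        (fun y => f x + L (y - x)) ⁻¹' (f '' ball (ctr v m z) (hs m)) := by
      ext y
      constructor
      · rintro ⟨u, hu, rfl⟩
        exact ⟨u, hu, hfg u⟩
      · rintro ⟨u, hu, hu'⟩
        refine ⟨u, hu, ?_⟩
        rw [hfg u] at hu'
        have h5 : L (g u - x) = L (y - x) := add_left_cancel hu'
        have h6 := congrArg Le.symm h5
        rw [hLe2, hLe2] at h6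
        exact sub_left_injective h6
    rw [e]
    exact hfo.preimage (by fun_prop)
  have hsub := sub_image (hs_pos m) hκ hκ1 hgc hgo hgid'
  have hgap := volume_gap (c := ctr v m z) (hs_pos m) hκ hκ1 hgid'
  have himg : ∀ S, f '' S = (fun y => f x + L (y - x)) '' (g '' S) := by
    intro S
    rw [image_image]
    exact image_congr fun y _ => hfg y
  have hinj : Function.Injective (fun y => f x + L (y - x)) := by
    intro a b hab
    have h5 : L (a - x) = L (b - x) := add_left_cancel hab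
    have h6 := congrArg Le.symm h5
    rw [hLe2, hLe2] at h6
    exact sub_left_injective h6
  have hAS : (fun y => f x + L (y - x)) '' shr v m z κ ⊆ f '' dyo v m z := by
    rw [dyo_eq, himg, shr]
    exact image_mono hsub
  refine ⟨by rw [dyc_eq]; exact hsubΩ, fun y hy => ?_, hAS, ?_⟩
  · rw [dyc_eq] at hy
    refine ⟨(hcl y hy).trans ?_, g y, hgid y hy, hfg y⟩
    gcongr
    exact min_le_left _ _
  · -- the integral
    have h5 : ∫⁻ y in f '' dyc v m z \ (fun y => f x + L (y - x)) '' shr v m z κ, w y ≤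
        C * volume (f '' dyc v m z \ (fun y => f x + L (y - x)) '' shr v m z κ) := by
      rw [← setLIntegral_const]
      refine setLIntegral_mono_ae' ?_ (ae_of_all _ ?_)
      · have h6 : IsCompact (f '' dyc v m z) := by
          rw [dyc_eq]
          exact (isCompact_closedBall _ _).image_of_continuousOn (hfc.mono hsubΩ)
        have h7 : IsCompact ((fun y => f x + L (y - x)) '' shr v m z κ) :=
          (isCompact_closedBall _ _).image (by fun_prop)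
        exact h6.isClosed.measurableSet.diff h7.isClosed.measurableSet
      · rintro _ ⟨⟨y, hy, rfl⟩, -⟩
        rw [dyc_eq] at hy
        exact h2 (lt_of_lt_of_le (hy1 y hy) ((min_le_left _ _).trans (min_le_right _ _)))
    refine h5.trans ?_
    have h6 : f '' dyc v m z \ (fun y => f x + L (y - x)) '' shr v m z κ =
        (fun y => f x + L (y - x)) '' (g '' closedBall (ctr v m z) (hs m) \
          closedBall (ctr v m z) ((1 - κ) * hs m)) := by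
      rw [image_sdiff hinj, ← himg, dyc_eq, shr]
    rw [h6, volume_affine_image]
    calc (C : ℝ≥0∞) * (ENNReal.ofReal |L.det| * volume (g '' closedBall (ctr v m z) (hs m) \
          closedBall (ctr v m z) ((1 - κ) * hs m)))
        ≤ C * (ENNReal.ofReal |L.det| * (ENNReal.ofReal (64 * κ) *
          volume (closedBall (ctr v m z) ((1 - κ) * hs m)))) := by gcongr
      _ = (C * ENNReal.ofReal (64 * κ)) * (ENNReal.ofReal |L.det| *
          volume (closedBall (ctr v m z) ((1 - κ) * hs m))) := by ring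
      _ ≤ η * volume (f '' dyo v m z) := by
        refine mul_le_mul' hκη ?_
        rw [← volume_affine_image L (f x) x]
        exact measure_mono hAS

/-! ### half-open dyadic cubes -/

/-- the index of the half-open dyadic cube of level `m` containing `x` -/
noncomputable def idx (v : V) (m : ℕ) (x : V) : Fin 3 → ℤ := fun k => ⌊(x k - v k) * 2 ^ m⌋

/-- the half-open dyadic cube -/
def hc (v : V) (m : ℕ) (z : Fin 3 → ℤ) : Set V := {x | idx v m x = z}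

theorem mem_hc_idx (v : V) (m : ℕ) (x : V) : x ∈ hc v m (idx v m x) := rfl

theorem hc_sub_dyc (v : V) (m : ℕ) (z : Fin 3 → ℤ) : hc v m z ⊆ dyc v m z := by
  intro x hx
  have h2 : (0 : ℝ) < 2 ^ m := by positivity
  intro k
  have h1 : ⌊(x k - v k) * 2 ^ m⌋ = z k := congrFun hx k
  rw [Int.floor_eq_iff] at h1
  obtain ⟨h3, h4⟩ := h1
  constructor
  · have : z k / 2 ^ m ≤ x k - v k := by rw [div_le_iff₀ h2]; exact h3
    linarith
  · have : x k - v k ≤ (z k + 1) / 2 ^ m := by rw [le_div_iff₀ h2]; exact h4.le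
    linarith

theorem dyo_sub_hc (v : V) (m : ℕ) (z : Fin 3 → ℤ) : dyo v m z ⊆ hc v m z := by
  intro x hx
  have h2 : (0 : ℝ) < 2 ^ m := by positivity
  funext k
  obtain ⟨h3, h4⟩ := hx k
  show ⌊(x k - v k) * 2 ^ m⌋ = z k
  rw [Int.floor_eq_iff]
  constructor
  · have : z k / 2 ^ m ≤ x k - v k := by linarith
    rwa [div_le_iff₀ h2] at this
  · have : x k - v k < (z k + 1) / 2 ^ m := by linarith
    rwa [lt_div_iff₀ h2] at this

theorem measurableSet_hc (v : V) (m : ℕ) (z : Fin 3 → ℤ) : MeasurableSet (hc v m z) := by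
  have : hc v m z = ⋂ k, {x : V | ⌊(x k - v k) * 2 ^ m⌋ = z k} := by
    ext x
    simp only [hc, mem_ofPred_eq, mem_iInter, funext_iff, idx]
  rw [this]
  refine MeasurableSet.iInter fun k => ?_
  have h1 : Measurable fun x : V => ⌊(x k - v k) * 2 ^ m⌋ :=
    Int.measurable_floor.comp (((measurable_pi_apply k).sub_const _).mul_const _)
  exact h1 (measurableSet_singleton _)

/-- nestedness: the index at level `m` determines the indices at the lower levels -/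
theorem idx_mono {v : V} {m m' : ℕ} (hm : m' ≤ m) {x y : V} (h : idx v m x = idx v m y) :
    idx v m' x = idx v m' y := by
  funext k
  have h1 : ⌊(x k - v k) * 2 ^ m⌋ = ⌊(y k - v k) * 2 ^ m⌋ := congrFun h k
  have key : ∀ a : ℝ, ⌊a * 2 ^ m'⌋ = ⌊a * 2 ^ m⌋ / ((2 ^ (m - m') : ℕ) : ℤ) := by
    intro a
    rw [← Int.floor_div_natCast]
    congr 1
    have e : (2 : ℝ) ^ m = 2 ^ m' * 2 ^ (m - m') := by rw [← pow_add]; congr 1; omega
    push_cast
    rw [e]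
    field_simp
  show ⌊(x k - v k) * 2 ^ m'⌋ = ⌊(y k - v k) * 2 ^ m'⌋
  rw [key, key, h1]

/-- **Maximal cubes.** -/
theorem exists_max (v : V) (Good : ℕ → (Fin 3 → ℤ) → Prop) (G : Set V)
    (hG : ∀ x ∈ G, ∃ m, Good m (idx v m x)) :
    ∃ K : Set (ℕ × (Fin 3 → ℤ)), (∀ k ∈ K, Good k.1 k.2) ∧
      (∀ k ∈ K, ∀ k' ∈ K, k ≠ k' → Disjoint (hc v k.1 k.2) (hc v k'.1 k'.2)) ∧
      G ⊆ ⋃ k ∈ K, hc v k.1 k.2 := by
  classical
  refine ⟨{k | Good k.1 k.2 ∧ ∀ m' < k.1, ∀ y ∈ hc v k.1 k.2, ¬ Good m' (idx v m' y)},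
    fun k hk => hk.1, ?_, ?_⟩
  · intro k hk k' hk' hne
    rw [Set.disjoint_left]
    intro y hy hy'
    rcases lt_trichotomy k.1 k'.1 with h | h | h
    · refine hk'.2 k.1 h y hy' ?_
      rw [show idx v k.1 y = k.2 from hy]; exact hk.1
    · apply hne
      refine Prod.ext h ?_
      rw [← show idx v k.1 y = k.2 from hy, ← show idx v k'.1 y = k'.2 from hy', h]
    · refine hk.2 k'.1 h y hy ?_
      rw [show idx v k'.1 y = k'.2 from hy']; exact hk'.1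
  · intro x hx
    have hex := hG x hx
    refine mem_biUnion (x := (Nat.find hex, idx v (Nat.find hex) x)) ?_ (mem_hc_idx _ _ _)
    refine ⟨Nat.find_spec hex, fun m' hm' y hy hgood => Nat.find_min hex hm' ?_⟩
    have h1 : idx v m' y = idx v m' x := idx_mono (le_of_lt hm') hy
    rwa [h1] at hgood

/-! ### exhaustion -/

/-- the compact exhaustion -/
def exh (Ω : Set V) (j : ℕ) : Set V :=
  {x | ‖x‖ ≤ j ∧ ENNReal.ofReal (1 / (j + 1)) ≤ infEDist x Ωᶜ}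

theorem isClosed_exh (Ω : Set V) (j : ℕ) : IsClosed (exh Ω j) :=
  (isClosed_le continuous_norm continuous_const).inter
    (isClosed_le continuous_const continuous_infEDist)

theorem isCompact_exh (Ω : Set V) (j : ℕ) : IsCompact (exh Ω j) := by
  refine (isCompact_closedBall (0 : V) j).of_isClosed_subset (isClosed_exh Ω j) fun x hx => ?_
  rw [mem_closedBall_zero_iff]; exact hx.1

theorem exh_sub (Ω : Set V) (j : ℕ) : exh Ω j ⊆ Ω := by
  intro x hx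
  by_contra h
  have h1 : infEDist x Ωᶜ = 0 := infEDist_zero_of_mem h
  have h2 := hx.2
  rw [h1] at h2
  have h3 : (0 : ℝ) < 1 / (j + 1) := by positivity
  exact absurd (le_antisymm h2 bot_le) (ENNReal.ofReal_pos.2 h3).ne'

theorem exh_sub_interior (Ω : Set V) (j : ℕ) : exh Ω j ⊆ interior (exh Ω (j + 1)) := by
  have ho : IsOpen {x : V | ‖x‖ < (j + 1 : ℕ) ∧
      ENNReal.ofReal (1 / ((j + 1 : ℕ) + 1)) < infEDist x Ωᶜ} :=
    (isOpen_lt continuous_norm continuous_const).inter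
      (isOpen_lt continuous_const continuous_infEDist)
  refine subset_trans ?_ (interior_maximal (t := {x : V | ‖x‖ < (j + 1 : ℕ) ∧
      ENNReal.ofReal (1 / ((j + 1 : ℕ) + 1)) < infEDist x Ωᶜ}) ?_ ho)
  · rintro x ⟨h1, h2⟩
    refine ⟨lt_of_le_of_lt h1 (by exact_mod_cast Nat.lt_succ_self j), lt_of_lt_of_le ?_ h2⟩
    rw [ENNReal.ofReal_lt_ofReal_iff (by positivity)]
    push_cast
    apply one_div_lt_one_div_of_lt <;> linarith [(Nat.cast_nonneg j : (0:ℝ) ≤ j)]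
  · rintro x ⟨h1, h2⟩
    exact ⟨h1.le, h2.le⟩

theorem exh_mono (Ω : Set V) : Monotone (exh Ω) :=
  monotone_nat_of_le_succ fun j => (exh_sub_interior Ω j).trans interior_subset

theorem exists_mem_exh {Ω : Set V} (hΩ : IsOpen Ω) {x : V} (hx : x ∈ Ω) : ∃ j, x ∈ exh Ω j := by
  have h1 : 0 < infEDist x Ωᶜ := by
    rw [pos_iff_ne_zero, Ne, ← mem_closure_iff_infEDist_zero, hΩ.isClosed_compl.closure_eq]
    exact fun h => h hx
  obtain ⟨j₁, hj₁⟩ := exists_nat_ge ‖x‖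
  obtain ⟨δ, hδ0, hδ⟩ := ENNReal.lt_iff_exists_nnreal_btwn.1 h1
  have hδ0' : (0 : ℝ) < δ := by exact_mod_cast hδ0
  obtain ⟨j₂, hj₂⟩ := exists_nat_one_div_lt hδ0'
  refine ⟨max j₁ j₂, hj₁.trans (by exact_mod_cast le_max_left _ _), ?_⟩
  refine le_trans ?_ hδ.le
  rw [← ENNReal.ofReal_coe_nnreal]
  refine ENNReal.ofReal_le_ofReal (le_trans ?_ hj₂.le)
  gcongr
  exact le_max_right _ _

theorem exists_exh_of_compact {Ω : Set V} (hΩ : IsOpen Ω) {C : Set V} (hC : IsCompact C)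
    (hCΩ : C ⊆ Ω) : ∃ j, C ⊆ exh Ω j := by
  obtain ⟨j, hj⟩ := hC.elim_directed_cover (fun j => interior (exh Ω j))
    (fun j => isOpen_interior)
    (fun x hx => by
      obtain ⟨j, hj⟩ := exists_mem_exh hΩ (hCΩ hx)
      exact mem_iUnion.2 ⟨j + 1, exh_sub_interior Ω j hj⟩)
    (directed_of_isDirected_le fun i j hij => interior_mono (exh_mono Ω hij))
  exact ⟨j, hj.trans interior_subset⟩

/-- near every point the exhaustion has no jumps -/
theorem exists_nice {Ω : Set V} (hΩ : IsOpen Ω) {x : V} (hx : x ∈ Ω) :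
    ∃ d > 0, ∀ S : Set V, S ⊆ ball x d → ∀ i, (S ∩ exh Ω i).Nonempty → S ⊆ exh Ω (i + 1) := by
  classical
  have hex := exists_mem_exh hΩ hx
  set j := Nat.find hex with hj
  have hj1 : x ∈ exh Ω j := Nat.find_spec hex
  have ho : IsOpen (interior (exh Ω (j + 1)) \ ⋃ i ∈ Finset.range j, exh Ω i) := by
    refine isOpen_interior.sdiff (isClosed_biUnion_finset fun i _ => isClosed_exh Ω i)
  have hxm : x ∈ interior (exh Ω (j + 1)) \ ⋃ i ∈ Finset.range j, exh Ω i := by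
    refine ⟨exh_sub_interior Ω j hj1, ?_⟩
    simp only [mem_iUnion, not_exists, Finset.mem_range]
    intro i hi
    exact Nat.find_min hex hi
  obtain ⟨d, hd, hsub⟩ := Metric.isOpen_iff.1 ho x hxm
  refine ⟨d, hd, fun S hS i hi => ?_⟩
  obtain ⟨y, hyS, hyi⟩ := hi
  have h1 : j ≤ i := by
    by_contra hlt
    push Not at hlt
    have h2 := (hsub (hS hyS)).2
    apply h2
    exact mem_biUnion (Finset.mem_coe.2 (Finset.mem_range.2 hlt)) hyi
  exact fun z hz => exh_mono Ω (by omega : j + 1 ≤ i + 1) (interior_subset (hsub (hS hz)).1)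

/-- a locally bounded weight is integrable on compact sets of finite measure -/
theorem exists_bound {Λ C : Set V} (hC : IsCompact C) (hCΛ : C ⊆ Λ) {w : V → ℝ≥0∞}
    (hw : ∀ y ∈ Λ, ∃ B : NNReal, ∀ᶠ z in 𝓝 y, w z ≤ B) : ∃ B : NNReal, ∀ y ∈ C, w y ≤ B := by
  refine hC.induction_on (p := fun S => ∃ B : NNReal, ∀ y ∈ S, w y ≤ B) ⟨0, by simp⟩
    (fun s t hst ⟨B, hB⟩ => ⟨B, fun y hy => hB y (hst hy)⟩) ?_ ?_
  · rintro s t ⟨B, hB⟩ ⟨B', hB'⟩
    refine ⟨max B B', ?_⟩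
    rintro y (hy | hy)
    · exact (hB y hy).trans (by exact_mod_cast le_max_left _ _)
    · exact (hB' y hy).trans (by exact_mod_cast le_max_right _ _)
  · intro x hx
    obtain ⟨B, hB⟩ := hw x (hCΛ hx)
    exact ⟨_, mem_nhdsWithin_of_mem_nhds hB, B, fun y hy => hy⟩

theorem measurableSet_image {Ω Λ : Set V} {f : V → V} (hΛ : IsOpen Λ) (hf : IsHomeo Ω Λ f)
    {S : Set V} (hS : MeasurableSet S) (hSΩ : S ⊆ Ω) : MeasurableSet (f '' S) := by
  obtain ⟨h, hinv, hfc, hhc⟩ := hf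
  have e : f '' S = Subtype.val '' ((fun y : Λ => h y) ⁻¹' S) := by
    ext y
    constructor
    · rintro ⟨x, hx, rfl⟩
      have h1 := hinv.1 x (hSΩ hx)
      exact ⟨⟨f x, h1.1⟩, by rw [mem_preimage]; simpa only [h1.2] using hx, rfl⟩
    · rintro ⟨⟨y, hy⟩, hyS, rfl⟩
      exact ⟨h y, hyS, (hinv.2 y hy).2⟩
  have hm : Measurable (fun y : Λ => h y) := (continuousOn_iff_continuous_domRestrict.1 hhc).measurable
  rw [e]
  exact MeasurableSet.subtype_image hΛ.measurableSet (hm hS)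

/-! ### the selection -/

/-- the affine model -/
def aff (f : V → V) (D : V → V →L[ℝ] V) (x : V) : V → V := fun y => f x + D x (y - x)

/-- **Selection of good cubes.** -/
theorem exists_cubes_freq {Ω Λ : Set V} (hΩ : IsOpen Ω) (hΛ : IsOpen Λ) (hΛv : volume Λ ≠ ⊤) {f : V → V}
    (hf : IsHomeo Ω Λ f) {D : V → V →L[ℝ] V} {G : Set V} (hGΩ : G ⊆ Ω)
    (hG : volume (f '' (Ω \ G)) = 0) (hD : ∀ x ∈ G, HasFDerivAt f (D x) x)
    (hdet : ∀ x ∈ G, (D x).det ≠ 0) (v : V) {P : V → ℝ → ℕ → (Fin 3 → ℤ) → Prop}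
    (hP : ∀ x ∈ G, ∀ κ > 0, ∃ᶠ m in atTop, P x κ m (idx v m x))
    {κ₀ : V → ℝ} (hκ₀ : ∀ x ∈ G, 0 < κ₀ x) {w : V → ℝ≥0∞}
    (hw : ∀ y ∈ Λ, ∃ B : NNReal, ∀ᶠ z in 𝓝 y, w z ≤ B) {c : ℝ≥0∞} (hc0 : c ≠ 0) :
    ∃ (K : Set (ℕ × (Fin 3 → ℤ))) (x : ℕ × (Fin 3 → ℤ) → V) (κ : ℕ × (Fin 3 → ℤ) → ℝ),
      (∀ k ∈ K, x k ∈ G ∧ x k ∈ dyc v k.1 k.2 ∧ dyc v k.1 k.2 ⊆ Ω ∧ 0 < κ k ∧ κ k ≤ κ₀ (x k) ∧
        κ k ≤ 1 / 2 ∧ P (x k) (κ k) k.1 k.2) ∧
      (∀ k ∈ K, ∀ y ∈ dyc v k.1 k.2, ‖f y - aff f D (x k) y‖ ≤ κ k / 2 ^ k.1 ∧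
        ∃ y', ‖y' - y‖ ≤ κ k / 4 / 2 ^ k.1 ∧ f y = aff f D (x k) y') ∧
      (∀ k ∈ K, aff f D (x k) '' shr v k.1 k.2 (κ k) ⊆ f '' dyo v k.1 k.2) ∧
      (∀ k ∈ K, ∀ k' ∈ K, k ≠ k' → Disjoint (dyo v k.1 k.2) (dyo v k'.1 k'.2)) ∧
      (∀ C ⊆ Ω, IsCompact C → {k ∈ K | (dyc v k.1 k.2 ∩ C).Nonempty}.Finite) ∧
      ∫⁻ y in Λ \ ⋃ k ∈ K, aff f D (x k) '' shr v k.1 k.2 (κ k), w y ≤ c := by
  classical
  -- the constants
  set c' : ℝ≥0∞ := min c 1 with hc'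
  have hc'0 : c' ≠ 0 := by
    rw [hc']; exact (lt_min (pos_iff_ne_zero.2 hc0) one_pos).ne'
  have hc't : c' ≠ ⊤ := ne_top_of_le_ne_top ENNReal.one_ne_top (min_le_right _ _)
  have hc'2 : c' / 2 ≠ 0 := (ENNReal.half_pos hc'0).ne'
  set η : ℝ≥0∞ := c' / 2 / (volume Λ + 1) with hη
  have hη0 : η ≠ 0 := by
    rw [hη]
    exact ENNReal.div_ne_zero.2 ⟨hc'2, ENNReal.add_ne_top.2 ⟨hΛv, ENNReal.one_ne_top⟩⟩
  have hηΛ : η * volume Λ ≤ c' / 2 := by
    calc η * volume Λ ≤ η * (volume Λ + 1) := by gcongr; exact le_self_add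
      _ = c' / 2 := by
        rw [hη]
        exact ENNReal.div_mul_cancel (by simp) (ENNReal.add_ne_top.2 ⟨hΛv, ENNReal.one_ne_top⟩)
  obtain ⟨h, hinv, hfc, hhc⟩ := hf
  have hf' : IsHomeo Ω Λ f := ⟨h, hinv, hfc, hhc⟩
  have hinjΩ : ∀ a ∈ Ω, ∀ b ∈ Ω, f a = f b → a = b := by
    intro a ha b hb hab
    rw [← (hinv.1 a ha).2, ← (hinv.1 b hb).2, hab]
  -- good cubes
  let Q : V → ℝ → ℕ → (Fin 3 → ℤ) → Prop := fun x κ m z =>
    dyc v m z ⊆ Ω ∧ (∀ y ∈ dyc v m z, ‖f y - aff f D x y‖ ≤ κ / 2 ^ m ∧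
        ∃ y', ‖y' - y‖ ≤ κ / 4 / 2 ^ m ∧ f y = aff f D x y') ∧
      aff f D x '' shr v m z κ ⊆ f '' dyo v m z ∧
      ∫⁻ y in f '' dyc v m z \ aff f D x '' shr v m z κ, w y ≤ η * volume (f '' dyo v m z)
  let Good : ℕ → (Fin 3 → ℤ) → Prop := fun m z => ∃ x κ, x ∈ G ∧ x ∈ dyc v m z ∧ 0 < κ ∧
    κ ≤ κ₀ x ∧ κ ≤ 1 / 2 ∧ P x κ m z ∧ Q x κ m z ∧
    ∀ i, (dyc v m z ∩ exh Ω i).Nonempty → dyc v m z ⊆ exh Ω (i + 1)
  have hGood : ∀ x ∈ G, ∃ m, Good m (idx v m x) := by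
    intro x hx
    have hxΩ := hGΩ hx
    obtain ⟨κ, hκ, hκκ₀, hκ1, M₁, hM₁⟩ := good_cube hΩ hΛ hf' hxΩ (hD x hx) (hdet x hx)
      (hw (f x) (hinv.1 x hxΩ).1) hη0 (hκ₀ x hx) v
    obtain ⟨d, hd, hd1⟩ := exists_nice hΩ hxΩ
    obtain ⟨M₃, hM₃⟩ := exists_pow_lt_of_lt_one hd (by norm_num : (1 / 2 : ℝ) < 1)
    obtain ⟨m, hmM, hM₂⟩ := Filter.frequently_atTop.1 (hP x hx κ hκ) (max M₁ M₃)
    have hmem : x ∈ dyc v m (idx v m x) := hc_sub_dyc v m _ (mem_hc_idx v m x)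
    refine ⟨m, x, κ, hx, hmem, hκ, hκκ₀, hκ1, hM₂,
      hM₁ m ((le_max_left _ _).trans hmM) _ hmem, hd1 _ ?_⟩
    intro y hy
    rw [dyc_eq] at hy hmem
    rw [mem_ball]
    rw [mem_closedBall] at hy hmem
    have h1 : dist y x ≤ 2 * hs m := by
      refine (dist_triangle y (ctr v m (idx v m x)) x).trans ?_
      rw [dist_comm] at hmem
      linarith
    have h2 : 2 * hs m = (1 / 2 : ℝ) ^ m := by unfold hs; rw [one_div_pow]; ring
    have h3 : (1 / 2 : ℝ) ^ m ≤ (1 / 2 : ℝ) ^ M₃ :=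
      pow_le_pow_of_le_one (by norm_num) (by norm_num) ((le_max_right _ _).trans hmM)
    linarith
  obtain ⟨K₀, hK₀, hdisj, hcov⟩ := exists_max v Good G hGood
  have hK₀' : ∀ k : ℕ × (Fin 3 → ℤ), ∃ (x : V) (κ : ℝ), k ∈ K₀ → (x ∈ G ∧ x ∈ dyc v k.1 k.2 ∧ 0 < κ ∧
    κ ≤ κ₀ x ∧ κ ≤ 1 / 2 ∧ P x κ k.1 k.2 ∧ Q x κ k.1 k.2 ∧
    ∀ i, (dyc v k.1 k.2 ∩ exh Ω i).Nonempty → dyc v k.1 k.2 ⊆ exh Ω (i + 1)) := by
    intro k
    by_cases hk : k ∈ K₀
    · obtain ⟨x, κ, h1⟩ := hK₀ k hk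
      exact ⟨x, κ, fun _ => h1⟩
    · exact ⟨0, 0, fun h1 => absurd h1 hk⟩
  choose x κ hxκ using hK₀'
  have hsubΩ : ∀ k ∈ K₀, dyc v k.1 k.2 ⊆ Ω := fun k hk => (hxκ k hk).2.2.2.2.2.2.1.1
  -- the classes
  let cl : ℕ × (Fin 3 → ℤ) → ℕ := fun k => sInf {j | dyc v k.1 k.2 ⊆ exh Ω j}
  have hcl : ∀ k ∈ K₀, dyc v k.1 k.2 ⊆ exh Ω (cl k) := by
    intro k hk
    have hne : {j | dyc v k.1 k.2 ⊆ exh Ω j}.Nonempty := by
      have hcp : IsCompact (dyc v k.1 k.2) := by rw [dyc_eq]; exact isCompact_closedBall _ _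
      exact exists_exh_of_compact hΩ hcp (hsubΩ k hk)
    exact Nat.sInf_mem hne
  let S : ℕ → ℕ × (Fin 3 → ℤ) → Set V := fun j b => {y | b ∈ K₀ ∧ cl b = j ∧ y ∈ f '' hc v b.1 b.2}
  have hSeq : ∀ j b, (b ∈ K₀ ∧ cl b = j) → S j b = f '' hc v b.1 b.2 := by
    intro j b hb
    ext y
    exact ⟨fun hy => hy.2.2, fun hy => ⟨hb.1, hb.2, hy⟩⟩
  have hSemp : ∀ j b, ¬ (b ∈ K₀ ∧ cl b = j) → S j b = ∅ := by
    intro j b hb
    ext y
    exact ⟨fun hy => (hb ⟨hy.1, hy.2.1⟩).elim, fun hy => hy.elim⟩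
  have hSm : ∀ j b, MeasurableSet (S j b) := by
    intro j b
    by_cases hb : b ∈ K₀ ∧ cl b = j
    · rw [hSeq j b hb]
      exact measurableSet_image hΛ hf' (measurableSet_hc _ _ _)
        ((hc_sub_dyc _ _ _).trans (hsubΩ b hb.1))
    · rw [hSemp j b hb]; exact MeasurableSet.empty
  have hSd : ∀ j, Pairwise (Function.onFun Disjoint (S j)) := by
    intro j b b' hne
    rw [Function.onFun, Set.disjoint_left]
    rintro y ⟨hb, -, u, hu, rfl⟩ ⟨hb', -, u', hu', huu⟩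
    have h1 := hinjΩ u' (hsubΩ b' hb' (hc_sub_dyc _ _ _ hu')) u (hsubΩ b hb (hc_sub_dyc _ _ _ hu)) huu
    rw [h1] at hu'
    exact Set.disjoint_left.1 (hdisj b hb b' hb' hne) hu hu'
  have hfin : ∀ j, ∑' b, ∫⁻ y in S j b, w y ≠ ⊤ := by
    intro j
    rw [← lintegral_iUnion (hSm j) (hSd j)]
    have h1 : ⋃ b, S j b ⊆ f '' exh Ω j := by
      refine iUnion_subset fun b => ?_
      rintro y ⟨hb, hbj, u, hu, rfl⟩
      refine ⟨u, ?_, rfl⟩
      rw [← hbj]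
      exact hcl b hb (hc_sub_dyc _ _ _ hu)
    have h2 : IsCompact (f '' exh Ω j) := (isCompact_exh Ω j).image_of_continuousOn
      (hfc.mono (exh_sub Ω j))
    have h3 : f '' exh Ω j ⊆ Λ := by
      rintro _ ⟨u, hu, rfl⟩; exact (hinv.1 u (exh_sub Ω j hu)).1
    obtain ⟨B, hB⟩ := exists_bound h2 h3 hw
    refine ne_top_of_le_ne_top ?_ (lintegral_mono_set h1)
    refine ne_top_of_le_ne_top (b := (B : ℝ≥0∞) * volume Λ) (ENNReal.mul_ne_top ENNReal.coe_ne_top hΛv) ?_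
    calc ∫⁻ y in f '' exh Ω j, w y ≤ ∫⁻ y in f '' exh Ω j, (B : ℝ≥0∞) :=
          setLIntegral_mono_ae' h2.isClosed.measurableSet (ae_of_all _ fun y hy => hB y hy)
      _ = B * volume (f '' exh Ω j) := setLIntegral_const _ _
      _ ≤ B * volume Λ := by gcongr
  obtain ⟨ε, hε0, hεs⟩ := ENNReal.exists_pos_sum_of_countable' hc'2 ℕ
  have hF : ∀ j, ∃ F : Finset (ℕ × (Fin 3 → ℤ)),
      ∑' b : {b // b ∉ F}, ∫⁻ y in S j b, w y ≤ ε j := by
    intro j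
    have h1 := ENNReal.tendsto_tsum_compl_atTop_zero (hfin j)
    exact (h1.eventually (ge_mem_nhds (hε0 j))).exists
  choose F hF using hF
  set K : Set (ℕ × (Fin 3 → ℤ)) := {k | k ∈ K₀ ∧ k ∈ F (cl k)} with hK
  have hKK₀ : ∀ k ∈ K, k ∈ K₀ := fun k hk => hk.1
  refine ⟨K, x, κ, ?_, ?_, ?_, ?_, ?_, ?_⟩
  · intro k hk
    obtain ⟨h1, h2, h3, h4, h5, h6, h7, h8⟩ := hxκ k hk.1
    exact ⟨h1, h2, h7.1, h3, h4, h5, h6⟩
  · intro k hk
    exact (hxκ k hk.1).2.2.2.2.2.2.1.2.1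
  · intro k hk
    exact (hxκ k hk.1).2.2.2.2.2.2.1.2.2.1
  · intro k hk k' hk' hne
    exact (hdisj k hk.1 k' hk'.1 hne).mono (dyo_sub_hc _ _ _) (dyo_sub_hc _ _ _)
  · intro C hCΩ hC
    obtain ⟨i, hi⟩ := exists_exh_of_compact hΩ hC hCΩ
    refine ((Finset.range (i + 2)).biUnion F).finite_toSet.subset ?_
    rintro k ⟨hk, hne⟩
    have h1 : dyc v k.1 k.2 ⊆ exh Ω (i + 1) :=
      (hxκ k hk.1).2.2.2.2.2.2.2 i (hne.mono (inter_subset_inter_right _ hi))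
    have h2 : cl k ≤ i + 1 := Nat.sInf_le h1
    rw [Finset.mem_coe, Finset.mem_biUnion]
    exact ⟨cl k, Finset.mem_range.2 (by omega), hk.2⟩
  · have hcover : Λ \ ⋃ k ∈ K, aff f D (x k) '' shr v k.1 k.2 (κ k) ⊆
        (f '' (Ω \ G) ∪ ⋃ j, ⋃ b : {b // b ∉ F j}, S j b) ∪
        ⋃ k : K, (f '' dyc v k.1.1 k.1.2 \ aff f D (x k) '' shr v k.1.1 k.1.2 (κ k)) := by
      rintro y ⟨hy, hyn⟩
      obtain ⟨h1, h2⟩ := hinv.2 y hy
      by_cases hyG : h y ∈ G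
      · obtain ⟨k, hk, hyk⟩ := mem_iUnion₂.1 (hcov hyG)
        by_cases hkF : k ∈ F (cl k)
        · right
          refine mem_iUnion.2 ⟨⟨k, hk, hkF⟩, ⟨h y, hc_sub_dyc _ _ _ hyk, h2⟩, fun h3 => hyn ?_⟩
          exact mem_iUnion₂.2 ⟨k, ⟨hk, hkF⟩, h3⟩
        · left; right
          exact mem_iUnion.2 ⟨cl k, mem_iUnion.2 ⟨⟨k, hkF⟩, hk, rfl, h y, hyk, h2⟩⟩
      · left; left
        exact ⟨h y, ⟨h1, hyG⟩, h2⟩
    refine (lintegral_mono_set hcover).trans ?_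
    refine (lintegral_union_le _ _ _).trans ?_
    have e1 : ∫⁻ y in f '' (Ω \ G) ∪ ⋃ j, ⋃ b : {b // b ∉ F j}, S j b, w y ≤ c' / 2 := by
      refine (lintegral_union_le _ _ _).trans ?_
      rw [setLIntegral_measure_zero _ _ hG, zero_add]
      refine (lintegral_iUnion_le _ _).trans (le_trans (ENNReal.tsum_le_tsum fun j => ?_) hεs.le)
      exact (lintegral_iUnion_le _ _).trans (hF j)
    have e2 : ∫⁻ y in ⋃ k : K, (f '' dyc v k.1.1 k.1.2 \ aff f D (x k) '' shr v k.1.1 k.1.2 (κ k)),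
        w y ≤ c' / 2 := by
      refine (lintegral_iUnion_le _ _).trans ?_
      have e3 : ∑' k : K, ∫⁻ y in f '' dyc v k.1.1 k.1.2 \ aff f D (x k) '' shr v k.1.1 k.1.2 (κ k),
          w y ≤ ∑' k : K, η * volume (f '' dyo v k.1.1 k.1.2) :=
        ENNReal.tsum_le_tsum fun k => (hxκ k.1 k.2.1).2.2.2.2.2.2.1.2.2.2
      refine e3.trans ?_
      rw [ENNReal.tsum_mul_left]
      refine (mul_le_mul' le_rfl ?_).trans hηΛ
      have hdyoΩ : ∀ k : K, dyo v k.1.1 k.1.2 ⊆ Ω := fun k =>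
        (dyo_sub_hc _ _ _).trans ((hc_sub_dyc _ _ _).trans (hsubΩ k.1 k.2.1))
      rw [← measure_iUnion]
      · refine measure_mono (iUnion_subset fun k => ?_)
        rintro _ ⟨u, hu, rfl⟩
        exact (hinv.1 u (hdyoΩ k hu)).1
      · intro k k' hne
        rw [Function.onFun, Set.disjoint_left]
        rintro _ ⟨u, hu, rfl⟩ ⟨u', hu', huu⟩
        have h1 := hinjΩ u' (hdyoΩ k' hu') u (hdyoΩ k hu) huu
        rw [h1] at hu'
        exact Set.disjoint_left.1 (hdisj k.1 k.2.1 k'.1 k'.2.1 (fun h2 => hne (Subtype.ext h2)))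
          (dyo_sub_hc _ _ _ hu) (dyo_sub_hc _ _ _ hu')
      · intro k
        have : IsOpen (f '' dyo v k.1.1 k.1.2) := by
          refine isOpen_image hΛ hf' ?_ (hdyoΩ k)
          rw [dyo_eq]; exact isOpen_ball
        exact this.measurableSet
    calc _ ≤ c' / 2 + c' / 2 := add_le_add e1 e2
      _ = c' := ENNReal.add_halves c'
      _ ≤ c := min_le_left _ _

theorem exists_cubes {Ω Λ : Set V} (hΩ : IsOpen Ω) (hΛ : IsOpen Λ) (hΛv : volume Λ ≠ ⊤) {f : V → V}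
    (hf : IsHomeo Ω Λ f) {D : V → V →L[ℝ] V} {G : Set V} (hGΩ : G ⊆ Ω)
    (hG : volume (f '' (Ω \ G)) = 0) (hD : ∀ x ∈ G, HasFDerivAt f (D x) x)
    (hdet : ∀ x ∈ G, (D x).det ≠ 0) (v : V) {P : V → ℝ → ℕ → (Fin 3 → ℤ) → Prop}
    (hP : ∀ x ∈ G, ∀ κ > 0, ∃ M : ℕ, ∀ m ≥ M, ∀ z, x ∈ dyc v m z → P x κ m z)
    {κ₀ : V → ℝ} (hκ₀ : ∀ x ∈ G, 0 < κ₀ x) {w : V → ℝ≥0∞}
    (hw : ∀ y ∈ Λ, ∃ B : NNReal, ∀ᶠ z in 𝓝 y, w z ≤ B) {c : ℝ≥0∞} (hc0 : c ≠ 0) :
    ∃ (K : Set (ℕ × (Fin 3 → ℤ))) (x : ℕ × (Fin 3 → ℤ) → V) (κ : ℕ × (Fin 3 → ℤ) → ℝ),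
      (∀ k ∈ K, x k ∈ G ∧ x k ∈ dyc v k.1 k.2 ∧ dyc v k.1 k.2 ⊆ Ω ∧ 0 < κ k ∧ κ k ≤ κ₀ (x k) ∧
        κ k ≤ 1 / 2 ∧ P (x k) (κ k) k.1 k.2) ∧
      (∀ k ∈ K, ∀ y ∈ dyc v k.1 k.2, ‖f y - aff f D (x k) y‖ ≤ κ k / 2 ^ k.1 ∧
        ∃ y', ‖y' - y‖ ≤ κ k / 4 / 2 ^ k.1 ∧ f y = aff f D (x k) y') ∧
      (∀ k ∈ K, aff f D (x k) '' shr v k.1 k.2 (κ k) ⊆ f '' dyo v k.1 k.2) ∧
      (∀ k ∈ K, ∀ k' ∈ K, k ≠ k' → Disjoint (dyo v k.1 k.2) (dyo v k'.1 k'.2)) ∧
      (∀ C ⊆ Ω, IsCompact C → {k ∈ K | (dyc v k.1 k.2 ∩ C).Nonempty}.Finite) ∧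
      ∫⁻ y in Λ \ ⋃ k ∈ K, aff f D (x k) '' shr v k.1 k.2 (κ k), w y ≤ c :=
  exists_cubes_freq hΩ hΛ hΛv hf hGΩ hG hD hdet v (fun x hx κ hκ => by
    obtain ⟨M, hM⟩ := hP x hx κ hκ
    exact (eventually_atTop.2 ⟨M, fun m hm => hM m hm _ (hc_sub_dyc v m _ (mem_hc_idx v m x))⟩).frequently)
    hκ₀ hw hc0

end Vale.Agent.P073.H911
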