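import Vale.Agent.P073.H911.Heavy
import Vale.Agent.P073.H696.BSpec

/-!
# P073, H911: volumes of the blocks and of the deep cubes ([SUMF-VOL])
-/

namespace Vale.Agent.P073.H911

open MeasureTheory Set Filter Topology Metric Vale.Agent.P073.St
open Vale.Agent.P073.AB (Idx cl)
open Vale.Agent.P073.H696 (HF am Boxes blk blkS deep)
open P073.Net (dyc dyo)
open scoped ENNReal NNReal

variable {p : ℝ} {Ω Λ : Set V} {f : V → V} {F : V → Mat}

theorem ctr_eq73 (v : V) (m : ℕ) (z : Fin 3 → ℤ) : H73.ctr v m z = ctr v m z := by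
  funext k
  simp only [H73.ctr, ctr]

/-- a cell of the inner block is in the interior of the box -/
theorem dyc_sub_dyo_of_blk {v : V} {k : Idx} {n : ℕ} (hn : k.1 ≤ n) {z : Fin 3 → ℤ}
    (hz : z ∈ blk k n) : dyc v n z ⊆ dyo v k.1 k.2 := by
  intro y hy i
  have h1 := hy i
  have h2 := hz i
  obtain ⟨a, rfl⟩ := Nat.exists_eq_add_of_le hn
  rw [Nat.add_sub_cancel_left] at h2
  have hp1 : (0 : ℝ) < 2 ^ k.1 := by positivity
  have hp2 : (0 : ℝ) < 2 ^ a := by positivity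
  have e : (2 : ℝ) ^ (k.1 + a) = 2 ^ k.1 * 2 ^ a := pow_add _ _ _
  have h3 : (2 : ℝ) ^ a * k.2 i + 3 ≤ z i := by exact_mod_cast h2.1
  have h4 : (z i : ℝ) + 4 ≤ 2 ^ a * (k.2 i + 1) := by exact_mod_cast h2.2
  constructor
  · refine lt_of_lt_of_le ?_ h1.1
    rw [e]
    have : (k.2 i : ℝ) / 2 ^ k.1 < z i / (2 ^ k.1 * 2 ^ a) := by
      rw [div_lt_div_iff₀ hp1 (by positivity)]
      nlinarith
    linarith
  · refine lt_of_le_of_lt h1.2 ?_
    rw [e]
    have : ((z i : ℝ) + 1) / (2 ^ k.1 * 2 ^ a) < (k.2 i + 1) / 2 ^ k.1 := by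
      rw [div_lt_div_iff₀ (by positivity) hp1]
      nlinarith
    linarith

theorem blkS_sub {v : V} {k : Idx} {n : ℕ} (hn : k.1 ≤ n) : blkS v k n ⊆ dyo v k.1 k.2 :=
  iUnion₂_subset fun _ hz => dyc_sub_dyo_of_blk hn hz

/-- the inner block contains an open cube -/
theorem ball_sub_blkS (v : V) {k : Idx} {n : ℕ} (hn : k.1 ≤ n) :
    ball (ctr v k.1 k.2) ((1 - 6 / 2 ^ (n - k.1)) * hs k.1) ⊆ blkS v k n := by
  intro y hy
  obtain ⟨a, rfl⟩ := Nat.exists_eq_add_of_le hn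
  rw [Nat.add_sub_cancel_left] at hy
  have hp1 : (0 : ℝ) < 2 ^ k.1 := by positivity
  have hp2 : (0 : ℝ) < 2 ^ a := by positivity
  have e : (2 : ℝ) ^ (k.1 + a) = 2 ^ k.1 * 2 ^ a := pow_add _ _ _
  refine mem_iUnion₂.2 ⟨idx v (k.1 + a) y, ?_, hc_sub_dyc v _ _ (mem_hc_idx v _ y)⟩
  intro i
  rw [Nat.add_sub_cancel_left]
  have h1 : |y i - ctr v k.1 k.2 i| < (1 - 6 / 2 ^ a) * hs k.1 := by
    rw [mem_ball, dist_pi_lt_iff (pos_of_mem_ball hy)] at hy
    simpa [Real.dist_eq] using hy i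
  rw [abs_lt] at h1
  simp only [ctr, hs] at h1
  have h2 : (2 : ℝ) ^ a * k.2 i + 3 < (y i - v i) * (2 ^ k.1 * 2 ^ a) := by
    have h3 := h1.1
    have h4 : (k.2 i : ℝ) / 2 ^ k.1 + 3 / (2 ^ k.1 * 2 ^ a) < y i - v i := by
      have e1 : (k.2 i : ℝ) / 2 ^ k.1 + 3 / (2 ^ k.1 * 2 ^ a) =
        (k.2 i + 1 / 2) / 2 ^ k.1 - (1 - 6 / 2 ^ a) * (1 / 2 ^ k.1 / 2) := by
        field_simp
        ring
      rw [e1]
      linarith
    have h5 := mul_lt_mul_of_pos_right h4 (show (0 : ℝ) < 2 ^ k.1 * 2 ^ a by positivity)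
    refine lt_of_le_of_lt (le_of_eq ?_) h5
    field_simp
  have h6 : (y i - v i) * (2 ^ k.1 * 2 ^ a) < 2 ^ a * (k.2 i + 1) - 3 := by
    have h3 := h1.2
    have h4 : y i - v i < (k.2 i + 1) / 2 ^ k.1 - 3 / (2 ^ k.1 * 2 ^ a) := by
      have e1 : ((k.2 i : ℝ) + 1) / 2 ^ k.1 - 3 / (2 ^ k.1 * 2 ^ a) =
        (k.2 i + 1 / 2) / 2 ^ k.1 + (1 - 6 / 2 ^ a) * (1 / 2 ^ k.1 / 2) := by
        field_simp
        ring
      rw [e1]
      linarith
    have h5 := mul_lt_mul_of_pos_right h4 (show (0 : ℝ) < 2 ^ k.1 * 2 ^ a by positivity)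
    refine lt_of_lt_of_le h5 (le_of_eq ?_)
    field_simp
  have hidx : idx v (k.1 + a) y i = ⌊(y i - v i) * (2 ^ k.1 * 2 ^ a)⌋ := by
    simp only [idx, e]
  rw [hidx]
  constructor
  · rw [Int.le_floor]
    push_cast
    linarith
  · have h7 : ⌊(y i - v i) * (2 ^ k.1 * 2 ^ a)⌋ < (2 ^ a * (k.2 i + 1) - 3 : ℤ) := by
      rw [Int.floor_lt]
      push_cast
      linarith
    omega

theorem cube_gap {t : ℝ} (h0 : 0 ≤ t) (h1 : t ≤ 1) : 1 - (1 - t) ^ 3 ≤ 3 * t := by
  nlinarith [mul_nonneg h0 h0, mul_nonneg h0 (mul_nonneg h0 (sub_nonneg.2 h1)),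
    mul_nonneg h0 (sub_nonneg.2 h1)]

/-- a cube without a concentric smaller one -/
theorem volume_sdiff_ball (c : V) {r t : ℝ} (hr : 0 < r) (h0 : 0 ≤ t) (h1 : t ≤ 1) :
    volume (closedBall c r \ ball c ((1 - t) * r)) ≤
      ENNReal.ofReal (3 * t) * volume (closedBall c r) := by
  have h2 : 0 ≤ (1 - t) * r := by nlinarith
  have hsub : ball c ((1 - t) * r) ⊆ closedBall c r :=
    ball_subset_closedBall.trans (closedBall_subset_closedBall (by nlinarith))
  have hvb : volume (ball c ((1 - t) * r)) = ENNReal.ofReal ((2 * ((1 - t) * r)) ^ 3) := by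
    rcases h2.lt_or_eq with h | h
    · rw [Real.volume_pi_ball c h, Fintype.card_fin]
    · rw [← h, ball_zero, measure_empty]
      simp
  rw [measure_sdiff hsub measurableSet_ball.nullMeasurableSet (by
      rw [hvb]; exact ENNReal.ofReal_ne_top), hvb, volume_closedBall c hr.le,
    ← ENNReal.ofReal_sub _ (by positivity), ← ENNReal.ofReal_mul (by positivity)]
  refine ENNReal.ofReal_le_ofReal ?_
  have h3 := cube_gap h0 h1
  have h4 : (2 * r) ^ 3 - (2 * ((1 - t) * r)) ^ 3 = (1 - (1 - t) ^ 3) * (2 * r) ^ 3 := by ring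
  rw [h4]
  gcongr

/-- **volume of the box without its inner block** -/
theorem volume_sdiff_blkS (v : V) {k : Idx} {n : ℕ} (hn : k.1 ≤ n) :
    volume (dyc v k.1 k.2 \ blkS v k n) ≤
      ENNReal.ofReal (18 / 2 ^ (n - k.1)) * volume (dyc v k.1 k.2) := by
  rcases le_total ((6 : ℝ) / 2 ^ (n - k.1)) 1 with h1 | h1
  · have h2 := volume_sdiff_ball (ctr v k.1 k.2) (hs_pos k.1)
      (show 0 ≤ (6 : ℝ) / 2 ^ (n - k.1) by positivity) h1
    rw [dyc_eq]
    refine (measure_mono (sdiff_subset_sdiff_right (ball_sub_blkS v hn))).trans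
      (h2.trans (le_of_eq ?_))
    rw [← mul_div_assoc]
    norm_num
  · have h2 : (1 : ℝ) ≤ 18 / 2 ^ (n - k.1) := by
      have e : (18 : ℝ) / 2 ^ (n - k.1) = 3 * (6 / 2 ^ (n - k.1)) := by ring
      rw [e]
      linarith
    calc volume (dyc v k.1 k.2 \ blkS v k n) ≤ 1 * volume (dyc v k.1 k.2) := by
          rw [one_mul]
          exact measure_mono sdiff_subset
      _ ≤ _ := by
          gcongr
          rw [← ENNReal.ofReal_one]
          exact ENNReal.ofReal_le_ofReal h2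

/-- a deep cube -/
theorem deep_ball_eq (v : V) (n : ℕ) (z : Fin 3 → ℤ) (c : ℝ) :
    closedBall (H73.ctr v n z) ((1 - 2 * c) / 2 / 2 ^ n) =
      closedBall (ctr v n z) ((1 - 2 * c) * hs n) := by
  rw [ctr_eq73]
  congr 1
  unfold hs
  ring

theorem deep_sub_blkS (v : V) (n : Idx → ℕ) {c : ℝ} (hc : 0 ≤ c) (k : Idx) :
    deep v n c k ⊆ blkS v k (n k) := by
  refine iUnion₂_mono fun z _ => ?_
  rw [deep_ball_eq, dyc_eq]
  exact closedBall_subset_closedBall (by nlinarith [hs_pos (n k)])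

/-- **volume of the box without its deep cubes** -/
theorem volume_sdiff_deep (v : V) (n : Idx → ℕ) {k : Idx} (hn : k.1 ≤ n k) {c : ℝ}
    (hc : 0 ≤ c) (hc1 : c ≤ 1 / 2) :
    volume (dyc v k.1 k.2 \ deep v n c k) ≤
      ENNReal.ofReal (18 / 2 ^ (n k - k.1) + 6 * c) * volume (dyc v k.1 k.2) := by
  have hsub : dyc v k.1 k.2 \ deep v n c k ⊆ (dyc v k.1 k.2 \ blkS v k (n k)) ∪
      ⋃ z : blk k (n k), dyc v (n k) z.1 \ ball (ctr v (n k) z.1) ((1 - 2 * c) * hs (n k)) := by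
    rintro y ⟨hy, hyn⟩
    by_cases h : y ∈ blkS v k (n k)
    · obtain ⟨z, hz, hyz⟩ := mem_iUnion₂.1 h
      refine Or.inr (mem_iUnion.2 ⟨⟨z, hz⟩, hyz, fun h' => hyn ?_⟩)
      refine mem_iUnion₂.2 ⟨z, hz, ?_⟩
      rw [deep_ball_eq]
      exact ball_subset_closedBall h'
    · exact Or.inl ⟨hy, h⟩
  have hcell : ∀ z : blk k (n k),
      volume (dyc v (n k) z.1 \ ball (ctr v (n k) z.1) ((1 - 2 * c) * hs (n k))) ≤
        ENNReal.ofReal (6 * c) * volume (dyc v (n k) z.1) := fun z => by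
    have h2 := volume_sdiff_ball (ctr v (n k) z.1) (hs_pos (n k))
      (show 0 ≤ 2 * c by positivity) (by linarith)
    rw [dyc_eq]
    refine h2.trans (le_of_eq ?_)
    rw [show (3 : ℝ) * (2 * c) = 6 * c by ring]
  have hsum : ∑' z : blk k (n k), volume (dyc v (n k) z.1) ≤ volume (dyc v k.1 k.2) := by
    have h3 := tsum_dyc_le (v := v) (k := fun z : blk k (n k) => (n k, z.1))
      (S := dyc v k.1 k.2) ?_ ?_ (fun _ => 1)
    · simp only [lintegral_const, Measure.restrict_apply MeasurableSet.univ, univ_inter,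
        one_mul] at h3
      refine le_trans (ENNReal.tsum_le_tsum fun z => measure_mono ?_) h3
      exact subset_inter Subset.rfl ((dyc_sub_dyo_of_blk (by omega) z.2).trans
        ((dyo_sub_hc _ _ _).trans (hc_sub_dyc _ _ _)))
    · rintro z z' hzz
      rw [Function.onFun, Set.disjoint_left]
      intro y hy hy'
      have e1 : idx v (n k) y = z.1 := dyo_sub_hc v (n k) z.1 hy
      have e2 : idx v (n k) y = z'.1 := dyo_sub_hc v (n k) z'.1 hy'
      exact hzz (Subtype.ext (e1.symm.trans e2))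
    · rw [dyc_eq]
      exact measurableSet_closedBall.nullMeasurableSet
  calc volume (dyc v k.1 k.2 \ deep v n c k)
      ≤ volume (dyc v k.1 k.2 \ blkS v k (n k)) +
        ∑' z : blk k (n k), volume (dyc v (n k) z.1 \
          ball (ctr v (n k) z.1) ((1 - 2 * c) * hs (n k))) :=
        (measure_mono hsub).trans ((measure_union_le _ _).trans
          (add_le_add le_rfl (measure_iUnion_le _)))
    _ ≤ ENNReal.ofReal (18 / 2 ^ (n k - k.1)) * volume (dyc v k.1 k.2) +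
        ∑' z : blk k (n k), ENNReal.ofReal (6 * c) * volume (dyc v (n k) z.1) :=
        add_le_add (volume_sdiff_blkS v (by omega)) (ENNReal.tsum_le_tsum hcell)
    _ ≤ ENNReal.ofReal (18 / 2 ^ (n k - k.1)) * volume (dyc v k.1 k.2) +
        ENNReal.ofReal (6 * c) * volume (dyc v k.1 k.2) := by
        rw [ENNReal.tsum_mul_left]
        gcongr
    _ = _ := by
        rw [← add_mul, ← ENNReal.ofReal_add (by positivity) (by positivity)]

end Vale.Agent.P073.H911
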