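import Vale.Agent.P073.H911.Vol

/-!
# P073, H911: the kept parts of the good cubes ([FRAC])

In the applications only a part `E k` of every good cube is kept. If the removed fraction of the
cube `k` is at most `φ (x k)`, then the complement in `Λ` of the affine images of the kept parts has
small weight, for a suitable positive function `φ` (which must tend to `0` at the boundary, because
the weight is not integrable there).
-/

open Set Metric Topology MeasureTheory Filter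
open scoped ENNReal

namespace Vale.Agent.P073.H911

open Vale.Agent.P073.St (V IsHomeo)
open P073.Net (dyc dyo)

/-- the properties of the family of good cubes which are used here -/
structure GoodFam (Ω : Set V) (f : V → V) (D : V → V →L[ℝ] V) (v : V)
    (K : Set (ℕ × (Fin 3 → ℤ))) (x : ℕ × (Fin 3 → ℤ) → V) (κ : ℕ × (Fin 3 → ℤ) → ℝ) : Prop where
  mem : ∀ k ∈ K, x k ∈ Ω
  sub : ∀ k ∈ K, dyc v k.1 k.2 ⊆ Ω
  pos : ∀ k ∈ K, 0 < κ k
  half : ∀ k ∈ K, κ k ≤ 1 / 2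
  shr : ∀ k ∈ K, aff f D (x k) '' shr v k.1 k.2 (κ k) ⊆ f '' dyo v k.1 k.2
  disj : ∀ k ∈ K, ∀ k' ∈ K, k ≠ k' → Disjoint (dyo v k.1 k.2) (dyo v k'.1 k'.2)

theorem volume_dyc_le (v : V) (m : ℕ) (z : Fin 3 → ℤ) {κ : ℝ} (hκ : κ ≤ 1 / 2) :
    volume (dyc v m z) ≤ 8 * volume (shr v m z κ) := by
  have h0 := hs_pos m
  rw [dyc_eq, shr, volume_closedBall _ h0.le, volume_closedBall _ (by nlinarith),
    show (8 : ℝ≥0∞) = ENNReal.ofReal 8 by norm_num, ← ENNReal.ofReal_mul (by norm_num)]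
  refine ENNReal.ofReal_le_ofReal ?_
  have h1 : hs m ≤ 2 * ((1 - κ) * hs m) := by nlinarith
  have h2 : (2 * hs m) ^ 3 ≤ (2 * (2 * ((1 - κ) * hs m))) ^ 3 := by gcongr
  calc (2 * hs m) ^ 3 ≤ (2 * (2 * ((1 - κ) * hs m))) ^ 3 := h2
    _ = 8 * (2 * ((1 - κ) * hs m)) ^ 3 := by ring

variable {Ω Λ : Set V} {f : V → V} {D : V → V →L[ℝ] V} {v : V} {K : Set (ℕ × (Fin 3 → ℤ))}
  {x : ℕ × (Fin 3 → ℤ) → V} {κ : ℕ × (Fin 3 → ℤ) → ℝ}

theorem image_sub_of_homeo (hf : IsHomeo Ω Λ f) {S : Set V} (hS : S ⊆ Ω) : f '' S ⊆ Λ := by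
  obtain ⟨h, hinv, hfc, hhc⟩ := hf
  rintro _ ⟨u, hu, rfl⟩
  exact (hinv.1 u (hS hu)).1

/-- the images of the open cubes are disjoint: the sum of their volumes -/
theorem GoodFam.sum_volume (H : GoodFam Ω f D v K x κ) (hΛ : IsOpen Λ) (hf : IsHomeo Ω Λ f) :
    ∑' k : K, volume (f '' dyo v k.1.1 k.1.2) ≤ volume Λ := by
  have hsub : ∀ k ∈ K, dyo v k.1 k.2 ⊆ Ω := fun k hk =>
    ((dyo_sub_hc v k.1 k.2).trans (hc_sub_dyc v k.1 k.2)).trans (H.sub k hk)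
  rw [← measure_iUnion]
  · exact measure_mono (iUnion_subset fun k => image_sub_of_homeo hf (hsub k.1 k.2))
  · intro k k' hkk
    rw [Function.onFun, Set.disjoint_left]
    rintro y ⟨u, hu, rfl⟩ ⟨u', hu', huu⟩
    obtain ⟨h, hinv, -, -⟩ := hf
    have h1 : u' = u := by
      rw [← (hinv.1 u' (hsub k'.1 k'.2 hu')).2, ← (hinv.1 u (hsub k.1 k.2 hu)).2, huu]
    rw [h1] at hu'
    exact Set.disjoint_left.1 (H.disj k.1 k.2 k'.1 k'.2 fun h => hkk (Subtype.ext h)) hu hu'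
  · intro k
    refine measurableSet_image hΛ hf ?_ (hsub k.1 k.2)
    rw [dyo_eq]
    exact isOpen_ball.measurableSet

/-- **[FRAC]** -/
theorem exists_frac (hΩ : IsOpen Ω) (hΛ : IsOpen Λ) (hΛv : volume Λ ≠ ⊤) (hf : IsHomeo Ω Λ f)
    {w : V → ℝ≥0∞} (hw : ∀ y ∈ Λ, ∃ B : NNReal, ∀ᶠ z in 𝓝 y, w z ≤ B) {c : ℝ≥0∞} (hc0 : c ≠ 0) :
    ∃ (φ : V → ℝ) (U : V → Set V), (∀ x ∈ Ω, 0 < φ x ∧ φ x ≤ 1) ∧ (∀ x ∈ Ω, U x ∈ 𝓝 x) ∧
      ∀ (D : V → V →L[ℝ] V) (v : V) (K : Set (ℕ × (Fin 3 → ℤ))) (x : ℕ × (Fin 3 → ℤ) → V)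
        (κ : ℕ × (Fin 3 → ℤ) → ℝ), GoodFam Ω f D v K x κ →
        (∀ k ∈ K, dyc v k.1 k.2 ⊆ U (x k)) → ∀ E : ℕ × (Fin 3 → ℤ) → Set V,
        (∀ k ∈ K, volume (dyc v k.1 k.2 \ E k) ≤
          ENNReal.ofReal (φ (x k)) * volume (dyc v k.1 k.2)) →
        ∫⁻ y in Λ \ ⋃ k ∈ K, aff f D (x k) '' E k, w y ≤
          (∫⁻ y in Λ \ ⋃ k ∈ K, aff f D (x k) '' shr v k.1 k.2 (κ k), w y) + c := by
  classical
  have hfc : ContinuousOn f Ω := by
    obtain ⟨h, -, h1, -⟩ := hf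
    exact h1
  set c' : ℝ≥0∞ := min c 1 with hc'
  have hc'0 : c' ≠ 0 := (lt_min (pos_iff_ne_zero.2 hc0) one_pos).ne'
  have hc't : c' ≠ ⊤ := ne_top_of_le_ne_top ENNReal.one_ne_top (min_le_right _ _)
  have hcl : ∀ x, ∃ j, x ∈ Ω → x ∈ exh Ω j := fun x => by
    by_cases hx : x ∈ Ω
    · obtain ⟨j, hj⟩ := exists_mem_exh hΩ hx
      exact ⟨j, fun _ => hj⟩
    · exact ⟨0, fun h => absurd h hx⟩
  choose j hj using hcl
  have hB : ∀ j : ℕ, ∃ B : NNReal, ∀ y ∈ f '' exh Ω j, w y ≤ B := fun j =>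
    exists_bound ((isCompact_exh Ω j).image_of_continuousOn (hfc.mono (exh_sub Ω j)))
      (image_sub_of_homeo hf (exh_sub Ω j)) hw
  choose B hB using hB
  set M : ℝ≥0∞ := volume Λ + 1 with hM
  have hM0 : M ≠ 0 := by rw [hM]; simp
  have hMt : M ≠ ⊤ := by rw [hM]; exact ENNReal.add_ne_top.2 ⟨hΛv, ENNReal.one_ne_top⟩
  set ψ : V → ℝ≥0∞ := fun x => c' / (8 * ((B (j x + 1) : ℝ≥0∞) + 1) * M) with hψ
  have hd0 : ∀ x, 8 * ((B (j x + 1) : ℝ≥0∞) + 1) * M ≠ 0 := fun x =>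
    mul_ne_zero (mul_ne_zero (by norm_num) (by simp)) hM0
  have hdt : ∀ x, 8 * ((B (j x + 1) : ℝ≥0∞) + 1) * M ≠ ⊤ := fun x =>
    ENNReal.mul_ne_top (ENNReal.mul_ne_top (by norm_num) (by simp)) hMt
  have hψ0 : ∀ x, ψ x ≠ 0 := fun x => (ENNReal.div_pos hc'0 (hdt x)).ne'
  have hψt : ∀ x, ψ x ≠ ⊤ := fun x => ENNReal.div_ne_top hc't (hd0 x)
  refine ⟨fun x => min 1 (ψ x).toReal, fun x => exh Ω (j x + 1), fun x _ =>
    ⟨lt_min one_pos (ENNReal.toReal_pos (hψ0 x) (hψt x)), min_le_left _ _⟩,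
    fun x hx => mem_interior_iff_mem_nhds.1 (exh_sub_interior Ω (j x) (hj x hx)), ?_⟩
  intro D v K x κ H hU E hE
  -- one cube
  have key : ∀ k : K, ∫⁻ y in aff f D (x k) '' (shr v k.1.1 k.1.2 (κ k) \ E k), w y ≤
      c' / M * volume (f '' dyo v k.1.1 k.1.2) := by
    rintro ⟨k, hk⟩
    simp only
    have hsub : aff f D (x k) '' (shr v k.1 k.2 (κ k) \ E k) ⊆ f '' dyo v k.1 k.2 :=
      (image_mono sdiff_subset).trans (H.shr k hk)
    have hdy : dyo v k.1 k.2 ⊆ exh Ω (j (x k) + 1) :=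
      ((dyo_sub_hc v k.1 k.2).trans (hc_sub_dyc v k.1 k.2)).trans (hU k hk)
    have h1 : ∫⁻ y in aff f D (x k) '' (shr v k.1 k.2 (κ k) \ E k), w y ≤
        B (j (x k) + 1) * volume (aff f D (x k) '' (shr v k.1 k.2 (κ k) \ E k)) := by
      calc ∫⁻ y in aff f D (x k) '' (shr v k.1 k.2 (κ k) \ E k), w y
          ≤ ∫⁻ y in aff f D (x k) '' (shr v k.1 k.2 (κ k) \ E k), (B (j (x k) + 1) : ℝ≥0∞) := by
            refine lintegral_mono_ae ?_
            have hmeas : MeasurableSet (f '' dyo v k.1 k.2) := by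
              refine measurableSet_image hΛ hf ?_ (hdy.trans (exh_sub Ω _))
              rw [dyo_eq]
              exact isOpen_ball.measurableSet
            have hae : ∀ᵐ y ∂(volume.restrict (f '' dyo v k.1 k.2)),
                w y ≤ (B (j (x k) + 1) : ℝ≥0∞) :=
              (ae_restrict_iff' hmeas).2 (Eventually.of_forall fun y hy =>
                hB _ y (image_mono hdy hy))
            exact ae_mono (Measure.restrict_mono hsub le_rfl) hae
        _ = _ := setLIntegral_const _ _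
    have h2 : volume (aff f D (x k) '' (shr v k.1 k.2 (κ k) \ E k)) ≤
        ENNReal.ofReal (min 1 (ψ (x k)).toReal) * (8 * volume (f '' dyo v k.1 k.2)) := by
      have e1 : ∀ S, volume (aff f D (x k) '' S) =
          ENNReal.ofReal |(D (x k)).det| * volume S := fun S => volume_affine_image _ _ _ _
      calc volume (aff f D (x k) '' (shr v k.1 k.2 (κ k) \ E k))
          = ENNReal.ofReal |(D (x k)).det| * volume (shr v k.1 k.2 (κ k) \ E k) := e1 _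
        _ ≤ ENNReal.ofReal |(D (x k)).det| * volume (dyc v k.1 k.2 \ E k) := by
            gcongr
            rw [dyc_eq]
            refine closedBall_subset_closedBall ?_
            nlinarith [hs_pos k.1, H.pos k hk]
        _ ≤ ENNReal.ofReal |(D (x k)).det| * (ENNReal.ofReal (min 1 (ψ (x k)).toReal) *
              (8 * volume (shr v k.1 k.2 (κ k)))) := by
            gcongr
            refine (hE k hk).trans ?_
            gcongr
            exact volume_dyc_le _ _ _ (H.half k hk)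
        _ = ENNReal.ofReal (min 1 (ψ (x k)).toReal) *
              (8 * volume (aff f D (x k) '' shr v k.1 k.2 (κ k))) := by rw [e1]; ring
        _ ≤ _ := by gcongr; exact H.shr k hk
    have h3 : ENNReal.ofReal (min 1 (ψ (x k)).toReal) ≤ ψ (x k) :=
      (ENNReal.ofReal_le_ofReal (min_le_right _ _)).trans ENNReal.ofReal_toReal_le
    have h4 : (B (j (x k) + 1) : ℝ≥0∞) * (ψ (x k) * 8) ≤ c' / M := by
      rw [hψ]
      simp only
      rw [ENNReal.le_div_iff_mul_le (Or.inl hM0) (Or.inl hMt)]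
      have e2 : (B (j (x k) + 1) : ℝ≥0∞) * (c' / (8 * ((B (j (x k) + 1) : ℝ≥0∞) + 1) * M) * 8) * M =
          c' / (8 * ((B (j (x k) + 1) : ℝ≥0∞) + 1) * M) *
            (8 * (B (j (x k) + 1) : ℝ≥0∞) * M) := by ring
      rw [e2]
      calc c' / (8 * ((B (j (x k) + 1) : ℝ≥0∞) + 1) * M) * (8 * (B (j (x k) + 1) : ℝ≥0∞) * M)
          ≤ c' / (8 * ((B (j (x k) + 1) : ℝ≥0∞) + 1) * M) *
            (8 * ((B (j (x k) + 1) : ℝ≥0∞) + 1) * M) := by
            gcongr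
            exact le_self_add
        _ = c' := ENNReal.div_mul_cancel (hd0 _) (hdt _)
    calc ∫⁻ y in aff f D (x k) '' (shr v k.1 k.2 (κ k) \ E k), w y
        ≤ B (j (x k) + 1) * (ψ (x k) * (8 * volume (f '' dyo v k.1 k.2))) :=
          h1.trans (by gcongr; exact h2.trans (by gcongr))
      _ = B (j (x k) + 1) * (ψ (x k) * 8) * volume (f '' dyo v k.1 k.2) := by ring
      _ ≤ c' / M * volume (f '' dyo v k.1 k.2) := by gcongr
  have hcov : Λ \ ⋃ k ∈ K, aff f D (x k) '' E k ⊆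
      (Λ \ ⋃ k ∈ K, aff f D (x k) '' shr v k.1 k.2 (κ k)) ∪
        ⋃ k : K, aff f D (x k) '' (shr v k.1.1 k.1.2 (κ k) \ E k) := by
    rintro y ⟨hy, hyn⟩
    by_cases h : y ∈ ⋃ k ∈ K, aff f D (x k) '' shr v k.1 k.2 (κ k)
    · obtain ⟨k, hk, u, hu, rfl⟩ := mem_iUnion₂.1 h
      refine Or.inr (mem_iUnion.2 ⟨⟨k, hk⟩, u, ⟨hu, fun huE => hyn ?_⟩, rfl⟩)
      exact mem_iUnion₂.2 ⟨k, hk, u, huE, rfl⟩
    · exact Or.inl ⟨hy, h⟩
  calc ∫⁻ y in Λ \ ⋃ k ∈ K, aff f D (x k) '' E k, w y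
      ≤ ∫⁻ y in (Λ \ ⋃ k ∈ K, aff f D (x k) '' shr v k.1 k.2 (κ k)) ∪
        ⋃ k : K, aff f D (x k) '' (shr v k.1.1 k.1.2 (κ k) \ E k), w y := lintegral_mono_set hcov
    _ ≤ (∫⁻ y in Λ \ ⋃ k ∈ K, aff f D (x k) '' shr v k.1 k.2 (κ k), w y) +
        ∫⁻ y in ⋃ k : K, aff f D (x k) '' (shr v k.1.1 k.1.2 (κ k) \ E k), w y :=
        lintegral_union_le _ _ _
    _ ≤ _ := by
        gcongr
        calc ∫⁻ y in ⋃ k : K, aff f D (x k) '' (shr v k.1.1 k.1.2 (κ k) \ E k), w y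
            ≤ ∑' k : K, ∫⁻ y in aff f D (x k) '' (shr v k.1.1 k.1.2 (κ k) \ E k), w y :=
              lintegral_iUnion_le _ _
          _ ≤ ∑' k : K, c' / M * volume (f '' dyo v k.1.1 k.1.2) := ENNReal.tsum_le_tsum key
          _ = c' / M * ∑' k : K, volume (f '' dyo v k.1.1 k.1.2) := ENNReal.tsum_mul_left
          _ ≤ c' / M * M := by
              gcongr
              exact (H.sum_volume hΛ hf).trans le_self_add
          _ = c' := ENNReal.div_mul_cancel hM0 hMt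
          _ ≤ c := min_le_left _ _

end Vale.Agent.P073.H911
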