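import Vale.Agent.P073.H989.GSet
import Vale.Agent.P073.H911.Vol

/-!
# P073, H911: cubes with a large value of `|A| ^ p / det A` ([M0])
-/

namespace Vale.Agent.P073.H911

open MeasureTheory Set Filter Topology Metric Vale.Agent.P073.St
open Vale.Agent.P073.AB (cl FinDist)
open Vale.Agent.P073.PK (IsSob.memLp_cl IsSob.aesm IsSob.lintegral_ne_top)
open P073.Net (dyc dyo)
open scoped ENNReal NNReal

variable {p : ℝ} {Ω Λ : Set V} {f : V → V} {F : V → Mat}

/-- at a.e. point of `S` all small dyadic cubes which contain the point are at least half full -/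
theorem ae_heavy {H : V → ℝ≥0∞} {S : Set V} (hΩ : IsOpen Ω) (hv : volume Ω ≠ ⊤)
    (hH : AEMeasurable H (volume.restrict Ω)) (hS : NullMeasurableSet S (volume : Measure V))
    (hfin : ∫⁻ x in Ω, H x ≠ ⊤) :
    ∀ᵐ x ∂(volume : Measure V), x ∈ Ω → x ∈ S → ∃ M : ℕ, ∀ m ≥ M, ∀ (v : V) (z : Fin 3 → ℤ),
      x ∈ dyc v m z → H x * volume (dyc v m z) ≤ 2 * ∫⁻ y in dyc v m z ∩ S, H y := by
  set G : V → ℝ := fun x => (S.indicator H x).toReal with hGdef
  have hSΩ : NullMeasurableSet S (volume.restrict Ω) := hS.mono_ac Measure.restrict_le_self.absolutelyContinuous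
  have hInd : AEMeasurable (S.indicator H) (volume.restrict Ω) := hH.indicator₀ hSΩ
  have hG : AEMeasurable G (volume.restrict Ω) := hInd.ennreal_toReal
  have hle : ∀ x, ‖G x‖ₑ ≤ S.indicator H x := fun x => by
    rw [hGdef, Real.enorm_eq_ofReal ENNReal.toReal_nonneg]
    exact ENNReal.ofReal_toReal_le
  have hle' : ∀ x, ‖G x‖ₑ ≤ H x := fun x => (hle x).trans (indicator_le_self _ _ _)
  have hGp : ∫⁻ z in Ω, ‖G z‖ₑ ^ (1 : ℝ) ≠ ⊤ := by
    refine ne_top_of_le_ne_top hfin (lintegral_mono fun z => ?_)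
    rw [ENNReal.rpow_one]
    exact hle' z
  have hHt : ∀ᵐ x ∂(volume : Measure V), x ∈ Ω → H x < ⊤ :=
    (ae_restrict_iff' hΩ.measurableSet).1 (ae_lt_top' hH hfin)
  filter_upwards [H989.ae_leb (μ := (volume : Measure V)) hΩ hv hG le_rfl hGp, hHt] with x h1 h2 hx hxS
  have hHx := (h2 hx).ne
  rcases eq_or_ne (H x) 0 with h0 | h0
  · exact ⟨0, fun m _ v z _ => by rw [h0, zero_mul]; exact zero_le⟩
  obtain ⟨δ, hδ, hb, hl⟩ := h1 hx (H x / 128) (ENNReal.div_pos h0 (by norm_num)).ne'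
  obtain ⟨M, hM⟩ := exists_pow_lt_of_lt_one (half_pos hδ) (show (1 / 2 : ℝ) < 1 by norm_num)
  refine ⟨M, fun m hm v z hxz => ?_⟩
  have h1' : (1 / 2 ^ m : ℝ) < δ / 2 := by
    refine lt_of_le_of_lt ?_ hM
    rw [one_div_pow]
    exact one_div_le_one_div_of_le (by positivity) (pow_le_pow_right₀ (by norm_num) hm)
  have hpos : (0 : ℝ) < 1 / 2 ^ m := by positivity
  have h2' : dyc v m z ⊆ ball x (2 * (1 / 2 ^ m)) :=
    (H989.dyc_subset_closedBall hxz).trans (closedBall_subset_ball (by linarith))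
  have hdΩ : dyc v m z ⊆ Ω := h2'.trans ((ball_subset_ball (by linarith)).trans hb)
  have hvol : volume (dyc v m z) ≠ ⊤ := by
    rw [H989.volume_dyc]
    exact ENNReal.ofReal_ne_top
  have h3 : ∫⁻ y in dyc v m z, ‖G y - G x‖ₑ ≤ H x / 2 * volume (dyc v m z) := by
    have h4 : ∫⁻ y in dyc v m z, ‖G y - G x‖ₑ ^ (1 : ℝ) ≤ H x / 2 * volume (dyc v m z) := by
      refine (lintegral_mono_set h2').trans ((hl _ (by positivity) (by linarith)).trans ?_)
      rw [Real.volume_pi_ball x (by positivity), H989.volume_dyc, Fintype.card_fin]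
      have e1 : (2 * (2 * (1 / 2 ^ m)) : ℝ) ^ 3 = 64 * (1 / 2 ^ m) ^ 3 := by ring
      rw [e1, ENNReal.ofReal_mul (by norm_num), ← mul_assoc]
      gcongr
      rw [ENNReal.ofReal_ofNat, div_eq_mul_inv, div_eq_mul_inv, mul_assoc]
      gcongr
      rw [show (128 : ℝ≥0∞) = 2 * 64 by norm_num, ENNReal.mul_inv (by norm_num) (by norm_num),
        mul_assoc, ENNReal.inv_mul_cancel (by norm_num) (by norm_num), mul_one]
    simpa only [ENNReal.rpow_one] using h4
  have h5 : H x = ‖G x‖ₑ := by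
    rw [hGdef, Real.enorm_eq_ofReal ENNReal.toReal_nonneg, indicator_of_mem hxS,
      ENNReal.ofReal_toReal hHx]
  have hGd : AEMeasurable (fun y => ‖G y‖ₑ) (volume.restrict (dyc v m z)) :=
    (hG.mono_measure (Measure.restrict_mono hdΩ le_rfl)).enorm
  have h6 : H x * volume (dyc v m z) ≤
      (∫⁻ y in dyc v m z ∩ S, H y) + H x / 2 * volume (dyc v m z) := by
    calc H x * volume (dyc v m z) = ∫⁻ y in dyc v m z, H x := (setLIntegral_const _ _).symm
      _ ≤ ∫⁻ y in dyc v m z, (‖G y‖ₑ + ‖G y - G x‖ₑ) := by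
          refine lintegral_mono fun y => ?_
          simp only
          rw [h5]
          have e : G x = G y - (G y - G x) := by ring
          calc ‖G x‖ₑ = ‖G y - (G y - G x)‖ₑ := by rw [← e]
            _ ≤ _ := enorm_sub_le
      _ = (∫⁻ y in dyc v m z, ‖G y‖ₑ) + ∫⁻ y in dyc v m z, ‖G y - G x‖ₑ :=
          lintegral_add_left' hGd _
      _ ≤ _ := by
          refine add_le_add ?_ h3
          calc ∫⁻ y in dyc v m z, ‖G y‖ₑ ≤ ∫⁻ y in dyc v m z, S.indicator H y :=
                lintegral_mono fun y => hle y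
            _ = ∫⁻ y in dyc v m z ∩ S, H y := by
                rw [lintegral_indicator₀ (hS.mono_ac Measure.restrict_le_self.absolutelyContinuous),
                  Measure.restrict_restrict₀ (hS.mono_ac
                    Measure.restrict_le_self.absolutelyContinuous), inter_comm]
  have h7 : H x / 2 * volume (dyc v m z) ≠ ⊤ :=
    ENNReal.mul_ne_top (ENNReal.div_ne_top hHx (by norm_num)) hvol
  have h8 : H x / 2 * volume (dyc v m z) ≤ ∫⁻ y in dyc v m z ∩ S, H y := by
    have e : H x * volume (dyc v m z) =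
        H x / 2 * volume (dyc v m z) + H x / 2 * volume (dyc v m z) := by
      rw [← add_mul, ENNReal.add_halves]
    rw [e] at h6
    exact (ENNReal.add_le_add_iff_right h7).1 h6
  calc H x * volume (dyc v m z) = 2 * (H x / 2 * volume (dyc v m z)) := by
        rw [← mul_assoc, ENNReal.mul_div_cancel (by norm_num) (by norm_num)]
    _ ≤ _ := by gcongr

/-- sum over almost disjoint cubes -/
theorem tsum_dyc_le {ι : Type*} [Countable ι] {v : V} {k : ι → ℕ × (Fin 3 → ℤ)}
    (hd : Pairwise (Function.onFun Disjoint fun i => dyo v (k i).1 (k i).2)) {S : Set V}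
    (hS : NullMeasurableSet S (volume : Measure V)) (H : V → ℝ≥0∞) :
    ∑' i, ∫⁻ y in dyc v (k i).1 (k i).2 ∩ S, H y ≤ ∫⁻ y in S, H y := by
  have hm : ∀ i, MeasurableSet (dyc v (k i).1 (k i).2) := fun i => by
    rw [dyc_eq]
    exact measurableSet_closedBall
  have hnull : ∀ i, volume (dyc v (k i).1 (k i).2 \ dyo v (k i).1 (k i).2) = 0 := fun i => by
    have e : closedBall (ctr v (k i).1 (k i).2) (hs (k i).1) \
        ball (ctr v (k i).1 (k i).2) (hs (k i).1) =
        sphere (ctr v (k i).1 (k i).2) (hs (k i).1) := by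
      ext y
      simp only [Set.mem_sdiff, mem_closedBall, mem_ball, mem_sphere, not_lt]
      exact ⟨fun h => le_antisymm h.1 h.2, fun h => ⟨h.le, h.ge⟩⟩
    rw [dyc_eq, dyo_eq, e]
    exact Measure.addHaar_sphere_of_ne_zero _ _ (hs_pos _).ne'
  rw [← lintegral_iUnion₀]
  · exact lintegral_mono_set (iUnion_subset fun i => inter_subset_right)
  · exact fun i => (hm i).nullMeasurableSet.inter hS
  · intro i j hij
    refine measure_mono_null ?_ (measure_union_null (hnull i) (hnull j))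
    rintro y ⟨⟨hy1, -⟩, ⟨hy2, -⟩⟩
    by_cases h : y ∈ dyo v (k i).1 (k i).2
    · exact Or.inr ⟨hy2, fun h' => Set.disjoint_left.1 (hd hij) h h'⟩
    · exact Or.inl ⟨hy1, h⟩

/-- **[M0]**, the threshold -/
theorem exists_threshold (hp : 1 ≤ p) (hΩ : IsOpen Ω) (hv : volume Ω ≠ ⊤)
    (hF : St.IsSobolev p Ω f F) {ε : ℝ≥0∞} (hε : ε ≠ 0) :
    ∃ M₀ : ℝ, 0 < M₀ ∧
      NullMeasurableSet {x | x ∈ Ω ∧ NonSing (F x) ∧ M₀ * |(cl (F x)).det| < ‖cl (F x)‖ ^ p}
        (volume : Measure V) ∧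
      ∫⁻ x in {x | x ∈ Ω ∧ NonSing (F x) ∧ M₀ * |(cl (F x)).det| < ‖cl (F x)‖ ^ p},
        ‖cl (F x)‖ₑ ^ p ≤ ε := by
  set S : ℕ → Set V := fun n =>
    {x | x ∈ Ω ∧ NonSing (F x) ∧ ((n : ℝ) + 1) * |(cl (F x)).det| < ‖cl (F x)‖ ^ p} with hSdef
  have hFm : AEMeasurable (fun x => cl (F x)) (volume.restrict Ω) := (IsSob.aesm hF).aemeasurable
  have hSm : ∀ n, NullMeasurableSet (S n) (volume : Measure V) := by
    intro n
    have h1 : AEMeasurable (fun x => (((n : ℝ) + 1) * |(cl (F x)).det|, ‖cl (F x)‖ ^ p))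
        (volume.restrict Ω) := by
      refine AEMeasurable.prodMk ?_ ?_
      · have hdet : AEMeasurable (fun x => (cl (F x)).det) (volume.restrict Ω) :=
          ContinuousLinearMap.continuous_det.measurable.comp_aemeasurable hFm
        exact (hdet.norm.congr (ae_of_all _ fun x => Real.norm_eq_abs _)).const_mul _
      · exact hFm.norm.pow_const p
    have h2 : NullMeasurableSet {x | ((n : ℝ) + 1) * |(cl (F x)).det| < ‖cl (F x)‖ ^ p}
        (volume.restrict Ω) := nullMeasurableSet_lt h1.fst h1.snd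
    have h3 : NullMeasurableSet ({x | ((n : ℝ) + 1) * |(cl (F x)).det| < ‖cl (F x)‖ ^ p} ∩ Ω)
        (volume : Measure V) := (nullMeasurableSet_restrict hΩ.measurableSet.nullMeasurableSet).1 h2
    have h4 := h3.inter (H989.nullMeasurableSet_nonSing hΩ hF)
    refine h4.congr (Eventually.of_forall fun x => ?_)
    refine propext ⟨fun h => ⟨h.1.2, h.2.2, h.1.1⟩, fun h => ⟨⟨h.2.2, h.1⟩, h.1, h.2.1⟩⟩
  have hfi := IsSob.lintegral_ne_top hp hF
  have hanti : Antitone S := by
    intro m n hmn x hx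
    refine ⟨hx.1, hx.2.1, lt_of_le_of_lt ?_ hx.2.2⟩
    gcongr
  have hemp : ⋂ n, S n = ∅ := by
    refine eq_empty_iff_forall_notMem.2 fun x hx => ?_
    rw [mem_iInter] at hx
    have hdet : 0 < |(cl (F x)).det| := by
      rw [abs_pos]
      exact fun h0 => (H726.det_cl_eq_zero_iff _).1 h0 (hx 0).2.1
    obtain ⟨n, hn⟩ := exists_nat_gt (‖cl (F x)‖ ^ p / |(cl (F x)).det|)
    have h1 := (hx n).2.2
    rw [div_lt_iff₀ hdet] at hn
    nlinarith
  have hlim : Tendsto (fun n => ∫⁻ x in S n, ‖cl (F x)‖ₑ ^ p) atTop (𝓝 0) := by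
    have h0 : Tendsto (fun n => (volume : Measure V) (S n)) atTop (𝓝 0) := by
      have := tendsto_measure_iInter_atTop (μ := (volume : Measure V)) hSm hanti
        ⟨0, ne_top_of_le_ne_top hv (measure_mono fun x hx => hx.1)⟩
      rwa [hemp, measure_empty] at this
    have h1 : ∀ n, ∫⁻ x in S n, ‖cl (F x)‖ₑ ^ p =
        ∫⁻ x in S n, Ω.indicator (fun x => ‖cl (F x)‖ₑ ^ p) x := fun n => by
      refine lintegral_congr_ae ((ae_restrict_iff'₀ (hSm n)).2 (Eventually.of_forall fun x hx => ?_))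
      rw [indicator_of_mem hx.1]
    simp_rw [h1]
    refine tendsto_setLIntegral_zero ?_ h0
    rwa [lintegral_indicator hΩ.measurableSet]
  obtain ⟨n, hn⟩ := ((tendsto_order.1 hlim).2 ε (pos_iff_ne_zero.2 hε)).exists
  exact ⟨n + 1, by positivity, hSm n, hn.le⟩

end Vale.Agent.P073.H911
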