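import Vale.Agent.P073.H911.Boxes
import Vale.Agent.P073.H523.OwnP

/-!
# P073, block B09, leaf (L1): the good boxes, final form
-/

namespace Vale.Agent.P073.H911

open MeasureTheory Set Filter Topology Metric Vale.Agent.P073.St
open Vale.Agent.P073.AB (Idx cl FinDist RatGood edge eInt squ)
open Vale.Agent.P073.H696 (HF am Boxes SpecBoxes)
open scoped ENNReal NNReal

variable {p : ℝ}

theorem idx_eq (v : V) (n : ℕ) (x : V) : H194.idx v n x = idx v n x := by
  funext k
  simp only [H194.idx, idx, mul_comm]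

theorem specOrig (hp : 1 ≤ p) : SpecOrig p := by
  intro Ω Λ f F hΩ hΛ hf hF
  have hfc : ContinuousOn f Ω := by
    obtain ⟨h, -, h1, -⟩ := hf
    exact h1
  obtain ⟨φ, hφ, hv⟩ := H523.exists_ownGen hp hΩ hfc hF (M₀ := fun n => n) strictMono_id
  have hne : (ae (volume.restrict (Icc (0 : V) 1))).NeBot := by
    rw [ae_neBot, Ne, Measure.restrict_eq_zero]
    simp [Real.volume_Icc_pi]
  obtain ⟨v, hv⟩ := hv.exists
  refine ⟨v, φ, hφ, hv.rat, hv.gen, ?_⟩
  filter_upwards [hv.own hΩ.1 hφ] with x hx hxΩ j κ hκ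
  filter_upwards [hx hxΩ j κ hκ] with l hl
  rw [idx_eq] at hl
  exact hl.2

/-- **(L1)** -/
theorem specBoxes (hp : 3 ≤ p) : SpecBoxes p := specBoxes_of hp (specOrig (by linarith))

end Vale.Agent.P073.H911
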