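import Vale.Agent.P073.H239.FSpec
import Vale.Agent.P073.H911.Boxes

/-!
# P073, block B10, leaf (F2) [BOX-AT]: the boxes for a given origin, with an avoided null set,
without finite distortion
-/

namespace Vale.Agent.P073.H911

open MeasureTheory Set Filter Topology Metric Vale.Agent.P073.St
open Vale.Agent.P073.AB (Idx cl FinDist RatGood edge eInt squ)
open Vale.Agent.P073.H194 (sInt Gen)
open Vale.Agent.P073.PK (IsSob.memLp_cl IsSob.aesm IsSob.lintegral_ne_top)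
open Vale.Agent.P073.H989 (GoodPt rest exists_good_of)
open Vale.Agent.P073.H696 (HF am Boxes SpecBoxes)
open P073.Net (dyc dyo)
open scoped ENNReal NNReal

variable {p : ℝ} {Ω Λ : Set V} {f : V → V} {F : V → Mat}

/-- the choice of the good cubes, without finite distortion -/
theorem choice3G (hp : 3 ≤ p) (hΩ : St.IsBoundedDomain Ω) (hΛ : St.IsBoundedDomain Λ)
    (hf : St.IsHomeo Ω Λ f) (hF : St.IsSobolev p Ω f F) {Q : V → Prop}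
    (hQ : ∀ᵐ x ∂(volume : Measure V), x ∈ Ω → NonSing (F x) → Q x) (v : V)
    {P : V → ℝ → ℕ → (Fin 3 → ℤ) → Prop}
    (hP : ∀ x, GoodPt p Ω f F x → Q x → ∀ κ > 0, ∃ᶠ m in atTop, P x κ m (idx v m x))
    {κ₀ : V → ℝ} (hκ₀ : ∀ x, GoodPt p Ω f F x → Q x → 0 < κ₀ x) {w : V → ℝ≥0∞}
    (hw : ∀ y ∈ Λ, ∃ B : NNReal, ∀ᶠ z in 𝓝 y, w z ≤ B) {c : ℝ≥0∞} (hc0 : c ≠ 0) :
    ∃ (K : Set (ℕ × (Fin 3 → ℤ))) (x : ℕ × (Fin 3 → ℤ) → V) (κ : ℕ × (Fin 3 → ℤ) → ℝ),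
      (∀ k ∈ K, GoodPt p Ω f F (x k) ∧ Q (x k) ∧ x k ∈ dyc v k.1 k.2 ∧ dyc v k.1 k.2 ⊆ Ω ∧
        0 < κ k ∧ κ k ≤ κ₀ (x k) ∧ κ k ≤ 1 / 2 ∧ P (x k) (κ k) k.1 k.2 ∧
        ∫⁻ y in dyc v k.1 k.2, ‖cl (F y) - cl (F (x k))‖ₑ ^ p ≤
          ENNReal.ofReal (κ k) * volume (dyc v k.1 k.2)) ∧
      (∀ k ∈ K, aff f (fun y => cl (F y)) (x k) '' shr v k.1 k.2 (κ k) ⊆
        f '' dyo v k.1 k.2) ∧
      (∀ k ∈ K, ∀ k' ∈ K, k ≠ k' → Disjoint (dyo v k.1 k.2) (dyo v k'.1 k'.2)) ∧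
      (∀ C ⊆ Ω, IsCompact C → {k ∈ K | (dyc v k.1 k.2 ∩ C).Nonempty}.Finite) ∧
      ∫⁻ y in Λ \ ⋃ k ∈ K, aff f (fun y => cl (F y)) (x k) '' shr v k.1 k.2 (κ k), w y ≤ c := by
  have hΩo := hΩ.1
  have hΛo := hΛ.1
  have hvΩ : volume Ω ≠ ⊤ := PK.volume_ne_top_of_domain hΩ
  have hvΛ : volume Λ ≠ ⊤ := PK.volume_ne_top_of_domain hΛ
  obtain ⟨G, hGm, hG, hG0, hGi, hGac⟩ := exists_good_of hp hΩo hvΩ hΛo hf hF hQ
  have hGΩ : G ⊆ Ω := fun x hx => (hG x hx).1.mem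
  have hPP : ∀ x ∈ G, ∀ κ > 0, ∃ᶠ m in atTop, (P x κ m (idx v m x) ∧
      ∫⁻ y in dyc v m (idx v m x), ‖cl (F y) - cl (F x)‖ₑ ^ p ≤
        ENNReal.ofReal κ * volume (dyc v m (idx v m x))) := by
    intro x hx κ hκ
    obtain ⟨M₂, h2⟩ := (hG x hx).1.exists_gen (η := ENNReal.ofReal κ) (by simpa using hκ)
    refine ((hP x (hG x hx).1 (hG x hx).2 κ hκ).and_eventually (eventually_ge_atTop M₂)).mono ?_
    rintro m ⟨h1, hm⟩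
    exact ⟨h1, (h2 m hm v _ (hc_sub_dyc v m _ (mem_hc_idx v m x))).2⟩
  obtain ⟨K, x, κ, h1, h2, h3, h4, h5, h6⟩ := exists_cubes_freq
    (P := fun x κ m z => P x κ m z ∧ ∫⁻ y in dyc v m z, ‖cl (F y) - cl (F x)‖ₑ ^ p ≤
      ENNReal.ofReal κ * volume (dyc v m z)) hΩo hΛo hvΛ hf hGΩ
    hGi (fun x hx => (hG x hx).1.der) (fun x hx => (hG x hx).1.det_ne) v hPP
    (fun x hx => hκ₀ x (hG x hx).1 (hG x hx).2) hw hc0
  refine ⟨K, x, κ, fun k hk => ?_, h3, h4, h5, h6⟩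
  obtain ⟨a1, a2, a3, a4, a5, a6, a7, a8⟩ := h1 k hk
  exact ⟨(hG _ a1).1, (hG _ a1).2, a2, a3, a4, a5, a6, a7, a8⟩

/-- **(F2) [BOX-AT]** -/
theorem specBoxAt (hp : 3 ≤ p) : H239.SpecBoxAt p := by
  classical
  intro Ω Λ f F v nn hΩ hΛ hf hF hmono hrat hgen hown S₀ hS₀Ω hS₀c hS₀v ε hε
  have hp1 : 1 ≤ p := by linarith
  have hp0 : 0 < p := by linarith
  have hΩo := hΩ.1
  have hΛo := hΛ.1
  have hvΩ : volume Ω ≠ ⊤ := PK.volume_ne_top_of_domain hΩ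
  have hvΛ : volume Λ ≠ ⊤ := PK.volume_ne_top_of_domain hΛ
  have hfi := IsSob.lintegral_ne_top hp1 hF
  have hε' : ENNReal.ofReal ε / 2 ≠ 0 := by
    simp [ENNReal.div_eq_zero_iff, hε]
  obtain ⟨M₀, hM₀, hSm, hSi⟩ := exists_threshold hp1 hΩo hvΩ hF hε'
  set εB : ℝ := max ε ((∫⁻ x in Ω, ‖cl (F x)‖ₑ ^ p).toReal) with hεB
  have hεB0 : 0 < εB := lt_of_lt_of_le hε (le_max_left _ _)
  refine ⟨εB, hεB0, M₀, hM₀, fun τ c hτc hτ0 hτΛ hc => ?_⟩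
  have hw : ∀ y ∈ Λ, ∃ B : NNReal, ∀ᶠ z in 𝓝 y, ENNReal.ofReal (1 / τ z) ^ 3 ≤ B := by
    intro y hy
    have h1 : 0 < τ y := (hτΛ y).2 hy
    refine ⟨Real.toNNReal (1 / (τ y / 2)) ^ 3, ?_⟩
    have h2 : ∀ᶠ z in 𝓝 y, τ y / 2 < τ z :=
      (hτc.continuousAt (x := y)).eventually (lt_mem_nhds (half_lt_self h1))
    filter_upwards [h2] with z hz
    rw [ENNReal.coe_pow]
    gcongr
    rw [ENNReal.ofReal]
    exact_mod_cast Real.toNNReal_le_toNNReal (one_div_le_one_div_of_le (by positivity) hz.le)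
  have hc2 : c / 2 ≠ 0 := by simp [ENNReal.div_eq_zero_iff, hc]
  obtain ⟨φ, U, hφ, hU, hfrac⟩ := exists_frac hΩo hΛo hvΛ hf hw hc2
  refine ⟨fun x => if x ∈ Ω then φ x else 1, fun x => ?_, fun κ μ s hκ hμ => ?_⟩
  · by_cases hx : x ∈ Ω
    · simp only [hx, if_true]
      exact (hφ x hx).1
    · simp only [hx, if_false]
      exact one_pos
  set S : Set V := {x | x ∈ Ω ∧ NonSing (F x) ∧ M₀ * |(cl (F x)).det| < ‖cl (F x)‖ ^ p} with hS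
  set Q : V → Prop := fun x => (x ∈ S → ∃ M : ℕ, ∀ m ≥ M, ∀ (v : V) (z : Fin 3 → ℤ),
      x ∈ dyc v m z → ‖cl (F x)‖ₑ ^ p * volume (dyc v m z) ≤
        2 * ∫⁻ y in dyc v m z ∩ S, ‖cl (F y)‖ₑ ^ p) ∧ OwnPt p F v nn x ∧ x ∉ S₀ with hQdef
  have hQ : ∀ᵐ x ∂(volume : Measure V), x ∈ Ω → NonSing (F x) → Q x := by
    filter_upwards [ae_heavy hΩo hvΩ ((IsSob.aesm hF).enorm.pow_const p) hSm hfi, hown,
      measure_eq_zero_iff_ae_notMem.1 hS₀v] with x h1 h2 h3 hx _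
    exact ⟨h1 hx, h2 hx, h3⟩
  set P : V → ℝ → ℕ → (Fin 3 → ℤ) → Prop := fun x _ m z =>
    (x ∈ S → ‖cl (F x)‖ₑ ^ p * volume (dyc v m z) ≤
        2 * ∫⁻ y in dyc v m z ∩ S, ‖cl (F y)‖ₑ ^ p) ∧
    (∀ e : Idx × Fin 3, e.1.1 = m + s x → edge v e ⊆ dyc v m z →
      eInt v e (fun y => ‖cl (F y) - cl (F x)‖ₑ ^ p) ≤ ENNReal.ofReal (κ x / 2 ^ e.1.1)) ∧
    (∀ t : Idx × Fin 3, t.1.1 = m + s x → squ v t ⊆ dyc v m z →
      sInt v t (fun y => ‖cl (F y) - cl (F x)‖ₑ ^ p) ≤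
        ENNReal.ofReal (κ x / (2 ^ t.1.1) ^ 2)) ∧
    1 / 2 ^ m ≤ μ x ∧ (dyc v m z ⊆ U x ∧ Disjoint (dyc v m z) S₀) ∧
    ∀ y ∈ dyc v m z, ‖f y - am f F x y‖ ≤ κ x / 2 ^ (m + s x) with hPdef
  have hpow : Tendsto (fun m : ℕ => (1 / 2 ^ m : ℝ)) atTop (𝓝 0) := by
    simpa only [one_div_pow] using
      tendsto_pow_atTop_nhds_zero_of_lt_one (r := (1 / 2 : ℝ)) (by norm_num) (by norm_num)
  have hP : ∀ x, GoodPt p Ω f F x → Q x → ∀ κ' > 0, ∃ᶠ m in atTop, P x κ' m (idx v m x) := by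
    intro x hx hQx κ' _
    have hxd : ∀ m, x ∈ dyc v m (idx v m x) := fun m => hc_sub_dyc v m _ (mem_hc_idx v m x)
    have e1 : ∀ᶠ m : ℕ in atTop, (1 / 2 ^ m : ℝ) ≤ μ x := hpow.eventually (ge_mem_nhds (hμ x))
    have e2 : ∀ᶠ m : ℕ in atTop, dyc v m (idx v m x) ⊆ U x ∧
        Disjoint (dyc v m (idx v m x)) S₀ := by
      obtain ⟨r, hr, hrU⟩ := Metric.mem_nhds_iff.1
        (inter_mem (hU x hx.mem) (hS₀c.isClosed.isOpen_compl.mem_nhds hQx.2.2))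
      have e : ∀ᶠ m : ℕ in atTop, (1 / 2 ^ m : ℝ) < r := hpow.eventually (gt_mem_nhds hr)
      filter_upwards [e] with m hm
      have h1 := (H989.dyc_subset_closedBall (hxd m)).trans
        ((closedBall_subset_ball hm).trans hrU)
      exact ⟨h1.trans inter_subset_left, Set.disjoint_left.2 fun y hy hyS => (h1 hy).2 hyS⟩
    have e3 : ∀ᶠ m : ℕ in atTop, ∀ y ∈ dyc v m (idx v m x),
        ‖f y - am f F x y‖ ≤ κ x / 2 ^ (m + s x) := by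
      have hκ' : 0 < κ x / 2 ^ s x := by have := hκ x; positivity
      have h1 := hx.der.isLittleO.def hκ'
      obtain ⟨r, hr, hrU⟩ := Metric.eventually_nhds_iff_ball.1 h1
      have e : ∀ᶠ m : ℕ in atTop, (1 / 2 ^ m : ℝ) < r := hpow.eventually (gt_mem_nhds hr)
      filter_upwards [e] with m hm y hy
      have h2 := H989.dyc_subset_closedBall (hxd m) hy
      have h3 := hrU y (closedBall_subset_ball hm h2)
      have h4 : ‖y - x‖ ≤ 1 / 2 ^ m := by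
        rw [← dist_eq_norm]
        exact h2
      calc ‖f y - am f F x y‖ = ‖f y - f x - cl (F x) (y - x)‖ := by
            congr 1
            simp only [am, aff]
            abel
        _ ≤ κ x / 2 ^ s x * ‖y - x‖ := h3
        _ ≤ κ x / 2 ^ s x * (1 / 2 ^ m) := by gcongr
        _ = κ x / 2 ^ (m + s x) := by
            rw [pow_add]
            field_simp
    have e4 : ∀ᶠ m : ℕ in atTop, (x ∈ S → ‖cl (F x)‖ₑ ^ p * volume (dyc v m (idx v m x)) ≤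
        2 * ∫⁻ y in dyc v m (idx v m x) ∩ S, ‖cl (F y)‖ₑ ^ p) := by
      by_cases hxS : x ∈ S
      · obtain ⟨M, hM⟩ := hQx.1 hxS
        filter_upwards [eventually_ge_atTop M] with m hm _
        exact hM m hm v _ (hxd m)
      · exact Eventually.of_forall fun m h => absurd h hxS
    have e5 : ∃ᶠ m in atTop,
        (∀ e : Idx × Fin 3, e.1.1 = m + s x → edge v e ⊆ dyc v m (idx v m x) →
          eInt v e (fun y => ‖cl (F y) - cl (F x)‖ₑ ^ p) ≤ ENNReal.ofReal (κ x / 2 ^ e.1.1)) ∧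
        ∀ t : Idx × Fin 3, t.1.1 = m + s x → squ v t ⊆ dyc v m (idx v m x) →
          sInt v t (fun y => ‖cl (F y) - cl (F x)‖ₑ ^ p) ≤
            ENNReal.ofReal (κ x / (2 ^ t.1.1) ^ 2) :=
      hmono.tendsto_atTop.frequently (hQx.2.1 (s x) (κ x) (hκ x)).frequently
    refine (e5.and_eventually (e1.and (e2.and (e3.and e4)))).mono ?_
    rintro m ⟨⟨a1, a2⟩, a3, a4, a5, a6⟩
    exact ⟨a6, a1, a2, a3, a4, a5⟩
  obtain ⟨K, x, κ', h1, h3, h4, h5, h6⟩ := choice3G hp hΩ hΛ hf hF hQ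
    v hP (κ₀ := κ) (fun x _ _ => hκ x) hw hc2
  have hGF : GoodFam Ω f (fun y => cl (F y)) v K x κ' :=
    ⟨fun k hk => (h1 k hk).1.mem, fun k hk => (h1 k hk).2.2.2.1, fun k hk => (h1 k hk).2.2.2.2.1,
      fun k hk => (h1 k hk).2.2.2.2.2.2.1, h3, h4⟩
  have hhigh : ∑' k : {k : Idx // k ∈ K ∧ M₀ * |(cl (F (x k))).det| < ‖cl (F (x k))‖ ^ p},
        ‖cl (F (x k.1))‖ₑ ^ p * volume (dyc v k.1.1 k.1.2) ≤ ENNReal.ofReal ε := by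
    have h8 : ∀ k : {k : Idx // k ∈ K ∧ M₀ * |(cl (F (x k))).det| < ‖cl (F (x k))‖ ^ p},
        ‖cl (F (x k.1))‖ₑ ^ p * volume (dyc v k.1.1 k.1.2) ≤
          2 * ∫⁻ y in dyc v k.1.1 k.1.2 ∩ S, ‖cl (F y)‖ₑ ^ p := by
      rintro ⟨k, hk, hk'⟩
      obtain ⟨a1, a2, a3, a4, a5, a6, a7, a8, a9⟩ := h1 k hk
      exact a8.1 ⟨a1.mem, a1.inv, hk'⟩
    calc ∑' k : {k : Idx // k ∈ K ∧ M₀ * |(cl (F (x k))).det| < ‖cl (F (x k))‖ ^ p},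
          ‖cl (F (x k.1))‖ₑ ^ p * volume (dyc v k.1.1 k.1.2)
        ≤ ∑' k : {k : Idx // k ∈ K ∧ M₀ * |(cl (F (x k))).det| < ‖cl (F (x k))‖ ^ p},
          2 * ∫⁻ y in dyc v k.1.1 k.1.2 ∩ S, ‖cl (F y)‖ₑ ^ p := ENNReal.tsum_le_tsum h8
      _ = 2 * ∑' k : {k : Idx // k ∈ K ∧ M₀ * |(cl (F (x k))).det| < ‖cl (F (x k))‖ ^ p},
          ∫⁻ y in dyc v k.1.1 k.1.2 ∩ S, ‖cl (F y)‖ₑ ^ p := ENNReal.tsum_mul_left
      _ ≤ 2 * ∫⁻ y in S, ‖cl (F y)‖ₑ ^ p := by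
          gcongr
          refine tsum_dyc_le (k := fun k : {k : Idx // k ∈ K ∧
            M₀ * |(cl (F (x k))).det| < ‖cl (F (x k))‖ ^ p} => k.1) ?_ hSm _
          rintro ⟨k, hk, hk'⟩ ⟨l, hl, hl'⟩ hkl
          exact h4 k hk l hl fun h => hkl (Subtype.ext h)
      _ ≤ 2 * (ENNReal.ofReal ε / 2) := by gcongr
      _ = ENNReal.ofReal ε := ENNReal.mul_div_cancel (by norm_num) (by norm_num)
  refine ⟨K, x, ⟨hmono, hrat, hgen, fun k hk => ?_, h4, h5, fun k hk => ?_, fun k hk => ?_,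
    fun k hk => ?_, fun k hk => ?_, fun k hk => ?_, fun E hE => ?_, ?_, ?_⟩, fun k hk => ?_, hhigh⟩
  · obtain ⟨a1, a2, a3, a4, a5, a6, a7, a8, a9⟩ := h1 k hk
    exact ⟨a3, a4, a1.det_ne, a8.2.2.2.1⟩
  · exact (h1 k hk).2.2.2.2.2.2.2.1.2.2.2.2.2
  · obtain ⟨a1, a2, a3, a4, a5, a6, a7, a8, a9⟩ := h1 k hk
    exact (image_mono (shr_anti a6)).trans (h3 k hk)
  · exact (h1 k hk).2.2.2.2.2.2.2.1.2.1
  · exact (h1 k hk).2.2.2.2.2.2.2.1.2.2.1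
  · obtain ⟨a1, a2, a3, a4, a5, a6, a7, a8, a9⟩ := h1 k hk
    refine a9.trans ?_
    gcongr
  · have h8 := hfrac (fun y => cl (F y)) v K x κ' hGF
      (fun k hk => (h1 k hk).2.2.2.2.2.2.2.1.2.2.2.2.1.1) E (fun k hk => by
        have h9 := (hE k hk).2.2
        have hxΩ : x k ∈ Ω := (h1 k hk).1.mem
        simpa only [hxΩ, if_true] using h9)
    refine h8.trans ?_
    calc (∫⁻ y in Λ \ ⋃ k ∈ K, aff f (fun y => cl (F y)) (x k) '' shr v k.1 k.2 (κ' k),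
          ENNReal.ofReal (1 / τ y) ^ 3) + c / 2 ≤ c / 2 + c / 2 := by
          gcongr
      _ = c := ENNReal.add_halves c
  · calc ∫⁻ y in Ω \ ⋃ k ∈ K, dyc v k.1 k.2, ‖cl (F y)‖ₑ ^ p
        ≤ ∫⁻ y in Ω, ‖cl (F y)‖ₑ ^ p := lintegral_mono_set sdiff_subset
      _ ≤ ENNReal.ofReal ((∫⁻ x in Ω, ‖cl (F x)‖ₑ ^ p).toReal) := by
          rw [ENNReal.ofReal_toReal hfi]
      _ ≤ ENNReal.ofReal εB := ENNReal.ofReal_le_ofReal (le_max_right _ _)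
  · exact hhigh.trans (ENNReal.ofReal_le_ofReal (le_max_left _ _))
  · exact (h1 k hk).2.2.2.2.2.2.2.1.2.2.2.2.1.2

end Vale.Agent.P073.H911
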