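import Vale.Agent.P073.H239.FSpec1
import Vale.Agent.P073.H253.LineOK
import Vale.Agent.P073.H239.GCComp

/-!
# P073, block B10, rank one: `SpecLineB` (helper911)

The data of the line for `gg ∘ h₁`: a bound of the length from above on every edge and of the
total displacement from below give closeness of the derivative in the sense of `L¹`.
-/

open Set Metric Topology Filter MeasureTheory WithLp
open scoped ENNReal NNReal

namespace Vale.Agent.P073.H911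

open Vale.Agent.P073
open Vale.Agent.P073.St (V Mat)
open Vale.Agent.P073.SQ (ev)
open Vale.Agent.P073.AB
open Vale.Agent.P073.H73 (segP onSeg)
open Vale.Agent.P073.H253
open _root_.P073 (ConHomeo ConicalOn)

namespace LineB

/-! ### One variable -/

theorem sum_tele (f : ℤ → ℝ) {α β : ℤ} (h : α ≤ β) :
    ∑ k ∈ Finset.Ico α β, (f (k + 1) - f k) = f β - f α := by
  induction β, h using Int.leInduction with
  | base => simp
  | succ n hn ih =>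
    rw [← Finset.insert_Ico_right_eq_Ico_add_one hn, Finset.sum_insert (by simp), ih]
    ring

theorem card_real {α β : ℤ} (h : α ≤ β) : (((Finset.Ico α β).card : ℕ) : ℝ) = β - α := by
  rw [Int.card_Ico]
  have : (((β - α).toNat : ℤ) : ℝ) = ((β - α : ℤ) : ℝ) := by
    rw [Int.toNat_of_nonneg (by omega)]
  push_cast at this
  exact_mod_cast this

theorem norm_toLp_ev : ‖(toLp 2 (ev 0) : EuclideanSpace ℝ (Fin 3))‖ = 1 := by
  have : (toLp 2 (ev 0) : EuclideanSpace ℝ (Fin 3)) = EuclideanSpace.single 0 1 := rfl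
  rw [this]
  simp

/-- comparison of the derivatives -/
theorem abs_deriv_le {χ : ℝ → V} {y : ℝ → ℝ} {K u y' : ℝ} {χ' : V}
    (h1 : HasDerivAt χ χ' u) (h2 : HasDerivAt y y' u)
    (h : ∀ᶠ s in 𝓝 u, |y s - y u| ≤ K * ‖toLp 2 (χ s - χ u)‖) : |y'| ≤ K * ‖toLp 2 χ'‖ := by
  have t1 := (hasDerivAt_iff_tendsto_slope.1 h2).abs
  have t2 : Tendsto (fun s => K * ‖toLp 2 (slope χ u s)‖) (𝓝[≠] u) (𝓝 (K * ‖toLp 2 χ'‖)) := by
    have c : Continuous fun w : V => K * ‖(toLp 2 w : EuclideanSpace ℝ (Fin 3))‖ :=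
      continuous_const.mul (PiLp.continuous_toLp 2 _).norm
    exact (c.tendsto χ').comp (hasDerivAt_iff_tendsto_slope.1 h1)
  refine le_of_tendsto_of_tendsto t1 t2 ?_
  filter_upwards [mem_nhdsWithin_of_mem_nhds h] with s hs
  rw [slope_def_field, slope_def_module, abs_div, toLp_smul, norm_smul, norm_inv,
    Real.norm_eq_abs, div_eq_inv_mul]
  calc |s - u|⁻¹ * |y s - y u| ≤ |s - u|⁻¹ * (K * ‖toLp 2 (χ s - χ u)‖) := by gcongr
    _ = _ := by ring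

/-- pointwise estimate -/
theorem point {ε y' : ℝ} {χ' : V} (hε : 0 ≤ ε) (hε1 : ε ≤ 1)
    (h : |y'| ≤ (1 + ε) * ‖toLp 2 χ'‖) :
    |y' - 1| ≤ 3 + 4 * ‖χ' - ev 0‖ ∧
      |y' - 1| ≤ 2 * ε + 8 * ‖χ' - ev 0‖ - (y' - 1) := by
  have h1 : ‖toLp 2 χ'‖ ≤ 1 + 2 * ‖χ' - ev 0‖ := by
    have e : (toLp 2 χ' : EuclideanSpace ℝ (Fin 3)) = toLp 2 (ev 0) + toLp 2 (χ' - ev 0) := by
      rw [← toLp_add]; congr 1; abel
    rw [e]
    refine (norm_add_le _ _).trans ?_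
    rw [norm_toLp_ev]
    have := H239.norm_toLp_le (χ' - ev 0)
    linarith
  have h0 : 0 ≤ ‖χ' - ev 0‖ := norm_nonneg _
  have h2 : |y'| ≤ 1 + ε + 4 * ‖χ' - ev 0‖ := by
    refine h.trans ?_
    calc (1 + ε) * ‖toLp 2 χ'‖ ≤ (1 + ε) * (1 + 2 * ‖χ' - ev 0‖) := by gcongr
      _ ≤ _ := by nlinarith
  obtain ⟨h3, h4⟩ := abs_le.1 h2
  constructor
  · rw [abs_le]; constructor <;> linarith
  · rw [abs_le]; constructor <;> linarith

/-- **one edge** -/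
theorem edge_dev {ε a b x : ℝ} {y : ℝ → ℝ} {χ : ℝ → V} (hab : a ≤ b) (hε : 0 ≤ ε) (hε1 : ε ≤ 1)
    (cy : ConicalOn y (Icc a b)) (cχ : ConicalOn χ (Icc a b))
    (hlip : ∀ s ∈ Icc a b, ∀ t ∈ Icc a b, |y s - y t| ≤ (1 + ε) * ‖toLp 2 (χ s - χ t)‖)
    (hx : 0 ≤ x) (near : ∫⁻ u in Icc a b, ENNReal.ofReal ‖deriv χ u - ev 0‖ ≤ ENNReal.ofReal x) :
    ∃ D : ℝ, 0 ≤ D ∧ ∫⁻ u in Icc a b, ENNReal.ofReal |deriv y u - 1| ≤ ENNReal.ofReal D ∧
      D ≤ 3 * (b - a) + 4 * x ∧ D ≤ 2 * ε * (b - a) + 8 * x - (y b - y a - (b - a)) := by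
  obtain ⟨h1, h2⟩ := conical_ftc hab cy
  obtain ⟨h1', -⟩ := conical_ftc hab cχ
  have i1 : IntegrableOn (deriv y) (Icc a b) := by
    rw [integrableOn_Icc_iff_integrableOn_Ioc]
    exact (intervalIntegrable_iff_integrableOn_Ioc_of_le hab).1 h1
  have i1' : IntegrableOn (deriv χ) (Icc a b) := by
    rw [integrableOn_Icc_iff_integrableOn_Ioc]
    exact (intervalIntegrable_iff_integrableOn_Ioc_of_le hab).1 h1'
  have ic : ∀ c : ℝ, IntegrableOn (fun _ : ℝ => c) (Icc a b) := fun c => by simp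
  have ec : ∀ c : ℝ, ∫ _u in Icc a b, c = c * (b - a) := fun c => by
    simp [hab, mul_comm]
  have i3 : IntegrableOn (fun u => deriv y u - 1) (Icc a b) := i1.sub (ic 1)
  have i4 : IntegrableOn (fun u => ‖deriv χ u - ev 0‖) (Icc a b) :=
    (i1'.sub (integrable_const (ev 0))).norm
  have h3 : ∫ u in Icc a b, ‖deriv χ u - ev 0‖ ≤ x := by
    have e : ∫ u in Icc a b, ‖deriv χ u - ev 0‖ =
        (∫⁻ u in Icc a b, ENNReal.ofReal ‖deriv χ u - ev 0‖).toReal :=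
      integral_eq_lintegral_of_nonneg_ae (Eventually.of_forall fun _ => norm_nonneg _)
        i4.aestronglyMeasurable
    rw [e]
    exact ENNReal.toReal_le_of_le_ofReal hx near
  have h4 : y b - y a = ∫ u in Icc a b, deriv y u := by
    rw [← h2, intervalIntegral.integral_of_le hab, integral_Icc_eq_integral_Ioc]
  have h5 : y b - y a - (b - a) = ∫ u in Icc a b, (deriv y u - 1) := by
    rw [integral_sub i1 (ic 1), ec, h4]; ring
  have i5 : IntegrableOn (fun u => 2 * ε + 8 * ‖deriv χ u - ev 0‖) (Icc a b) :=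
    (ic (2 * ε)).add (i4.const_mul 8)
  -- pointwise
  have hae : ∀ᵐ u : ℝ ∂(volume.restrict (Icc a b)),
      |deriv y u - 1| ≤ 3 + 4 * ‖deriv χ u - ev 0‖ ∧
      |deriv y u - 1| ≤ 2 * ε + 8 * ‖deriv χ u - ev 0‖ - (deriv y u - 1) := by
    rw [← restrict_Ioo_eq_restrict_Icc, ae_restrict_iff' measurableSet_Ioo]
    filter_upwards [conical_ae_hasDerivAt hab cy, conical_ae_hasDerivAt hab cχ] with u h6 h7 hu
    refine point hε hε1 (abs_deriv_le (h7 hu) (h6 hu) ?_)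
    filter_upwards [Icc_mem_nhds hu.1 hu.2] with s hs
    exact hlip s hs u (Ioo_subset_Icc_self hu)
  refine ⟨∫ u in Icc a b, |deriv y u - 1|, integral_nonneg fun _ => abs_nonneg _, ?_, ?_, ?_⟩
  · rw [ofReal_integral_eq_lintegral_ofReal i3.abs (Eventually.of_forall fun _ => abs_nonneg _)]
  · calc ∫ u in Icc a b, |deriv y u - 1| ≤ ∫ u in Icc a b, (3 + 4 * ‖deriv χ u - ev 0‖) :=
          integral_mono_ae i3.abs ((ic 3).add (i4.const_mul 4)) (hae.mono fun _ h => h.1)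
      _ = 3 * (b - a) + 4 * ∫ u in Icc a b, ‖deriv χ u - ev 0‖ := by
          rw [integral_add (ic 3) (i4.const_mul 4), ec, integral_const_mul]
      _ ≤ _ := by linarith
  · calc ∫ u in Icc a b, |deriv y u - 1|
        ≤ ∫ u in Icc a b, (2 * ε + 8 * ‖deriv χ u - ev 0‖ - (deriv y u - 1)) :=
          integral_mono_ae i3.abs (i5.sub i3) (hae.mono fun _ h => h.2)
      _ = 2 * ε * (b - a) + 8 * (∫ u in Icc a b, ‖deriv χ u - ev 0‖) -
            (y b - y a - (b - a)) := by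
          rw [integral_sub i5 i3, integral_add (ic (2 * ε)) (i4.const_mul 8), ec,
            integral_const_mul, ← h5]
      _ ≤ _ := by linarith

/-- **the line** -/
theorem line_dev {ε η v₀ : ℝ} {α β : ℤ} {y : ℝ → ℝ} {χ : ℝ → V} {x : ℤ → ℝ} (hη : 0 < η)
    (hαβ : α < β) (hunit : (β - α) * η ≤ 1) (hε : 0 ≤ ε) (hε1 : ε ≤ 1)
    (cy : ConicalOn y (Icc (v₀ + α * η) (v₀ + β * η)))
    (cχ : ConicalOn χ (Icc (v₀ + α * η) (v₀ + β * η)))
    (hlip : ∀ s ∈ Icc (v₀ + α * η) (v₀ + β * η), ∀ t ∈ Icc (v₀ + α * η) (v₀ + β * η),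
      |y s - y t| ≤ (1 + ε) * ‖toLp 2 (χ s - χ t)‖)
    (x0 : ∀ k, 0 ≤ x k)
    (near : ∀ k ∈ Finset.Ico α β,
      ∫⁻ u in jv v₀ η k, ENNReal.ofReal ‖deriv χ u - ev 0‖ ≤ ENNReal.ofReal (x k))
    (disp : (β - α) * η - ∑ k ∈ Finset.Ico α β, x k - 4 * ε ≤
      y (v₀ + β * η) - y (v₀ + α * η)) :
    ∃ D : ℤ → ℝ, (∀ k, 0 ≤ D k) ∧
      (∀ k ∈ Finset.Ico α β,
        ∫⁻ u in jv v₀ η k, ENNReal.ofReal |deriv y u - 1| ≤ ENNReal.ofReal (D k)) ∧
      (∀ k ∈ Finset.Ico α β, D k ≤ 3 * η + 4 * x k) ∧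
      ∑ k ∈ Finset.Ico α β, D k ≤ 6 * ε + 9 * ∑ k ∈ Finset.Ico α β, x k := by
  have hsub : ∀ k ∈ Finset.Ico α β,
      Icc (v₀ + k * η) (v₀ + (k + 1) * η) ⊆ Icc (v₀ + α * η) (v₀ + β * η) := by
    intro k hk
    rw [Finset.mem_Ico] at hk
    have h1 : (α : ℝ) ≤ k := by exact_mod_cast hk.1
    have h2 : (k : ℝ) + 1 ≤ β := by exact_mod_cast hk.2
    rintro u ⟨h3, h4⟩
    constructor <;> nlinarith
  have H : ∀ k, ∃ D : ℝ, 0 ≤ D ∧ (k ∈ Finset.Ico α β →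
      ∫⁻ u in jv v₀ η k, ENNReal.ofReal |deriv y u - 1| ≤ ENNReal.ofReal D ∧
      D ≤ 3 * η + 4 * x k ∧
      D ≤ 2 * ε * η + 8 * x k - (y (v₀ + (k + 1) * η) - y (v₀ + k * η) - η)) := by
    intro k
    by_cases hk : k ∈ Finset.Ico α β
    · have e : v₀ + (k + 1) * η - (v₀ + k * η) = η := by ring
      obtain ⟨D, h0, h1, h2, h3⟩ := edge_dev (a := v₀ + k * η) (b := v₀ + (k + 1) * η)
        (x := x k) (by nlinarith) hε hε1
        (cy.mono (_root_.P073.Convex.conicalSet (convex_Icc _ _)) (hsub k hk))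
        (cχ.mono (_root_.P073.Convex.conicalSet (convex_Icc _ _)) (hsub k hk))
        (fun s hs t ht => hlip s (hsub k hk hs) t (hsub k hk ht)) (x0 k) (near k hk)
      rw [e] at h2 h3
      exact ⟨D, h0, fun _ => ⟨h1, h2, h3⟩⟩
    · exact ⟨0, le_rfl, fun h => absurd h hk⟩
  choose D D0 hD using H
  refine ⟨D, D0, fun k hk => (hD k hk).1, fun k hk => (hD k hk).2.1, ?_⟩
  have h1 : ∑ k ∈ Finset.Ico α β, D k ≤ ∑ k ∈ Finset.Ico α β,
      ((2 * ε * η + η) + (8 * x k - (y (v₀ + ((k + 1 : ℤ) : ℝ) * η) - y (v₀ + k * η)))) := by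
    refine Finset.sum_le_sum fun k hk => ?_
    have := (hD k hk).2.2
    push_cast
    linarith
  refine h1.trans ?_
  rw [Finset.sum_add_distrib, Finset.sum_sub_distrib, ← Finset.mul_sum,
    sum_tele (fun k : ℤ => y (v₀ + k * η)) hαβ.le, Finset.sum_const, nsmul_eq_mul,
    card_real hαβ.le]
  have h2 : (β - α : ℝ) * (2 * ε * η) ≤ 2 * ε := by nlinarith
  have h3 : (β - α : ℝ) * (2 * ε * η + η) = (β - α : ℝ) * (2 * ε * η) + (β - α) * η := by ring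
  rw [h3]
  linarith

/-- from `L¹` to the weighted powers -/
theorem sum_pow_le {p η : ℝ} {T : Finset ℤ} {x t : ℤ → ℝ} (hp : 1 ≤ p) (hη : 0 < η)
    (x0 : ∀ k, 0 ≤ x k) (t0 : ∀ k, 0 ≤ t k) (h : ∀ k ∈ T, t k ≤ 3 * η + 7 * x k) :
    ∑ k ∈ T, η ^ (1 - p) * t k ^ p ≤
      (10:ℝ) ^ p * (∑ k ∈ T, η ^ (1 - p) * x k ^ p + ∑ k ∈ T, t k) := by
  rw [mul_add, Finset.mul_sum, Finset.mul_sum, ← Finset.sum_add_distrib]
  refine Finset.sum_le_sum fun k hk => ?_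
  have hp0 : 0 ≤ p := by linarith
  rcases le_or_gt η (x k) with h1 | h1
  · have h2 : t k ≤ 10 * x k := by linarith [h k hk]
    have h3 : t k ^ p ≤ (10:ℝ) ^ p * x k ^ p := by
      rw [← Real.mul_rpow (by norm_num) (x0 k)]
      exact Real.rpow_le_rpow (t0 k) h2 hp0
    have h4 : 0 ≤ (10:ℝ) ^ p * t k := mul_nonneg (by positivity) (t0 k)
    calc η ^ (1 - p) * t k ^ p ≤ η ^ (1 - p) * ((10:ℝ) ^ p * x k ^ p) := by gcongr
      _ = (10:ℝ) ^ p * (η ^ (1 - p) * x k ^ p) := by ring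
      _ ≤ _ := by linarith
  · have h2 : t k ≤ 10 * η := by linarith [h k hk]
    have h5 : 0 ≤ (10:ℝ) ^ p * (η ^ (1 - p) * x k ^ p) := by
      have := x0 k
      positivity
    rcases eq_or_lt_of_le (t0 k) with h0 | h0
    · rw [← h0, Real.zero_rpow (by linarith)]
      simp only [mul_zero, add_zero]
      exact h5
    · have h3 : t k ^ p = t k * t k ^ (p - 1) := by
        rw [← Real.rpow_one_add' h0.le (by linarith)]
        congr 1; ring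
      have h4 : t k ^ (p - 1) ≤ (10 * η) ^ (p - 1) := Real.rpow_le_rpow h0.le h2 (by linarith)
      have h6 : η ^ (1 - p) * (10 * η) ^ (p - 1) = (10:ℝ) ^ (p - 1) := by
        rw [Real.mul_rpow (by norm_num) hη.le, mul_left_comm, ← Real.rpow_add hη]
        simp
      have h7 : (10:ℝ) ^ (p - 1) ≤ (10:ℝ) ^ p :=
        Real.rpow_le_rpow_of_exponent_le (by norm_num) (by linarith)
      calc η ^ (1 - p) * t k ^ p = t k * (η ^ (1 - p) * t k ^ (p - 1)) := by rw [h3]; ring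
        _ ≤ t k * (η ^ (1 - p) * (10 * η) ^ (p - 1)) := by gcongr
        _ = t k * (10:ℝ) ^ (p - 1) := by rw [h6]
        _ ≤ t k * (10:ℝ) ^ p := by gcongr
        _ ≤ _ := by linarith

/-- from the weighted powers to `L¹` -/
theorem sum_le {p η ε s : ℝ} {α β : ℤ} {x : ℤ → ℝ} (hp : 1 ≤ p) (hη : 0 < η) (hs : 0 < s)
    (hαβ : α < β) (hunit : (β - α) * η ≤ 1) (x0 : ∀ k, 0 ≤ x k)
    (h : ∑ k ∈ Finset.Ico α β, η ^ (1 - p) * x k ^ p ≤ ε) :
    ∑ k ∈ Finset.Ico α β, x k ≤ s + s ^ (1 - p) * ε := by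
  have h1 : ∀ t : ℝ, 0 ≤ t → t ≤ s + s ^ (1 - p) * t ^ p := by
    intro t ht
    rcases le_or_gt t s with h | h
    · have : 0 ≤ s ^ (1 - p) * t ^ p := by positivity
      linarith
    · have ht0 : 0 < t := by linarith
      have h2 : t ^ (1 - p) ≤ s ^ (1 - p) :=
        Real.rpow_le_rpow_of_nonpos hs h.le (by linarith)
      have h3 : t ^ (1 - p) * t ^ p = t := by
        rw [← Real.rpow_add ht0, sub_add_cancel, Real.rpow_one]
      have h4 : t ^ (1 - p) * t ^ p ≤ s ^ (1 - p) * t ^ p := by gcongr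
      linarith
  have h2 : ∀ k ∈ Finset.Ico α β, x k ≤ s * η + s ^ (1 - p) * (η ^ (1 - p) * x k ^ p) := by
    intro k _
    have h3 := h1 (x k / η) (div_nonneg (x0 k) hη.le)
    have h4 := mul_le_mul_of_nonneg_right h3 hη.le
    rw [div_mul_cancel₀ _ hη.ne', Real.div_rpow (x0 k) hη.le] at h4
    refine h4.trans (le_of_eq ?_)
    rw [Real.rpow_sub hη 1 p, Real.rpow_one]
    ring
  refine (Finset.sum_le_sum h2).trans ?_
  rw [Finset.sum_add_distrib, Finset.sum_const, nsmul_eq_mul, card_real hαβ.le, ← Finset.mul_sum]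
  have h5 : (β - α : ℝ) * (s * η) ≤ s := by nlinarith
  have h6 : s ^ (1 - p) * ∑ k ∈ Finset.Ico α β, η ^ (1 - p) * x k ^ p ≤ s ^ (1 - p) * ε := by
    gcongr
  linarith

/-! ### The data -/

open Vale.Agent.P073.H239

section data

variable {p Cu : ℝ} {Lc : H851.M3 → ℝ} {δ : ℝ} {j : ℕ} {C θ₁ θ₂ ν₁ ν τ ε c : ℝ} {Λ : Set V}
  {f : V → V} {F : V → Mat} {v : V}

/-- the errors, real form -/
noncomputable def xe (X : BData p Cu Lc δ j C θ₁ θ₂ ν₁ ν τ ε c Λ f F v) (k : ℤ) : ℝ :=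
  (X.Xe k).toReal

variable (X : BData p Cu Lc δ j C θ₁ θ₂ ν₁ ν τ ε c Λ f F v)

theorem xe0 (k : ℤ) : 0 ≤ xe X k := ENNReal.toReal_nonneg

theorem lt : X.a 0 < X.b 0 := X.pl.alt 0 (by decide)

theorem unit : (X.b 0 - X.a 0 : ℝ) * (1 / 2 ^ X.nS) ≤ 1 := by
  have := X.pl.unit
  rw [mul_one_div]; exact this

theorem le : v 0 + X.a 0 * (1 / 2 ^ X.nS) ≤ v 0 + X.b 0 * (1 / 2 ^ X.nS) := by
  have h1 : (X.a 0 : ℝ) < X.b 0 := by exact_mod_cast lt X
  have h2 : (0:ℝ) < 1 / 2 ^ X.nS := by positivity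
  nlinarith

/-- the line is contained in the domain -/
theorem dom {u : ℝ} (hu : u ∈ Icc (v 0 + X.a 0 * (1 / 2 ^ X.nS)) (v 0 + X.b 0 * (1 / 2 ^ X.nS))) :
    lpt (v 1 + X.a 1 / 2 ^ X.nS) (v 2 + X.m₂ / 2 ^ X.nS) u ∈ H235.Bx (H235.bm θ₁ θ₂) := by
  refine X.pl.sub ⟨rfl, fun i hi => ?_⟩
  fin_cases i
  · constructor
    · calc v 0 + X.a 0 / 2 ^ X.nS = v 0 + X.a 0 * (1 / 2 ^ X.nS) := by ring
        _ ≤ u := hu.1
    · calc u ≤ v 0 + X.b 0 * (1 / 2 ^ X.nS) := hu.2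
        _ = _ := by simp; ring
  · exact absurd rfl hi
  · have := X.pl.m₂mem
    have h1 : (X.a 2 : ℝ) ≤ X.m₂ := by exact_mod_cast this.1
    have h2 : (X.m₂ : ℝ) ≤ X.b 2 := by exact_mod_cast this.2
    constructor
    · show v 2 + X.a 2 / 2 ^ X.nS ≤ v 2 + X.m₂ / 2 ^ X.nS
      gcongr
    · show v 2 + X.m₂ / 2 ^ X.nS ≤ v 2 + X.b 2 / 2 ^ X.nS
      gcongr

theorem jv_sub {k : ℤ} (hk : k ∈ Finset.Ico (X.a 0) (X.b 0)) :
    jv (v 0) (1 / 2 ^ X.nS) k ⊆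
      Icc (v 0 + X.a 0 * (1 / 2 ^ X.nS)) (v 0 + X.b 0 * (1 / 2 ^ X.nS)) := by
  rw [Finset.mem_Ico] at hk
  have h1 : (X.a 0 : ℝ) ≤ k := by exact_mod_cast hk.1
  have h2 : (k : ℝ) + 1 ≤ X.b 0 := by exact_mod_cast hk.2
  have h0 : (0:ℝ) < 1 / 2 ^ X.nS := by positivity
  rintro u ⟨h3, h4⟩
  constructor <;> nlinarith

theorem edge_sub {k : ℤ} (hk : k ∈ Finset.Ico (X.a 0) (X.b 0)) :
    edge v (ledge X.nS (X.a 1) X.m₂ k) ⊆ H235.Bx (H235.bm θ₁ θ₂) := by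
  intro x hx
  obtain ⟨u, hu, rfl⟩ := mem_ledge.1 hx
  exact dom X (jv_sub X hk hu)

theorem fin (hp : 0 < p) : (∀ k ∈ Finset.Ico (X.a 0) (X.b 0), X.Xe k < ⊤) ∧
    ∑ k ∈ Finset.Ico (X.a 0) (X.b 0), (1 / 2 ^ X.nS : ℝ) ^ (1 - p) * xe X k ^ p ≤ ε :=
  sum_real hp (by positivity) X.hε.1.le X.ed.close

theorem xe_eq (hp : 0 < p) {k : ℤ} (hk : k ∈ Finset.Ico (X.a 0) (X.b 0)) :
    X.Xe k = ENNReal.ofReal (xe X k) := (ENNReal.ofReal_toReal ((fin X hp).1 k hk).ne).symm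

theorem len_le (hp : 0 < p) {k : ℤ} (hk : k ∈ Finset.Ico (X.a 0) (X.b 0)) :
    ll v X.h₁.toFun (X.e k) ≤ ENNReal.ofReal (1 / 2 ^ X.nS + xe X k) := by
  rw [ENNReal.ofReal_add (by positivity) (xe0 X k), ← xe_eq X hp hk]
  exact X.ed.len k hk

/-- displacement of the map on the line -/
theorem disp (hp : 0 < p) : (X.b 0 - X.a 0 : ℝ) * (1 / 2 ^ X.nS) -
    ∑ k ∈ Finset.Ico (X.a 0) (X.b 0), xe X k ≤
    H235.cmp (H235.bm θ₁ θ₂) f (lpt (v 1 + X.a 1 / 2 ^ X.nS) (v 2 + X.m₂ / 2 ^ X.nS)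
      (v 0 + X.b 0 * (1 / 2 ^ X.nS))) 0 -
    H235.cmp (H235.bm θ₁ θ₂) f (lpt (v 1 + X.a 1 / 2 ^ X.nS) (v 2 + X.m₂ / 2 ^ X.nS)
      (v 0 + X.a 0 * (1 / 2 ^ X.nS))) 0 := by
  set F₀ : ℤ → ℝ := fun k => H235.cmp (H235.bm θ₁ θ₂) f
    (lpt (v 1 + X.a 1 / 2 ^ X.nS) (v 2 + X.m₂ / 2 ^ X.nS) (v 0 + k * (1 / 2 ^ X.nS))) 0 with hF₀
  have hdisp : ∀ k ∈ Finset.Ico (X.a 0) (X.b 0), 1 / 2 ^ X.nS - (F₀ (k + 1) - F₀ k) ≤ xe X k := by
    intro k hk
    have h1 := (ENNReal.ofReal_le_iff_le_toReal ((fin X hp).1 k hk).ne).1 (X.ed.disp k hk)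
    have h2 : (segP v (ledge X.nS (X.a 1) X.m₂ k)).1 =
        lpt (v 1 + X.a 1 / 2 ^ X.nS) (v 2 + X.m₂ / 2 ^ X.nS) (v 0 + k * (1 / 2 ^ X.nS)) :=
      pt_ledge v X.nS (X.a 1) X.m₂ k
    have h3 : (segP v (ledge X.nS (X.a 1) X.m₂ k)).2 =
        lpt (v 1 + X.a 1 / 2 ^ X.nS) (v 2 + X.m₂ / 2 ^ X.nS)
          (v 0 + ((k + 1 : ℤ) : ℝ) * (1 / 2 ^ X.nS)) := by
      have : (segP v (ledge X.nS (X.a 1) X.m₂ k)).2 =
          pt v X.nS ![k, X.a 1, X.m₂] + (1 / 2 ^ X.nS : ℝ) • ev 0 := rfl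
      rw [this, pt_ledge, lpt_add]
      congr 1
      push_cast
      ring
    rw [h2, h3] at h1
    exact h1
  have hsum : (X.b 0 - X.a 0 : ℝ) * (1 / 2 ^ X.nS) - (F₀ (X.b 0) - F₀ (X.a 0)) ≤
      ∑ k ∈ Finset.Ico (X.a 0) (X.b 0), xe X k := by
    refine le_trans (le_of_eq ?_) (Finset.sum_le_sum hdisp)
    rw [Finset.sum_sub_distrib, sum_tele F₀ (lt X).le, Finset.sum_const, nsmul_eq_mul,
      card_real (lt X).le]
  linarith

theorem close {u : ℝ}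
    (hu : u ∈ Icc (v 0 + X.a 0 * (1 / 2 ^ X.nS)) (v 0 + X.b 0 * (1 / 2 ^ X.nS))) :
    |(X.h₁.trans X.gg).toFun (lpt (v 1 + X.a 1 / 2 ^ X.nS) (v 2 + X.m₂ / 2 ^ X.nS) u) 0 -
      H235.cmp (H235.bm θ₁ θ₂) f
        (lpt (v 1 + X.a 1 / 2 ^ X.nS) (v 2 + X.m₂ / 2 ^ X.nS) u) 0| ≤ 2 * ε := by
  set z := lpt (v 1 + X.a 1 / 2 ^ X.nS) (v 2 + X.m₂ / 2 ^ X.nS) u
  have hz : z ∈ H235.Bx (H235.bm θ₁ θ₂) := dom X hu
  have h1 := X.tp.ggc _ (X.h₁.mapsTo hz)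
  have h2 := (X.st.close _ hz).1
  have h3 := (norm_le_pi_norm (X.gg.toFun (X.h₁.toFun z) - X.h₁.toFun z) 0).trans h1
  have h4 := (norm_le_pi_norm (X.h₁.toFun z - H235.cmp (H235.bm θ₁ θ₂) f z) 0).trans h2
  rw [Pi.sub_apply, Real.norm_eq_abs, abs_le] at h3 h4
  rw [abs_le]
  constructor
  · show -(2 * ε) ≤ X.gg.toFun (X.h₁.toFun z) 0 - _
    linarith [h3.1, h4.1]
  · show X.gg.toFun (X.h₁.toFun z) 0 - _ ≤ 2 * ε
    linarith [h3.2, h4.2]

/-- **the deviations on the edges** -/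
theorem exists_dev (hp : 0 < p) : ∃ D : ℤ → ℝ, (∀ k, 0 ≤ D k) ∧
    (∀ k ∈ Finset.Ico (X.a 0) (X.b 0),
      xL (X.h₁.trans X.gg).toFun v (ledge X.nS (X.a 1) X.m₂ k) ≤ ENNReal.ofReal (D k)) ∧
    (∀ k ∈ Finset.Ico (X.a 0) (X.b 0), D k ≤ 3 * (1 / 2 ^ X.nS) + 4 * xe X k) ∧
    ∑ k ∈ Finset.Ico (X.a 0) (X.b 0), D k ≤
      6 * ε + 9 * ∑ k ∈ Finset.Ico (X.a 0) (X.b 0), xe X k := by
  have hη0 : (0:ℝ) < 1 / 2 ^ X.nS := by positivity
  set a₁ : ℝ := v 1 + X.a 1 / 2 ^ X.nS with ha₁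
  set a₂ : ℝ := v 2 + X.m₂ / 2 ^ X.nS with ha₂
  have cχ := conical_lpt X.h₁ fun u hu => dom X hu
  have cγ := conical_lpt (X.h₁.trans X.gg) fun u hu => dom X hu
  have cy := conical_coord (le X) cγ 0
  have hlip : ∀ s ∈ Icc (v 0 + X.a 0 * (1 / 2 ^ X.nS)) (v 0 + X.b 0 * (1 / 2 ^ X.nS)),
      ∀ t ∈ Icc (v 0 + X.a 0 * (1 / 2 ^ X.nS)) (v 0 + X.b 0 * (1 / 2 ^ X.nS)),
      |(X.h₁.trans X.gg).toFun (lpt a₁ a₂ s) 0 - (X.h₁.trans X.gg).toFun (lpt a₁ a₂ t) 0| ≤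
        (1 + ε) * ‖toLp 2 (X.h₁.toFun (lpt a₁ a₂ s) - X.h₁.toFun (lpt a₁ a₂ t))‖ := by
    intro s hs t ht
    refine le_trans ?_ (X.tp.gglip _ (X.h₁.mapsTo (dom X hs)) _ (X.h₁.mapsTo (dom X ht)))
    exact PiLp.norm_apply_le (toLp 2 (X.gg.toFun (X.h₁.toFun (lpt a₁ a₂ s)) -
      X.gg.toFun (X.h₁.toFun (lpt a₁ a₂ t)))) 0
  obtain ⟨D, D0, h1, h2, h3⟩ := line_dev hη0 (lt X) (unit X) X.hε.1.le X.hε.2 cy cχ hlip
    (xe0 X) (fun k hk => by
      rw [← xe_eq X hp hk]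
      refine le_trans (le_of_eq ?_) (X.ed.near k hk)
      rw [eInt_ledge]
      refine lintegral_congr fun u => ?_
      rw [deriv_lpt]) (by
      have h1 := abs_le.1 (close X (u := v 0 + X.b 0 * (1 / 2 ^ X.nS)) ⟨le X, le_rfl⟩)
      have h2 := abs_le.1 (close X (u := v 0 + X.a 0 * (1 / 2 ^ X.nS)) ⟨le_rfl, le X⟩)
      have h3 := disp X hp
      linarith [h1.1, h2.2])
  refine ⟨D, D0, fun k hk => ?_, h2, h3⟩
  refine le_trans (le_of_eq ?_) (h1 k hk)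
  unfold xL
  rw [eInt_ledge]
  have hle : v 0 + k * (1 / 2 ^ X.nS : ℝ) ≤ v 0 + (k + 1) * (1 / 2 ^ X.nS) := by nlinarith
  have chk := cγ.mono (_root_.P073.Convex.conicalSet (convex_Icc _ _)) (jv_sub X hk)
  unfold jv at chk ⊢
  rw [← restrict_Ioo_eq_restrict_Icc]
  refine lintegral_congr_ae ((ae_restrict_iff' measurableSet_Ioo).2 ?_)
  filter_upwards [conical_ae_hasDerivAt hle chk] with t ht htk
  have h5 := (hasDerivAt_pi.1 (ht htk) 0).deriv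
  rw [h5, deriv_lpt]

/-- the sharp clause -/
theorem sharp {c₁ ε₁ D K : ℝ} {g : ConHomeo (H235.Bx (H235.bm θ₁ θ₂)) Λ} (hc₁ : 0 < c₁)
    (hcc : c ≤ c₁ / 4) (hε : 2 * ε ≤ ε₁) (HO : FOut1 X K D (c₁ / 2) (2 * ε) g) {k : ℤ}
    (hk : k ∈ X.G)
    (h : ∃ z : ℤ, ∀ x ∈ edge v (ledge X.nS (X.a 1) X.m₂ k),
      (z + c₁) / 2 ^ X.mt ≤ (X.h₁.trans X.gg).toFun x 0 ∧
        (X.h₁.trans X.gg).toFun x 0 ≤ (z + 1 - c₁) / 2 ^ X.mt) :
    H239.tv g.toFun (segP v (ledge X.nS (X.a 1) X.m₂ k)) Finset.univ ≤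
      ENNReal.ofReal (1 + c₁) * H239.tv (X.h₁.trans X.gg).toFun
        (segP v (ledge X.nS (X.a 1) X.m₂ k)) {0} + ENNReal.ofReal (ε₁ / 2 ^ X.nS) := by
  obtain ⟨z, hz⟩ := h
  have htan : ∀ x ∈ edge v (ledge X.nS (X.a 1) X.m₂ k),
      X.toR2.hh.toFun x 0 = X.gg.toFun (X.h₁.toFun x) 0 := by
    intro x hx
    obtain ⟨h1, h2⟩ := hz x hx
    refine X.tp.tan k hk x hx z ?_ ?_
    · refine le_trans ?_ h1
      gcongr
      linarith
    · refine le_trans h2 ?_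
      gcongr
      linarith
  have h1 := HO.tv k hk ⟨z, fun x hx => by
    rw [htan x hx]
    obtain ⟨h1, h2⟩ := hz x hx
    constructor
    · refine le_trans ?_ h1
      gcongr
      linarith
    · refine le_trans h2 ?_
      gcongr
      linarith⟩
  refine h1.trans (add_le_add (mul_le_mul' (ENNReal.ofReal_le_ofReal (by linarith)) ?_)
    (ENNReal.ofReal_le_ofReal ?_))
  · show H239.tv X.toR2.hh.toFun (segP v (ledge X.nS (X.a 1) X.m₂ k)) {0} ≤ _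
    rw [tv_ledge, tv_ledge, Finset.sum_singleton, Finset.sum_singleton]
    refine le_of_eq (eVariationOn.eq_of_eqOn fun u hu => ?_)
    exact htan _ (mem_ledge.2 ⟨u, hu, rfl⟩)
  · gcongr

/-- the bad edges -/
theorem bad (hp : 0 < p) : ∑ k ∈ Finset.Ico (X.a 0) (X.b 0) \ X.G,
    ENNReal.ofReal ((1 / 2 ^ X.nS) ^ (1 - p)) * ll v X.h₁.toFun (X.e k) ^ p ≤
      ENNReal.ofReal ((10:ℝ) ^ p * (2 * ε)) := by
  set η : ℝ := 1 / 2 ^ X.nS with hη
  have hη0 : 0 < η := by positivity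
  have hηp : 0 < η ^ (1 - p) := by positivity
  have h1 : ∀ k ∈ Finset.Ico (X.a 0) (X.b 0) \ X.G, ENNReal.ofReal (η ^ (1 - p)) *
      ll v X.h₁.toFun (X.e k) ^ p ≤
        ENNReal.ofReal ((10:ℝ) ^ p * (η + η ^ (1 - p) * xe X k ^ p)) := by
    intro k hk
    have hk' := (Finset.mem_sdiff.1 hk).1
    calc ENNReal.ofReal (η ^ (1 - p)) * ll v X.h₁.toFun (X.e k) ^ p
        ≤ ENNReal.ofReal (η ^ (1 - p)) * ENNReal.ofReal (η + xe X k) ^ p := by
          gcongr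
          exact len_le X hp hk'
      _ = ENNReal.ofReal (η ^ (1 - p) * (η + xe X k) ^ p) := by
          rw [ENNReal.ofReal_mul hηp.le,
            ENNReal.ofReal_rpow_of_nonneg (add_nonneg hη0.le (xe0 X k)) hp.le]
      _ ≤ _ := by
          refine ENNReal.ofReal_le_ofReal ?_
          have h2 := add_rpow_le_two hp.le hη0.le (xe0 X k)
          have h3 : (2:ℝ) ^ p ≤ (10:ℝ) ^ p :=
            Real.rpow_le_rpow (by norm_num) (by norm_num) hp.le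
          have h4 : 0 ≤ η ^ p + xe X k ^ p := by
            have := xe0 X k
            positivity
          calc η ^ (1 - p) * (η + xe X k) ^ p ≤
                η ^ (1 - p) * ((10:ℝ) ^ p * (η ^ p + xe X k ^ p)) :=
                mul_le_mul_of_nonneg_left (h2.trans (mul_le_mul_of_nonneg_right h3 h4)) hηp.le
            _ = (10:ℝ) ^ p * (η ^ (1 - p) * η ^ p + η ^ (1 - p) * xe X k ^ p) := by ring
            _ = _ := by rw [← Real.rpow_add hη0, sub_add_cancel, Real.rpow_one]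
  refine (Finset.sum_le_sum h1).trans ?_
  rw [← ENNReal.ofReal_sum_of_nonneg fun k _ => by
    have := xe0 X k
    positivity]
  refine ENNReal.ofReal_le_ofReal ?_
  rw [← Finset.mul_sum, Finset.sum_add_distrib, Finset.sum_const, nsmul_eq_mul]
  have h2 : ((Finset.Ico (X.a 0) (X.b 0) \ X.G).card : ℝ) * η ≤ ε := by
    have := X.tp.card
    rw [hη, mul_one_div]; exact this
  have h3 : ∑ k ∈ Finset.Ico (X.a 0) (X.b 0) \ X.G, η ^ (1 - p) * xe X k ^ p ≤ ε := by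
    refine le_trans ?_ (fin X hp).2
    exact Finset.sum_le_sum_of_subset_of_nonneg Finset.sdiff_subset fun k _ _ => by
      have := xe0 X k
      positivity
  have h4 : 0 < (10:ℝ) ^ p := by positivity
  exact mul_le_mul_of_nonneg_left (by linarith) h4.le

end data

end LineB

open LineB Vale.Agent.P073.H239

/-- **(H2) [LINE-B]** -/
theorem specLineB : SpecLineB := by
  intro p Cu D K hp hCu hD hK
  refine ⟨1, D + 2 + K * D, one_pos, by positivity, fun c₁ hc₁ hc₁' ε₁ hε₁ => ?_⟩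
  have hp0 : 0 < p := by linarith
  have hp1 : 1 ≤ p := by linarith
  set B : ℝ := (10:ℝ) ^ p with hB
  have hB1 : 1 ≤ B := Real.one_le_rpow (by norm_num) hp0.le
  have hB0 : 0 < B := by linarith
  set s : ℝ := ε₁ / (40 * B) with hs
  have hs0 : 0 < s := by positivity
  refine ⟨min 1 (min (ε₁ / (28 * B)) (s ^ p)), by positivity, ?_⟩
  intro δ j Lc C θ₁ θ₂ ν₁ ν τ ε c Λ f F v X g hε hcc hδ hθ₁ hθ₂ HO
  have hε0 : 0 < ε := X.hε.1
  have e2 : ε ≤ ε₁ / (28 * B) := hε.trans ((min_le_right _ _).trans (min_le_left _ _))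
  have e3 : ε ≤ s ^ p := hε.trans ((min_le_right _ _).trans (min_le_right _ _))
  have e2' : 28 * B * ε ≤ ε₁ := by
    rw [le_div_iff₀ (by positivity)] at e2
    linarith
  have e4 : 28 * ε ≤ ε₁ := by nlinarith
  have hη0 : (0:ℝ) < 1 / 2 ^ X.nS := by positivity
  have hηp : (0:ℝ) < (1 / 2 ^ X.nS) ^ (1 - p) := by positivity
  obtain ⟨Dv, D0, hD1, hD2, hD3⟩ := exists_dev X hp0
  have hXs := (fin X hp0).2
  have hσ : ∑ k ∈ Finset.Ico (X.a 0) (X.b 0), xe X k ≤ 2 * s := by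
    refine (sum_le hp1 hη0 hs0 (lt X) (unit X) (xe0 X) hXs).trans ?_
    have : s ^ (1 - p) * ε ≤ s := by
      calc s ^ (1 - p) * ε ≤ s ^ (1 - p) * s ^ p := by gcongr
        _ = s := by rw [← Real.rpow_add hs0, sub_add_cancel, Real.rpow_one]
    linarith
  have hBs : B * (20 * s) = ε₁ / 2 := by rw [hs]; field_simp; ring
  refine ⟨fun k => ll v X.h₁.toFun (X.e k), fun k => ENNReal.ofReal (Dv k + xe X k), ?_⟩
  refine
    { lt := lt X
      unit := X.pl.unit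
      sub := fun k hk => edge_sub X hk
      fine := by
        have := X.pl.fine
        linarith
      mtε := by
        have := X.tp.mtε
        linarith
      Gsub := X.tp.Gsub
      near := fun k hk => (hD1 k hk).trans (ENNReal.ofReal_le_ofReal (by linarith [xe0 X k]))
      close := ?_
      osc := ?_
      app := ?_
      tv := fun k hk h => sharp X hc₁ hcc (by linarith) HO hk h
      elip := ?_
      bad := (bad X hp0).trans (ENNReal.ofReal_le_ofReal (by linarith))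
      good := ?_ }
  · -- close
    have h1 : ∀ k ∈ Finset.Ico (X.a 0) (X.b 0), ENNReal.ofReal ((1 / 2 ^ X.nS) ^ (1 - p)) *
        ENNReal.ofReal (Dv k + xe X k) ^ p =
          ENNReal.ofReal ((1 / 2 ^ X.nS) ^ (1 - p) * (Dv k + xe X k) ^ p) := by
      intro k _
      rw [ENNReal.ofReal_mul hηp.le,
        ENNReal.ofReal_rpow_of_nonneg (add_nonneg (D0 k) (xe0 X k)) hp0.le]
    rw [Finset.sum_congr rfl h1, ← ENNReal.ofReal_sum_of_nonneg fun k _ => by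
      have := add_nonneg (D0 k) (xe0 X k)
      positivity]
    refine ENNReal.ofReal_le_ofReal ?_
    refine (sum_pow_le hp1 hη0 (xe0 X) (fun k => add_nonneg (D0 k) (xe0 X k)) fun k hk => by
      have := hD2 k hk
      have := xe0 X k
      linarith).trans ?_
    rw [Finset.sum_add_distrib]
    have h2 : ∑ k ∈ Finset.Ico (X.a 0) (X.b 0), (1 / 2 ^ X.nS : ℝ) ^ (1 - p) * xe X k ^ p +
        (∑ k ∈ Finset.Ico (X.a 0) (X.b 0), Dv k + ∑ k ∈ Finset.Ico (X.a 0) (X.b 0), xe X k) ≤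
        7 * ε + 20 * s := by linarith
    calc (10:ℝ) ^ p * (∑ k ∈ Finset.Ico (X.a 0) (X.b 0),
          (1 / 2 ^ X.nS : ℝ) ^ (1 - p) * xe X k ^ p +
        (∑ k ∈ Finset.Ico (X.a 0) (X.b 0), Dv k + ∑ k ∈ Finset.Ico (X.a 0) (X.b 0), xe X k))
        ≤ B * (7 * ε + 20 * s) := mul_le_mul_of_nonneg_left h2 hB0.le
      _ = 7 * B * ε + B * (20 * s) := by ring
      _ ≤ ε₁ := by rw [hBs]; linarith
  · -- osc
    intro k hk x hx y hy
    refine ((X.tp.osc k hk x hx y hy).2).trans ?_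
    gcongr
    linarith
  · -- app
    intro k hk x hx
    have h1 := HO.close k hk x hx
    have h2 := X.tp.far k hk x hx
    have h3 : g.toFun x - (X.h₁.trans X.gg).toFun x =
        (g.toFun x - X.toR2.hh.toFun x) + (X.toR2.hh.toFun x - X.gg.toFun (X.h₁.toFun x)) := by
      rw [sub_add_sub_cancel]; rfl
    rw [h3]
    refine (norm_add_le _ _).trans ((add_le_add h1 h2).trans ?_)
    rw [← add_div]
    have : 0 ≤ K * D := by positivity
    exact div_le_div_of_nonneg_right (by linarith) (by positivity)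
  · -- elip
    intro k hk hne x hx y hy
    refine (HO.elip k hk hne x hx y hy).trans ?_
    have h1 : 0 ≤ (ll v X.h₁.toFun (X.e k)).toReal := ENNReal.toReal_nonneg
    have h2 : K * D ≤ D + 2 + K * D := by linarith
    have h3 : 2 * ε ≤ ε₁ := by linarith
    have h4 : 0 ≤ 2 * ε / 2 ^ X.nS := by positivity
    gcongr
  · -- good
    intro k hk
    refine (len_le X hp0 (X.tp.Gsub hk)).trans ?_
    rw [ENNReal.ofReal_one, one_mul, ENNReal.ofReal_add hη0.le (xe0 X k)]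
    exact add_le_add le_rfl (ENNReal.ofReal_le_ofReal (by linarith [D0 k]))

end Vale.Agent.P073.H911
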