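import Vale.Agent.P073.H911.FinalSum

/-!
# P073, H911: the sums over the boxes in the final choice of constants ([SUMF-VOL])
-/

namespace Vale.Agent.P073.H911

open MeasureTheory Set Filter Topology Metric Vale.Agent.P073.St
open Vale.Agent.P073.AB (Idx cl)
open Vale.Agent.P073.SQ (ev)
open Vale.Agent.P073.H696 (HF am Boxes blk blkS deep)
open P073.Net (dyc dyo)
open scoped ENNReal NNReal

variable {p : ℝ} {Ω Λ : Set V} {f : V → V} {F : V → Mat} {v : V} {K : Set Idx} {x : Idx → V}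
  {κ : ℝ≥0∞}

/-- the choice of the margins `c₀ x` and of the depths `a x` -/
theorem exists_margins {φ E : V → ℝ} (hφ : ∀ x, 0 < φ x) {ε : ℝ} (hε : 0 < ε) :
    ∃ (c₀ : V → ℝ) (a : V → ℕ), (∀ x, 0 < c₀ x ∧ c₀ x ≤ 1 / 64) ∧ (∀ x, 2 ≤ a x) ∧
      ∀ x, ∀ b, a x ≤ b → 18 / 2 ^ b + 24 * c₀ x ≤ φ x ∧ (18 / 2 ^ b + 24 * c₀ x) * |E x| ≤ ε := by
  have h1 : ∀ x, ∃ (c : ℝ) (a : ℕ), (0 < c ∧ c ≤ 1 / 64) ∧ 2 ≤ a ∧
      ∀ b, a ≤ b → 18 / 2 ^ b + 24 * c ≤ φ x ∧ (18 / 2 ^ b + 24 * c) * |E x| ≤ ε := by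
    intro x
    set η : ℝ := min (φ x) (ε / (|E x| + 1)) with hη
    have hη0 : 0 < η := lt_min (hφ x) (by positivity)
    obtain ⟨a, ha⟩ := exists_pow_lt_of_lt_one (show 0 < η / 36 by positivity)
      (show (1 / 2 : ℝ) < 1 by norm_num)
    refine ⟨min (1 / 64) (η / 48), max 2 a, ⟨by positivity, min_le_left _ _⟩, le_max_left _ _,
      fun b hb => ?_⟩
    have h2 : (18 : ℝ) / 2 ^ b ≤ η / 2 := by
      have h3 : ((1 / 2 : ℝ)) ^ b ≤ (1 / 2) ^ a :=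
        pow_le_pow_of_le_one (by norm_num) (by norm_num) ((le_max_right _ _).trans hb)
      have h4 : (18 : ℝ) / 2 ^ b = 18 * (1 / 2) ^ b := by
        rw [one_div_pow]
        ring
      rw [h4]
      linarith
    have h5 : 24 * min (1 / 64) (η / 48) ≤ η / 2 := by
      have := min_le_right (1 / 64) (η / 48)
      linarith
    have h6 : 18 / 2 ^ b + 24 * min (1 / 64) (η / 48) ≤ η := by linarith
    refine ⟨h6.trans (min_le_left _ _), ?_⟩
    calc (18 / 2 ^ b + 24 * min (1 / 64) (η / 48)) * |E x| ≤ η * |E x| := by gcongr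
      _ ≤ ε / (|E x| + 1) * |E x| := by gcongr; exact min_le_right _ _
      _ ≤ ε := by
          rw [div_mul_eq_mul_div, div_le_iff₀ (by positivity)]
          nlinarith [abs_nonneg (E x)]
  choose c₀ a h2 h3 h4 using h1
  exact ⟨c₀, a, h2, h3, h4⟩

theorem measurableSet_deep (v : V) (n : Idx → ℕ) (c : ℝ) (k : Idx) :
    MeasurableSet (deep v n c k) :=
  MeasurableSet.biUnion (to_countable _) fun _ _ => measurableSet_closedBall

theorem deep_sub_dyo (v : V) (n : Idx → ℕ) {c : ℝ} (hc : 0 ≤ c) {k : Idx} (hn : k.1 ≤ n k) :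
    deep v n c k ⊆ dyo v k.1 k.2 := (deep_sub_blkS v n hc k).trans (blkS_sub hn)

/-- the inner blocks are finite -/
theorem finite_blk (k : Idx) (n : ℕ) : (blk k n).Finite := by
  refine (Set.finite_Icc (fun i => 2 ^ (n - k.1) * k.2 i + 1 : Fin 3 → ℤ)
    (fun i => 2 ^ (n - k.1) * (k.2 i + 1) - 2)).subset fun z hz => ?_
  exact ⟨fun i => by have := (hz i).1; simp only; linarith,
    fun i => by have := (hz i).2; simp only; linarith⟩

theorem isCompact_deep (v : V) (n : Idx → ℕ) (c : ℝ) (k : Idx) : IsCompact (deep v n c k) :=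
  (finite_blk k (n k)).isCompact_biUnion fun _ _ => isCompact_closedBall _ _

/-- sums over the boxes of small fractions -/
theorem Bx.tsum_frac_le (B : Bx p Ω F v K x κ) (hΩ : IsOpen Ω) {a m : K → ℝ≥0∞} {ε : ℝ≥0∞}
    (h : ∀ k : K, a k * m k ≤ ε * volume (dyc v k.1.1 k.1.2)) :
    ∑' k : K, a k * m k ≤ ε * volume Ω := by
  calc ∑' k : K, a k * m k ≤ ∑' k : K, ε * volume (dyc v k.1.1 k.1.2) := ENNReal.tsum_le_tsum h
    _ = ε * ∑' k : K, volume (dyc v k.1.1 k.1.2) := ENNReal.tsum_mul_left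
    _ ≤ ε * volume Ω := by gcongr; exact B.tsum_vol_le hΩ

/-- (S1) the sum of `SpecR2` over the solid cubes -/
theorem Bx.sum_solid (B : Bx p Ω F v K x κ) (hΩ : IsOpen Ω) {n : Idx → ℕ} {c₀ E : Idx → ℝ}
    (hn : ∀ k ∈ K, k.1 ≤ n k) (hc : ∀ k ∈ K, 0 ≤ c₀ k ∧ c₀ k ≤ 1 / 8) {ε : ℝ}
    (h : ∀ k ∈ K, (18 / 2 ^ (n k - k.1) + 24 * c₀ k) * E k ≤ ε) (S : Set Idx) :
    ∑' k : {k // k ∈ K}, ENNReal.ofReal (E k.1) *
      volume ((⋃ q ∈ {q | q ∈ S ∧ dyc v q.1 q.2 ⊆ dyc v k.1.1 k.1.2}, dyc v q.1 q.2) \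
        deep v n (4 * c₀ k.1) k.1) ≤ ENNReal.ofReal ε * volume Ω := by
  refine B.tsum_frac_le hΩ fun k => ?_
  have h1 : volume ((⋃ q ∈ {q | q ∈ S ∧ dyc v q.1 q.2 ⊆ dyc v k.1.1 k.1.2}, dyc v q.1 q.2) \
        deep v n (4 * c₀ k.1) k.1) ≤
      ENNReal.ofReal (18 / 2 ^ (n k.1 - k.1.1) + 6 * (4 * c₀ k.1)) *
        volume (dyc v k.1.1 k.1.2) := by
    refine (measure_mono (sdiff_subset_sdiff_left (iUnion₂_subset fun q hq => hq.2))).trans ?_
    exact volume_sdiff_deep v n (hn k.1 k.2) (by linarith [(hc k.1 k.2).1])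
      (by linarith [(hc k.1 k.2).2])
  have h2 := h k.1 k.2
  have h3 : (0 : ℝ) ≤ 18 / 2 ^ (n k.1 - k.1.1) + 24 * c₀ k.1 := by
    have := (hc k.1 k.2).1
    positivity
  calc ENNReal.ofReal (E k.1) *
      volume ((⋃ q ∈ {q | q ∈ S ∧ dyc v q.1 q.2 ⊆ dyc v k.1.1 k.1.2}, dyc v q.1 q.2) \
        deep v n (4 * c₀ k.1) k.1)
      ≤ ENNReal.ofReal (E k.1) *
        (ENNReal.ofReal (18 / 2 ^ (n k.1 - k.1.1) + 6 * (4 * c₀ k.1)) *
        volume (dyc v k.1.1 k.1.2)) := by gcongr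
    _ = ENNReal.ofReal ((18 / 2 ^ (n k.1 - k.1.1) + 24 * c₀ k.1) * E k.1) *
        volume (dyc v k.1.1 k.1.2) := by
        rw [ENNReal.ofReal_mul h3, show 6 * (4 * c₀ k.1) = 24 * c₀ k.1 by ring]
        ring
    _ ≤ _ := by gcongr

/-- (S3) the kept sets are large enough for `Boxes.frac` -/
theorem frac_deep {n : Idx → ℕ} {c₀ φ : ℝ} {k : Idx} (hn : k.1 ≤ n k)
    (hc : 0 ≤ c₀ ∧ c₀ ≤ 1 / 8) (h : 18 / 2 ^ (n k - k.1) + 24 * c₀ ≤ φ) :
    IsCompact (deep v n (4 * c₀) k) ∧ deep v n (4 * c₀) k ⊆ dyc v k.1 k.2 ∧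
      volume (dyc v k.1 k.2 \ deep v n (4 * c₀) k) ≤
        ENNReal.ofReal φ * volume (dyc v k.1 k.2) := by
  refine ⟨isCompact_deep v n _ k, ?_, ?_⟩
  · exact (deep_sub_dyo v n (by linarith [hc.1]) (by omega)).trans
      ((dyo_sub_hc _ _ _).trans (hc_sub_dyc _ _ _))
  · refine (volume_sdiff_deep v n hn (by linarith [hc.1]) (by linarith [hc.2])).trans ?_
    gcongr
    linarith

/-- (S2) integral of the density over the box without its inner block -/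
theorem Bx.HF_le (B : Bx p Ω F v K x κ) (hp : 1 ≤ p) (hF : St.IsSobolev p Ω f F) {k : Idx}
    (hk : k ∈ K) {n : ℕ} (hn : k.1 ≤ n) :
    ∫⁻ y in dyc v k.1 k.2 \ blkS v k n, HF p Ω F y ≤
      2 ^ (p - 1) * (‖cl (F (x k))‖ₑ ^ p * ENNReal.ofReal (18 / 2 ^ (n - k.1)) + κ) *
        volume (dyc v k.1 k.2) := by
  have hsub : dyc v k.1 k.2 \ blkS v k n ⊆ Ω := sdiff_subset.trans (B.sub k hk)
  have hm : MeasurableSet (dyc v k.1 k.2 \ blkS v k n) := by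
    refine MeasurableSet.diff ?_ (MeasurableSet.biUnion (to_countable _) fun z _ => ?_)
    · rw [dyc_eq]; exact measurableSet_closedBall
    · rw [dyc_eq]; exact measurableSet_closedBall
  calc ∫⁻ y in dyc v k.1 k.2 \ blkS v k n, HF p Ω F y
      = ∫⁻ y in dyc v k.1 k.2 \ blkS v k n, ‖cl (F y)‖ₑ ^ p := by
        refine setLIntegral_congr_fun hm fun y hy => ?_
        simp only [HF]
        rw [indicator_of_mem (hsub hy)]
    _ ≤ ∫⁻ y in dyc v k.1 k.2 \ blkS v k n, 2 ^ (p - 1) * (‖cl (F (x k))‖ₑ ^ p +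
          ‖cl (F y) - cl (F (x k))‖ₑ ^ p) := lintegral_mono fun y => enorm_rpow_add_le hp _ _
    _ = 2 ^ (p - 1) * (‖cl (F (x k))‖ₑ ^ p * volume (dyc v k.1 k.2 \ blkS v k n) +
        ∫⁻ y in dyc v k.1 k.2 \ blkS v k n, ‖cl (F y) - cl (F (x k))‖ₑ ^ p) := by
          rw [lintegral_const_mul' _ _ (two_rpow_ne_top p),
            lintegral_add_right' _ (aem_sub hF hsub _), setLIntegral_const]
    _ ≤ 2 ^ (p - 1) * (‖cl (F (x k))‖ₑ ^ p *
          (ENNReal.ofReal (18 / 2 ^ (n - k.1)) * volume (dyc v k.1 k.2)) +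
          κ * volume (dyc v k.1 k.2)) := by
          gcongr
          · exact volume_sdiff_blkS v hn
          · exact (lintegral_mono_set sdiff_subset).trans (B.leb k hk)
    _ = _ := by ring

/-- (S4) the cost of the affine maps off the set `R` -/
theorem Bx.sum_off (B : Bx p Ω F v K x κ) (hΩ : IsOpen Ω) {n : Idx → ℕ} {c₀ : Idx → ℝ}
    (hn : ∀ k ∈ K, k.1 ≤ n k) (hc : ∀ k ∈ K, 0 ≤ c₀ k ∧ c₀ k ≤ 1 / 8) {ε : ℝ}
    (h : ∀ k ∈ K, (18 / 2 ^ (n k - k.1) + 24 * c₀ k) * ‖cl (F (x k))‖ ^ p ≤ ε) (hp : 0 ≤ p)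
    {Act R : Set V} {ε' : ℝ≥0∞}
    (hcost : ∑' k : {k // k ∈ K}, ‖cl (F (x k.1))‖ₑ ^ p *
      volume {y | y ∈ deep v n (3 * c₀ k.1) k.1 ∧ am f F (x k.1) y ∈ Act} ≤ ε')
    (hR : ∀ k ∈ K, ∀ᵐ y, y ∈ deep v n (3 * c₀ k) k → am f F (x k) y ∉ Act → y ∈ R) :
    ∑' k : K, ‖cl (F (x k.1))‖ₑ ^ p * volume (dyc v k.1.1 k.1.2 \ R) ≤
      ENNReal.ofReal ε * volume Ω + ε' := by
  have h1 : ∀ k : K, ‖cl (F (x k.1))‖ₑ ^ p * volume (dyc v k.1.1 k.1.2 \ R) ≤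
      ‖cl (F (x k.1))‖ₑ ^ p * volume (dyc v k.1.1 k.1.2 \ deep v n (3 * c₀ k.1) k.1) +
      ‖cl (F (x k.1))‖ₑ ^ p *
        volume {y | y ∈ deep v n (3 * c₀ k.1) k.1 ∧ am f F (x k.1) y ∈ Act} := by
    intro k
    rw [← mul_add]
    gcongr
    refine le_trans ?_ (measure_union_le _ _)
    refine measure_mono_ae ?_
    filter_upwards [hR k.1 k.2] with y hy hyR
    by_cases h2 : y ∈ deep v n (3 * c₀ k.1) k.1
    · refine Or.inr ⟨h2, ?_⟩
      by_contra h3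
      exact hyR.2 (hy h2 h3)
    · exact Or.inl ⟨hyR.1, h2⟩
  calc ∑' k : K, ‖cl (F (x k.1))‖ₑ ^ p * volume (dyc v k.1.1 k.1.2 \ R)
      ≤ (∑' k : K, ‖cl (F (x k.1))‖ₑ ^ p *
          volume (dyc v k.1.1 k.1.2 \ deep v n (3 * c₀ k.1) k.1)) +
        ∑' k : K, ‖cl (F (x k.1))‖ₑ ^ p *
          volume {y | y ∈ deep v n (3 * c₀ k.1) k.1 ∧ am f F (x k.1) y ∈ Act} :=
        (ENNReal.tsum_le_tsum h1).trans ENNReal.tsum_add.le
    _ ≤ _ := by
        refine add_le_add (B.tsum_frac_le hΩ fun k => ?_) hcost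
        have h2 := h k.1 k.2
        have h3 : (0 : ℝ) ≤ 18 / 2 ^ (n k.1 - k.1.1) + 24 * c₀ k.1 := by
          have := (hc k.1 k.2).1
          positivity
        calc ‖cl (F (x k.1))‖ₑ ^ p *
            volume (dyc v k.1.1 k.1.2 \ deep v n (3 * c₀ k.1) k.1)
            ≤ ‖cl (F (x k.1))‖ₑ ^ p *
              (ENNReal.ofReal (18 / 2 ^ (n k.1 - k.1.1) + 6 * (3 * c₀ k.1)) *
              volume (dyc v k.1.1 k.1.2)) := by
              gcongr
              exact volume_sdiff_deep v n (hn k.1 k.2) (by linarith [(hc k.1 k.2).1])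
                (by linarith [(hc k.1 k.2).2])
          _ ≤ ENNReal.ofReal (‖cl (F (x k.1))‖ ^ p) *
              (ENNReal.ofReal (18 / 2 ^ (n k.1 - k.1.1) + 24 * c₀ k.1) *
              volume (dyc v k.1.1 k.1.2)) := by
              rw [← ofReal_norm, ENNReal.ofReal_rpow_of_nonneg (norm_nonneg _) hp]
              have h4 : ENNReal.ofReal (18 / 2 ^ (n k.1 - k.1.1) + 6 * (3 * c₀ k.1)) ≤
                  ENNReal.ofReal (18 / 2 ^ (n k.1 - k.1.1) + 24 * c₀ k.1) :=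
                ENNReal.ofReal_le_ofReal (by linarith [(hc k.1 k.2).1])
              gcongr
          _ = ENNReal.ofReal ((18 / 2 ^ (n k.1 - k.1.1) + 24 * c₀ k.1) * ‖cl (F (x k.1))‖ ^ p) *
              volume (dyc v k.1.1 k.1.2) := by
              rw [ENNReal.ofReal_mul h3]
              ring
          _ ≤ _ := by gcongr

end Vale.Agent.P073.H911
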