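import Mathlib

/-! # Measure and convexity lemmas for the collapse theorem [COL] (block COL-M) -/

open Set Metric MeasureTheory Filter Topology
open scoped ENNReal NNReal

namespace Vale.Agent.P073.H911

variable {E : Type*} [NormedAddCommGroup E] [InnerProductSpace ℝ E] [FiniteDimensional ℝ E]

/-- A finite convex function on a finite dimensional space has a subgradient at every point. -/
theorem exists_subgradient {φ : E → ℝ} (hφ : ConvexOn ℝ univ φ) (x : E) :
    ∃ a : E, ∀ y, φ x + inner ℝ a (y - x) ≤ φ y := by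
  have hc : Continuous φ := hφ.locallyLipschitz.continuous
  have hopen : IsOpen {p : E × ℝ | p.1 ∈ (univ : Set E) ∧ φ p.1 < p.2} := by
    simp only [mem_univ, true_and]
    exact isOpen_lt (hc.comp continuous_fst) continuous_snd
  obtain ⟨f, hf⟩ := geometric_hahn_banach_open_point hφ.convex_strict_epigraph hopen
    (x := (x, φ x)) (by simp)
  have hsplit : ∀ (y : E) (t : ℝ), f (y, t) = f (y, 0) + t * f (0, 1) := by
    intro y t
    have : (y, t) = (y, (0 : ℝ)) + t • ((0 : E), (1 : ℝ)) := by simp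
    rw [this, map_add, map_smul]; simp
  set c : ℝ := f (0, 1) with hcdef
  have hineq : ∀ y t, φ y < t → f (y, 0) + t * c < f (x, 0) + φ x * c := by
    intro y t ht
    have := hf (y, t) (by simpa using ht)
    rwa [hsplit y t, hsplit x (φ x)] at this
  have hcneg : c < 0 := by
    have := hineq x (φ x + 1) (by linarith)
    linarith
  have hineq2 : ∀ y, f (y, 0) + φ y * c ≤ f (x, 0) + φ x * c := by
    intro y
    refine le_of_forall_pos_le_add fun ε hε => ?_
    have hpos : 0 < ε / (-c) := div_pos hε (by linarith)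
    have := hineq y (φ y + ε / (-c)) (by linarith)
    have hcne : c ≠ 0 := hcneg.ne
    have h2 : (ε / (-c)) * c = -ε := by
      rw [div_neg, neg_mul, div_mul_cancel₀ _ hcne]
    nlinarith [this, h2]
  let u : E →L[ℝ] ℝ := (-c)⁻¹ • (f.comp (ContinuousLinearMap.inl ℝ E ℝ))
  refine ⟨(InnerProductSpace.toDual ℝ E).symm u, fun y => ?_⟩
  rw [InnerProductSpace.toDual_symm_apply]
  have hu : u (y - x) = (-c)⁻¹ * (f (y, 0) - f (x, 0)) := by
    have : ((y - x, 0) : E × ℝ) = (y, 0) - (x, 0) := by simp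
    change (-c)⁻¹ * f (y - x, 0) = _
    rw [this, map_sub]
  rw [hu]
  have h := hineq2 y
  have hc' : 0 < -c := by linarith
  have : (-c)⁻¹ * (f (y, 0) - f (x, 0)) ≤ (-c)⁻¹ * ((-c) * (φ y - φ x)) :=
    mul_le_mul_of_nonneg_left (by nlinarith) (inv_nonneg.2 hc'.le)
  rw [inv_mul_cancel_left₀ hc'.ne'] at this
  linarith

/-- If `φ` and `L/2 |y|^2 - φ` are convex then `φ` has a gradient everywhere, with the two sided
quadratic bound. -/
theorem exists_grad_aux {φ : E → ℝ} {L : ℝ} (hL : 0 ≤ L) (hφ : ConvexOn ℝ univ φ)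
    (hφ' : ConvexOn ℝ univ (fun y => L / 2 * ‖y‖ ^ 2 - φ y)) :
    ∃ g : E → E, (∀ x, HasGradientAt φ (g x) x) ∧
      (∀ x y, φ x + inner ℝ (g x) (y - x) ≤ φ y) ∧
      (∀ x y, φ y ≤ φ x + inner ℝ (g x) (y - x) + L / 2 * ‖y - x‖ ^ 2) := by
  choose g hg using fun x => exists_subgradient hφ x
  choose b hb using fun x => exists_subgradient hφ' x
  have key : ∀ x y, φ y ≤ φ x + inner ℝ (L • x - b x) (y - x) + L / 2 * ‖y - x‖ ^ 2 := by
    intro x y
    have h := hb x y
    have h1 : ‖y‖ ^ 2 = ‖x‖ ^ 2 + 2 * inner ℝ x (y - x) + ‖y - x‖ ^ 2 := by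
      have : y = x + (y - x) := by abel
      conv_lhs => rw [this]
      rw [norm_add_sq_real]
    rw [inner_sub_left, real_inner_smul_left]
    nlinarith [h, h1]
  have heq : ∀ x, g x = L • x - b x := by
    intro x
    by_contra hne
    set d := g x - (L • x - b x) with hd
    have hdn : 0 < ‖d‖ ^ 2 := by
      have : d ≠ 0 := sub_ne_zero.2 hne
      positivity
    -- for all t > 0 : t |d|^2 ≤ L/2 t^2 |d|^2
    have ht : ∀ t : ℝ, 0 < t → t * ‖d‖ ^ 2 ≤ L / 2 * t ^ 2 * ‖d‖ ^ 2 := by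
      intro t ht
      have h1 := hg x (x + t • d)
      have h2 := key x (x + t • d)
      have e : x + t • d - x = t • d := by abel
      rw [e] at h1 h2
      rw [real_inner_smul_right] at h1 h2
      rw [norm_smul, mul_pow, Real.norm_eq_abs, sq_abs] at h2
      have h3 : inner ℝ (g x) d - inner ℝ (L • x - b x) d = ‖d‖ ^ 2 := by
        rw [← inner_sub_left, ← hd, real_inner_self_eq_norm_sq]
      nlinarith
    have h1 := ht (1 / (L + 1)) (by positivity)
    have : (1 / (L + 1)) ≤ L / 2 * (1 / (L + 1)) ^ 2 := by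
      by_contra hcon
      push Not at hcon
      nlinarith
    have hL1 : 0 < L + 1 := by linarith
    rw [div_pow, one_pow, mul_one_div, div_le_div_iff₀ hL1 (by positivity)] at this
    nlinarith
  have hup : ∀ x y, φ y ≤ φ x + inner ℝ (g x) (y - x) + L / 2 * ‖y - x‖ ^ 2 := by
    intro x y; rw [heq x]; exact key x y
  refine ⟨g, fun x => ?_, hg, hup⟩
  rw [hasGradientAt_iff_isLittleO]
  refine Asymptotics.IsBigO.trans_isLittleO (g := fun y => ‖y - x‖ ^ 2) ?_ ?_
  · refine Asymptotics.IsBigO.of_bound (L / 2) (Eventually.of_forall fun y => ?_)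
    have h1 := hup x y
    have h2 := hg x y
    rw [Real.norm_eq_abs, Real.norm_eq_abs, abs_of_nonneg (sq_nonneg ‖y - x‖),
      abs_of_nonneg (by linarith)]
    linarith
  · exact Asymptotics.isLittleO_pow_sub_sub x one_lt_two

/-- **(M6)** If `φ` and `L/2 |y|^2 - φ` are convex then `φ` is differentiable and its gradient is
`L`-Lipschitz (and cocoercive). -/
theorem exists_grad {φ : E → ℝ} {L : ℝ} (hL : 0 < L) (hφ : ConvexOn ℝ univ φ)
    (hφ' : ConvexOn ℝ univ (fun y => L / 2 * ‖y‖ ^ 2 - φ y)) :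
    ∃ g : E → E, (∀ x, HasGradientAt φ (g x) x) ∧
      (∀ x y, φ x + inner ℝ (g x) (y - x) ≤ φ y) ∧
      (∀ x y, φ y ≤ φ x + inner ℝ (g x) (y - x) + L / 2 * ‖y - x‖ ^ 2) ∧
      (∀ x y, φ x + inner ℝ (g x) (y - x) + 1 / (2 * L) * ‖g y - g x‖ ^ 2 ≤ φ y) ∧
      (∀ x y, 1 / L * ‖g y - g x‖ ^ 2 ≤ inner ℝ (g y - g x) (y - x)) ∧
      (∀ x y, ‖g y - g x‖ ≤ L * ‖y - x‖) := by
  obtain ⟨g, hg, hlow, hup⟩ := exists_grad_aux hL.le hφ hφ'
  have hco : ∀ x y, φ x + inner ℝ (g x) (y - x) + 1 / (2 * L) * ‖g y - g x‖ ^ 2 ≤ φ y := by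
    intro x y
    set d := g y - g x with hd
    set z := y - (1 / L) • d with hz
    have h1 := hlow x z
    have h2 := hup y z
    have e1 : z - y = -((1 / L) • d) := by rw [hz]; abel
    have e2 : z - x = (y - x) - (1 / L) • d := by rw [hz]; abel
    rw [e1, norm_neg, norm_smul, mul_pow, inner_neg_right, real_inner_smul_right] at h2
    rw [e2, inner_sub_right, real_inner_smul_right] at h1
    have h3 : inner ℝ (g y) d - inner ℝ (g x) d = ‖d‖ ^ 2 := by
      rw [← inner_sub_left, ← hd, real_inner_self_eq_norm_sq]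
    have h4 : ‖(1 / L : ℝ)‖ ^ 2 = 1 / L ^ 2 := by
      rw [Real.norm_eq_abs, sq_abs]; ring
    rw [h4] at h2
    have h5 : L / 2 * (1 / L ^ 2 * ‖d‖ ^ 2) = 1 / (2 * L) * ‖d‖ ^ 2 := by
      field_simp
    have h6 : 1 / L * inner ℝ (g y) d = 1 / L * inner ℝ (g x) d + 1 / L * ‖d‖ ^ 2 := by
      rw [← h3]; ring
    have h7 : 1 / L * ‖d‖ ^ 2 = 2 * (1 / (2 * L) * ‖d‖ ^ 2) := by
      field_simp
    linarith
  have hmono : ∀ x y, 1 / L * ‖g y - g x‖ ^ 2 ≤ inner ℝ (g y - g x) (y - x) := by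
    intro x y
    have h1 := hco x y
    have h2 := hco y x
    have e : x - y = -(y - x) := by abel
    rw [e, inner_neg_right, ← norm_neg (g x - g y), neg_sub] at h2
    rw [inner_sub_left]
    have h7 : 1 / L * ‖g y - g x‖ ^ 2 = 2 * (1 / (2 * L) * ‖g y - g x‖ ^ 2) := by
      field_simp
    linarith
  refine ⟨g, hg, hlow, hup, hco, hmono, fun x y => ?_⟩
  by_cases h0 : ‖g y - g x‖ = 0
  · rw [h0]; positivity
  have hpos : 0 < ‖g y - g x‖ := lt_of_le_of_ne (norm_nonneg _) (Ne.symm h0)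
  have h1 := hmono x y
  have h2 : inner ℝ (g y - g x) (y - x) ≤ ‖g y - g x‖ * ‖y - x‖ := real_inner_le_norm _ _
  have h3 : 1 / L * ‖g y - g x‖ ^ 2 ≤ ‖g y - g x‖ * ‖y - x‖ := h1.trans h2
  have h4 : ‖g y - g x‖ * (1 / L * ‖g y - g x‖) ≤ ‖g y - g x‖ * ‖y - x‖ := by
    calc _ = 1 / L * ‖g y - g x‖ ^ 2 := by ring
      _ ≤ _ := h3
  have h5 := le_of_mul_le_mul_left h4 hpos
  rw [one_div, inv_mul_le_iff₀ hL] at h5
  exact h5

omit [FiniteDimensional ℝ E] in
/-- **(M5)** A nonnegative function `v` with `h/2 |y|^2 - v` convex grows at most quadratically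
from its zeros. -/
theorem le_of_zero {v : E → ℝ} {h : ℝ} (hh : 0 ≤ h) (hv : ∀ y, 0 ≤ v y)
    (hc : ConvexOn ℝ univ (fun y => h / 2 * ‖y‖ ^ 2 - v y)) {z : E} (hz : v z = 0) (y : E) :
    v y ≤ h / 2 * ‖y - z‖ ^ 2 := by
  refine le_of_forall_pos_le_add fun ε hε => ?_
  -- choose `s > 0` with `h/2 s |y - z|^2 ≤ ε`
  obtain ⟨s, hs, hsε⟩ : ∃ s : ℝ, 0 < s ∧ h / 2 * s * ‖y - z‖ ^ 2 ≤ ε := by
    refine ⟨ε / (h / 2 * ‖y - z‖ ^ 2 + 1), by positivity, ?_⟩
    have hp : 0 < h / 2 * ‖y - z‖ ^ 2 + 1 := by positivity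
    have : h / 2 * (ε / (h / 2 * ‖y - z‖ ^ 2 + 1)) * ‖y - z‖ ^ 2
        = ε * ((h / 2 * ‖y - z‖ ^ 2) / (h / 2 * ‖y - z‖ ^ 2 + 1)) := by ring
    rw [this]
    have h1 : (h / 2 * ‖y - z‖ ^ 2) / (h / 2 * ‖y - z‖ ^ 2 + 1) ≤ 1 := by
      rw [div_le_one hp]; linarith
    nlinarith
  set w := z - s • (y - z) with hw
  have h1s : 0 < 1 + s := by linarith
  have hconv := hc.2 (mem_univ y) (mem_univ w) (show (0 : ℝ) ≤ s / (1 + s) by positivity)
    (show (0 : ℝ) ≤ 1 / (1 + s) by positivity) (by field_simp; ring)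
  have hcomb : (s / (1 + s)) • y + (1 / (1 + s)) • w = z := by
    rw [hw]
    have h1 : (1 + s) • ((s / (1 + s)) • y + (1 / (1 + s)) • (z - s • (y - z))) = (1 + s) • z := by
      rw [smul_add, smul_smul, smul_smul, mul_div_cancel₀ _ h1s.ne', mul_one_div_cancel h1s.ne',
        one_smul, smul_sub, add_smul, one_smul]
      abel
    exact smul_right_injective E h1s.ne' h1
  rw [hcomb] at hconv
  simp only [smul_eq_mul, hz] at hconv
  have hw0 := hv w
  have hz2 : ‖y‖ ^ 2 = ‖z‖ ^ 2 + 2 * inner ℝ z (y - z) + ‖y - z‖ ^ 2 := by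
    have : y = z + (y - z) := by abel
    conv_lhs => rw [this]
    rw [norm_add_sq_real]
  have hw2 : ‖w‖ ^ 2 = ‖z‖ ^ 2 - 2 * s * inner ℝ z (y - z) + s ^ 2 * ‖y - z‖ ^ 2 := by
    rw [hw, norm_sub_sq_real, real_inner_smul_right, norm_smul, mul_pow, Real.norm_eq_abs, sq_abs]
    ring
  have hmul : (1 + s) * (h / 2 * ‖z‖ ^ 2 - 0)
      ≤ s * (h / 2 * ‖y‖ ^ 2 - v y) + (h / 2 * ‖w‖ ^ 2 - v w) := by
    have := mul_le_mul_of_nonneg_left hconv h1s.le
    calc (1 + s) * (h / 2 * ‖z‖ ^ 2 - 0)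
        ≤ (1 + s) * (s / (1 + s) * (h / 2 * ‖y‖ ^ 2 - v y)
          + 1 / (1 + s) * (h / 2 * ‖w‖ ^ 2 - v w)) := this
      _ = _ := by field_simp
  rw [hz2, hw2] at hmul
  have : s * v y ≤ s * (h / 2 * ‖y - z‖ ^ 2 + h / 2 * s * ‖y - z‖ ^ 2) := by nlinarith
  have := le_of_mul_le_mul_left this hs
  linarith

omit [FiniteDimensional ℝ E] in
/-- **(M5')** gradient bound for nonnegative semiconcave functions. -/
theorem norm_grad_sq_le {v : E → ℝ} {h : ℝ} (hh : 0 < h) (hv : ∀ y, 0 ≤ v y) {a y : E}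
    (hup : ∀ z, v z ≤ v y + inner ℝ a (z - y) + h / 2 * ‖z - y‖ ^ 2) :
    ‖a‖ ^ 2 ≤ 2 * h * v y := by
  have h1 := hup (y - (1 / h) • a)
  have h2 := hv (y - (1 / h) • a)
  have e : y - (1 / h) • a - y = -((1 / h) • a) := by abel
  rw [e, norm_neg, norm_smul, mul_pow, inner_neg_right, real_inner_smul_right,
    real_inner_self_eq_norm_sq, Real.norm_eq_abs, sq_abs] at h1
  have h3 : h / 2 * ((1 / h) ^ 2 * ‖a‖ ^ 2) = 1 / (2 * h) * ‖a‖ ^ 2 := by field_simp
  have h4 : 1 / h * ‖a‖ ^ 2 = 2 * (1 / (2 * h) * ‖a‖ ^ 2) := by field_simp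
  have h5 : 1 / (2 * h) * ‖a‖ ^ 2 ≤ v y := by linarith
  have h6 : 0 < 2 * h := by positivity
  rw [one_div, inv_mul_le_iff₀ h6] at h5
  exact h5

section Min

/-- quadratic growth -/
def Grows (G : E → ℝ) : Prop := ∃ c C : ℝ, 0 < c ∧ ∀ y, c * ‖y‖ ^ 2 - C ≤ G y

/-- `y` is a minimiser of `G - ⟨p, .⟩`. -/
def IsMin (G : E → ℝ) (p y : E) : Prop := ∀ z, G y - inner ℝ p y ≤ G z - inner ℝ p z

/-- existence of minimisers (M2) -/
theorem exists_isMin {G : E → ℝ} (hc : Continuous G) (hG : Grows G) (p : E) :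
    ∃ y, IsMin G p y := by
  obtain ⟨c, C, hc0, hgr⟩ := hG
  have hcont : Continuous fun y => G y - inner ℝ p y := by fun_prop
  have hlim : Tendsto (fun y => G y - inner ℝ p y) (cocompact E) atTop := by
    have h1 : Tendsto (fun y : E => ‖y‖ * (c * ‖y‖ - ‖p‖) - C) (cocompact E) atTop := by
      have hn : Tendsto (fun y : E => ‖y‖) (cocompact E) atTop := tendsto_norm_cocompact_atTop
      have h2 : Tendsto (fun y : E => c * ‖y‖ - ‖p‖) (cocompact E) atTop := by
        simpa [sub_eq_add_neg] using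
          tendsto_atTop_add_const_right _ (-‖p‖) (hn.const_mul_atTop hc0)
      simpa [sub_eq_add_neg] using
        tendsto_atTop_add_const_right _ (-C) (hn.atTop_mul_atTop₀ h2)
    refine tendsto_atTop_mono (fun y => ?_) h1
    have h2 := hgr y
    have h3 : inner ℝ p y ≤ ‖p‖ * ‖y‖ := real_inner_le_norm _ _
    nlinarith
  obtain ⟨y, hy⟩ := hcont.exists_forall_le hlim
  exact ⟨y, hy⟩

theorem grad_eq_of_isLocalMin {G : E → ℝ} {p y a : E}
    (hm : IsLocalMin (fun z => G z - inner ℝ p z) y) (hg : HasGradientAt G a y) :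
    a = p := by
  have h1 : HasFDerivAt (fun z => G z - inner ℝ p z)
      (InnerProductSpace.toDual ℝ E a - InnerProductSpace.toDual ℝ E p) y := by
    refine HasFDerivAt.sub ?_ ?_
    · exact hg.hasFDerivAt
    · exact (InnerProductSpace.toDual ℝ E p).hasFDerivAt
  have h3 := hm.hasFDerivAt_eq_zero h1
  rw [sub_eq_zero] at h3
  exact (InnerProductSpace.toDual ℝ E).injective h3

theorem IsMin.grad {G : E → ℝ} {p y a : E} (hm : IsMin G p y) (hg : HasGradientAt G a y) :
    a = p :=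
  grad_eq_of_isLocalMin (Eventually.of_forall hm) hg

end Min

section Meas

variable [MeasurableSpace E] [BorelSpace E]

/-- **(M1)** Lipschitz images. -/
theorem addHaar_image_le (μ : Measure E) [μ.IsAddHaarMeasure] {f : E → E} {s : Set E} {L : ℝ≥0}
    (hf : LipschitzOnWith L f s) :
    μ (f '' s) ≤ (L : ℝ≥0∞) ^ Module.finrank ℝ E * μ s := by
  obtain ⟨c, hc⟩ : ∃ c : ℝ≥0, μ = c • (μH[Module.finrank ℝ E] : Measure E) :=
    ⟨_, Measure.isAddLeftInvariant_eq_smul μ (μH[Module.finrank ℝ E])⟩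
  have h := hf.hausdorffMeasure_image_le (d := Module.finrank ℝ E) (by positivity)
  rw [ENNReal.rpow_natCast] at h
  rw [hc]
  simp only [Measure.smul_apply]
  calc c • (μH[Module.finrank ℝ E] : Measure E) (f '' s)
      ≤ c • ((L : ℝ≥0∞) ^ Module.finrank ℝ E * (μH[Module.finrank ℝ E] : Measure E) s) := by
        gcongr
    _ = _ := by
        rw [ENNReal.smul_def, ENNReal.smul_def, smul_eq_mul, smul_eq_mul]; ring

/-- real convex functions are differentiable almost everywhere -/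
theorem ae_differentiableAt_of_convex (μ : Measure E) [μ.IsAddHaarMeasure] {F : E → ℝ}
    (hF : ConvexOn ℝ univ F) : ∀ᵐ x ∂μ, DifferentiableAt ℝ F x := by
  rw [ae_iff]
  refine measure_null_of_locally_null _ fun x _ => ?_
  obtain ⟨K, t, ht, hK⟩ := hF.locallyLipschitz x
  obtain ⟨U, hUt, hUo, hxU⟩ := _root_.mem_nhds_iff.1 ht
  refine ⟨U ∩ {x | ¬ DifferentiableAt ℝ F x}, mem_nhdsWithin.2 ⟨U, hUo, hxU, subset_rfl⟩, ?_⟩
  have h := (hK.mono hUt).ae_differentiableWithinAt_of_mem (μ := μ)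
  rw [ae_iff] at h
  refine measure_mono_null ?_ h
  rintro y ⟨hyU, hy⟩ hcon
  exact hy ((hcon hyU).differentiableAt (hUo.mem_nhds hyU))

/-- **(M2)** the slopes with more than one minimiser form a null set. -/
theorem null_mult (μ : Measure E) [μ.IsAddHaarMeasure] {G : E → ℝ} (hc : Continuous G)
    (hG : Grows G) : μ {p | ∃ y z, y ≠ z ∧ IsMin G p y ∧ IsMin G p z} = 0 := by
  choose m hm using exists_isMin hc hG
  set F : E → ℝ := fun p => inner ℝ p (m p) - G (m p) with hF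
  have hsub : ∀ p y, IsMin G p y → ∀ q, F p + inner ℝ (q - p) y ≤ F q := by
    intro p y hy q
    have h1 := hy (m p)
    have h2 := hm q y
    have h3 : F p ≤ inner ℝ p y - G y := by simp only [hF]; linarith
    have h4 : inner ℝ q y - G y ≤ F q := by simp only [hF]; linarith
    rw [inner_sub_left]; linarith
  have hconv : ConvexOn ℝ univ F := by
    refine ⟨convex_univ, fun p _ q _ a b ha hb hab => ?_⟩
    set r := a • p + b • q with hr
    have h1 := hsub r (m r) (hm r) p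
    have h2 := hsub r (m r) (hm r) q
    have h3 : a * inner ℝ (p - r) (m r) + b * inner ℝ (q - r) (m r) = 0 := by
      rw [← real_inner_smul_left, ← real_inner_smul_left, ← inner_add_left]
      have : a • (p - r) + b • (q - r) = 0 := by
        have : a • (p - r) + b • (q - r) = r - (a + b) • r := by
          rw [hr]; simp only [smul_sub, smul_add, add_smul]; abel
        rw [this, hab, one_smul, sub_self]
      rw [this, inner_zero_left]
    simp only [smul_eq_mul]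
    have h4 : F r = a * F r + b * F r := by rw [← add_mul, hab, one_mul]
    nlinarith [mul_le_mul_of_nonneg_left h1 ha, mul_le_mul_of_nonneg_left h2 hb]
  have hae := ae_differentiableAt_of_convex μ hconv
  rw [ae_iff] at hae
  refine measure_mono_null ?_ hae
  rintro p ⟨y, z, hyz, hy, hz⟩ hdiff
  apply hyz
  have key : ∀ w, IsMin G p w → w = gradient F p := by
    intro w hw
    have hmin : IsLocalMin (fun q => F q - inner ℝ w q) p := by
      refine Eventually.of_forall fun q => ?_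
      have := hsub p w hw q
      rw [inner_sub_left, real_inner_comm, real_inner_comm w p] at this
      simp only; linarith
    exact (grad_eq_of_isLocalMin hmin hdiff.hasGradientAt).symm
  rw [key y hy, key z hz]

omit [MeasurableSpace E] [BorelSpace E] in
/-- **(M3)** a function lying above a parabola of Hessian `κ` touching at `y₁`. -/
theorem ball_subset_image_grad {G : E → ℝ} {g : E → E} {y₁ a : E} {κ r : ℝ} (hr : 0 < r)
    (hg : ∀ y ∈ ball y₁ r, HasGradientAt G (g y) y) (hc : ContinuousOn G (closedBall y₁ r))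
    (h : ∀ y ∈ closedBall y₁ r, G y₁ + inner ℝ a (y - y₁) + κ / 2 * ‖y - y₁‖ ^ 2 ≤ G y) :
    ball a (κ * r / 2) ⊆ g '' ball y₁ r := by
  intro p hp
  have hcont : ContinuousOn (fun y => G y - inner ℝ p y) (closedBall y₁ r) :=
    hc.sub (by fun_prop)
  obtain ⟨z, hz, hmin⟩ := (isCompact_closedBall y₁ r).exists_isMinOn
    ⟨y₁, mem_closedBall_self hr.le⟩ hcont
  have hzb : z ∈ ball y₁ r := by
    rw [mem_ball]
    refine lt_of_le_of_ne (mem_closedBall.1 hz) fun heq => ?_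
    have h1 := h z hz
    have h2 : G z - inner ℝ p z ≤ G y₁ - inner ℝ p y₁ := hmin (mem_closedBall_self hr.le)
    have hn : ‖z - y₁‖ = r := by rw [← dist_eq_norm]; exact heq
    have h3 : inner ℝ (p - a) (z - y₁) ≤ ‖p - a‖ * ‖z - y₁‖ := real_inner_le_norm _ _
    rw [inner_sub_left, inner_sub_right p] at h3
    rw [hn] at h1 h3
    rw [mem_ball, dist_eq_norm] at hp
    nlinarith
  refine ⟨z, hzb, ?_⟩
  refine grad_eq_of_isLocalMin (G := G) ?_ (hg z hzb)
  filter_upwards [isOpen_ball.mem_nhds hzb] with w hw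
  exact hmin (ball_subset_closedBall hw)

/-- **(M4)** density bound. -/
theorem measure_lower_bound (μ : Measure E) [μ.IsAddHaarMeasure] {G : E → ℝ} {g : E → E}
    {y₁ a : E} {κ r : ℝ} {L : ℝ≥0} (hκ : 0 < κ) (hr : 0 < r) (hgL : LipschitzWith L g)
    (hg : ∀ y ∈ ball y₁ r, HasGradientAt G (g y) y) (hc : ContinuousOn G (closedBall y₁ r))
    (h : ∀ y ∈ closedBall y₁ r, G y₁ + inner ℝ a (y - y₁) + κ / 2 * ‖y - y₁‖ ^ 2 ≤ G y)
    {V : Set E} (hnull : μ (g '' (ball y₁ r ∩ Vᶜ)) = 0) :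
    ENNReal.ofReal (κ / 2) ^ Module.finrank ℝ E * μ (ball y₁ r)
      ≤ (L : ℝ≥0∞) ^ Module.finrank ℝ E * μ (V ∩ ball y₁ r) := by
  have h1 : μ (ball a (κ * r / 2)) ≤ (L : ℝ≥0∞) ^ Module.finrank ℝ E * μ (V ∩ ball y₁ r) := by
    calc μ (ball a (κ * r / 2)) ≤ μ (g '' ball y₁ r) :=
          measure_mono (ball_subset_image_grad hr hg hc h)
      _ ≤ μ (g '' (V ∩ ball y₁ r) ∪ g '' (ball y₁ r ∩ Vᶜ)) := by
          refine measure_mono ?_
          rintro _ ⟨y, hy, rfl⟩
          by_cases hV : y ∈ V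
          · exact Or.inl ⟨y, ⟨hV, hy⟩, rfl⟩
          · exact Or.inr ⟨y, ⟨hy, hV⟩, rfl⟩
      _ ≤ μ (g '' (V ∩ ball y₁ r)) + μ (g '' (ball y₁ r ∩ Vᶜ)) := measure_union_le _ _
      _ = μ (g '' (V ∩ ball y₁ r)) := by rw [hnull, add_zero]
      _ ≤ _ := addHaar_image_le μ hgL.lipschitzOnWith
  refine le_trans (le_of_eq ?_) h1
  rw [show κ * r / 2 = κ / 2 * r by ring, Measure.addHaar_ball_mul_of_pos μ a (half_pos hκ) r,
    Measure.addHaar_ball_center μ y₁, ENNReal.ofReal_pow (half_pos hκ).le]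

end Meas

end Vale.Agent.P073.H911
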