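import Vale.Agent.P073.H911.DeepVol
import Vale.Agent.P073.H490.FinB

/-!
# P073, H911: the final estimate ([SUMF-M])

From a homeomorphism `g` which is almost equal to the affine maps of the boxes on a set `R`, with
small energy off `R`, to the error `∫ ‖Dg - F‖ ^ p`.
-/

namespace Vale.Agent.P073.H911

open MeasureTheory Set Filter Topology Metric Vale.Agent.P073.St
open Vale.Agent.P073.AB (Idx cl)
open Vale.Agent.P073.SQ (ev)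
open Vale.Agent.P073.PK (IsSob.memLp_cl IsSob.aesm IsSob.lintegral_ne_top)
open P073.Net (dyc dyo)
open scoped ENNReal NNReal

variable {p : ℝ} {Ω Λ : Set V} {f : V → V} {F : V → Mat}

theorem enorm_rpow_add_le (hp : 1 ≤ p) {E : Type*} [NormedAddCommGroup E] (a b : E) :
    ‖a‖ₑ ^ p ≤ 2 ^ (p - 1) * (‖b‖ₑ ^ p + ‖a - b‖ₑ ^ p) := by
  have hp0 : 0 ≤ p := by linarith
  calc ‖a‖ₑ ^ p = ‖b + (a - b)‖ₑ ^ p := by congr 2; abel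
    _ ≤ (‖b‖ₑ + ‖a - b‖ₑ) ^ p := by gcongr; exact enorm_add_le _ _
    _ ≤ 2 ^ (p - 1) * (‖b‖ₑ ^ p + ‖a - b‖ₑ ^ p) := ENNReal.rpow_add_le_mul_rpow_add_rpow _ _ hp

theorem two_rpow_ne_top (p : ℝ) : (2 : ℝ≥0∞) ^ (p - 1) ≠ ⊤ := by
  have : (2 : ℝ≥0∞) ^ (p - 1) = ENNReal.ofReal (2 ^ (p - 1)) := by
    rw [← ENNReal.ofReal_rpow_of_pos (by norm_num)]; norm_num
  rw [this]
  exact ENNReal.ofReal_ne_top

/-- the boxes: cubes in `Ω` with disjoint interiors and `L^p` closeness of `F` -/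
structure Bx (p : ℝ) (Ω : Set V) (F : V → Mat) (v : V) (K : Set Idx) (x : Idx → V)
    (κ : ℝ≥0∞) : Prop where
  sub : ∀ k ∈ K, dyc v k.1 k.2 ⊆ Ω
  disj : ∀ k ∈ K, ∀ k' ∈ K, k ≠ k' → Disjoint (dyo v k.1 k.2) (dyo v k'.1 k'.2)
  leb : ∀ k ∈ K, ∫⁻ y in dyc v k.1 k.2, ‖cl (F y) - cl (F (x k))‖ₑ ^ p ≤
    κ * volume (dyc v k.1 k.2)

variable {v : V} {K : Set Idx} {x : Idx → V} {κ : ℝ≥0∞}

theorem Bx.tsum_int_le (B : Bx p Ω F v K x κ) (hΩ : IsOpen Ω) (H : V → ℝ≥0∞) :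
    ∑' k : K, ∫⁻ y in dyc v k.1.1 k.1.2, H y ≤ ∫⁻ y in Ω, H y := by
  have h := tsum_dyc_le (v := v) (k := fun k : K => k.1) (S := Ω)
    (fun k k' hkk => B.disj k.1 k.2 k'.1 k'.2 fun h => hkk (Subtype.ext h))
    hΩ.measurableSet.nullMeasurableSet H
  refine le_trans (le_of_eq ?_) h
  refine tsum_congr fun k => ?_
  rw [inter_eq_left.2 (B.sub k.1 k.2)]

theorem Bx.tsum_vol_le (B : Bx p Ω F v K x κ) (hΩ : IsOpen Ω) :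
    ∑' k : K, volume (dyc v k.1.1 k.1.2) ≤ volume Ω := by
  have h := B.tsum_int_le hΩ fun _ => 1
  simpa only [lintegral_const, Measure.restrict_apply MeasurableSet.univ, univ_inter,
    one_mul] using h

theorem Bx.tsum_leb_le (B : Bx p Ω F v K x κ) (hΩ : IsOpen Ω) :
    ∑' k : K, ∫⁻ y in dyc v k.1.1 k.1.2, ‖cl (F y) - cl (F (x k.1))‖ₑ ^ p ≤ κ * volume Ω := by
  calc ∑' k : K, ∫⁻ y in dyc v k.1.1 k.1.2, ‖cl (F y) - cl (F (x k.1))‖ₑ ^ p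
      ≤ ∑' k : K, κ * volume (dyc v k.1.1 k.1.2) := ENNReal.tsum_le_tsum fun k => B.leb k.1 k.2
    _ = κ * ∑' k : K, volume (dyc v k.1.1 k.1.2) := ENNReal.tsum_mul_left
    _ ≤ κ * volume Ω := by gcongr; exact B.tsum_vol_le hΩ

theorem aem_sub (hF : St.IsSobolev p Ω f F) {S : Set V} (hS : S ⊆ Ω) (A : V →L[ℝ] V) :
    AEMeasurable (fun y => ‖cl (F y) - A‖ₑ ^ p) (volume.restrict S) :=
  ((((IsSob.aesm hF).mono_measure (Measure.restrict_mono hS le_rfl)).sub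
    aestronglyMeasurable_const).enorm).pow_const p

/-- the total energy of the affine maps -/
theorem Bx.tsum_aff_le (B : Bx p Ω F v K x κ) (hp : 1 ≤ p) (hΩ : IsOpen Ω)
    (hF : St.IsSobolev p Ω f F) :
    ∑' k : K, ‖cl (F (x k.1))‖ₑ ^ p * volume (dyc v k.1.1 k.1.2) ≤
      2 ^ (p - 1) * ((∫⁻ y in Ω, ‖cl (F y)‖ₑ ^ p) + κ * volume Ω) := by
  have h1 : ∀ k : K, ‖cl (F (x k.1))‖ₑ ^ p * volume (dyc v k.1.1 k.1.2) ≤
      2 ^ (p - 1) * ((∫⁻ y in dyc v k.1.1 k.1.2, ‖cl (F y)‖ₑ ^ p) +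
        ∫⁻ y in dyc v k.1.1 k.1.2, ‖cl (F y) - cl (F (x k.1))‖ₑ ^ p) := fun k => by
    rw [← lintegral_add_right' _ (aem_sub hF (B.sub k.1 k.2) _),
      ← lintegral_const_mul' _ _ (two_rpow_ne_top p), ← setLIntegral_const]
    refine lintegral_mono fun y => ?_
    have h := enorm_rpow_add_le hp (cl (F (x k.1))) (cl (F y))
    have e : ‖cl (F (x k.1)) - cl (F y)‖ₑ = ‖cl (F y) - cl (F (x k.1))‖ₑ :=
      enorm_sub_rev (E := V →L[ℝ] V) _ _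
    rw [e] at h
    exact h
  calc ∑' k : K, ‖cl (F (x k.1))‖ₑ ^ p * volume (dyc v k.1.1 k.1.2)
      ≤ ∑' k : K, 2 ^ (p - 1) * ((∫⁻ y in dyc v k.1.1 k.1.2, ‖cl (F y)‖ₑ ^ p) +
        ∫⁻ y in dyc v k.1.1 k.1.2, ‖cl (F y) - cl (F (x k.1))‖ₑ ^ p) :=
        ENNReal.tsum_le_tsum h1
    _ = 2 ^ (p - 1) * ((∑' k : K, ∫⁻ y in dyc v k.1.1 k.1.2, ‖cl (F y)‖ₑ ^ p) +
        ∑' k : K, ∫⁻ y in dyc v k.1.1 k.1.2, ‖cl (F y) - cl (F (x k.1))‖ₑ ^ p) := by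
        rw [ENNReal.tsum_mul_left, ENNReal.tsum_add]
    _ ≤ _ := by
        gcongr
        · exact B.tsum_int_le hΩ _
        · exact B.tsum_leb_le hΩ

/-- energy of `F` off the set `R` -/
theorem Bx.off_le (B : Bx p Ω F v K x κ) (hp : 1 ≤ p) (hΩ : IsOpen Ω)
    (hF : St.IsSobolev p Ω f F) {R : Set V} {ε₁ ε₂ : ℝ≥0∞}
    (hrest : ∫⁻ y in Ω \ ⋃ k ∈ K, dyc v k.1 k.2, ‖cl (F y)‖ₑ ^ p ≤ ε₁)
    (hR : ∑' k : K, ‖cl (F (x k.1))‖ₑ ^ p * volume (dyc v k.1.1 k.1.2 \ R) ≤ ε₂) :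
    ∫⁻ y in Ω \ R, ‖cl (F y)‖ₑ ^ p ≤ ε₁ + 2 ^ (p - 1) * (ε₂ + κ * volume Ω) := by
  have hsub : Ω \ R ⊆ (Ω \ ⋃ k ∈ K, dyc v k.1 k.2) ∪ ⋃ k : K, dyc v k.1.1 k.1.2 \ R := by
    rintro y ⟨hy, hyR⟩
    by_cases h : y ∈ ⋃ k ∈ K, dyc v k.1 k.2
    · obtain ⟨k, hk, hyk⟩ := mem_iUnion₂.1 h
      exact Or.inr (mem_iUnion.2 ⟨⟨k, hk⟩, hyk, hyR⟩)
    · exact Or.inl ⟨hy, h⟩
  have h1 : ∀ k : K, ∫⁻ y in dyc v k.1.1 k.1.2 \ R, ‖cl (F y)‖ₑ ^ p ≤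
      2 ^ (p - 1) * (‖cl (F (x k.1))‖ₑ ^ p * volume (dyc v k.1.1 k.1.2 \ R) +
        ∫⁻ y in dyc v k.1.1 k.1.2, ‖cl (F y) - cl (F (x k.1))‖ₑ ^ p) := fun k => by
    calc ∫⁻ y in dyc v k.1.1 k.1.2 \ R, ‖cl (F y)‖ₑ ^ p
        ≤ ∫⁻ y in dyc v k.1.1 k.1.2 \ R, 2 ^ (p - 1) * (‖cl (F (x k.1))‖ₑ ^ p +
          ‖cl (F y) - cl (F (x k.1))‖ₑ ^ p) := lintegral_mono fun y => enorm_rpow_add_le hp _ _
      _ = 2 ^ (p - 1) * (‖cl (F (x k.1))‖ₑ ^ p * volume (dyc v k.1.1 k.1.2 \ R) +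
        ∫⁻ y in dyc v k.1.1 k.1.2 \ R, ‖cl (F y) - cl (F (x k.1))‖ₑ ^ p) := by
          rw [lintegral_const_mul' _ _ (two_rpow_ne_top p),
            lintegral_add_right' _ (aem_sub hF (sdiff_subset.trans (B.sub k.1 k.2)) _),
            setLIntegral_const]
      _ ≤ _ := by
          gcongr
          exact sdiff_subset
  calc ∫⁻ y in Ω \ R, ‖cl (F y)‖ₑ ^ p
      ≤ (∫⁻ y in Ω \ ⋃ k ∈ K, dyc v k.1 k.2, ‖cl (F y)‖ₑ ^ p) +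
        ∫⁻ y in ⋃ k : K, dyc v k.1.1 k.1.2 \ R, ‖cl (F y)‖ₑ ^ p :=
        (lintegral_mono_set hsub).trans (lintegral_union_le _ _ _)
    _ ≤ ε₁ + ∑' k : K, 2 ^ (p - 1) * (‖cl (F (x k.1))‖ₑ ^ p * volume (dyc v k.1.1 k.1.2 \ R) +
        ∫⁻ y in dyc v k.1.1 k.1.2, ‖cl (F y) - cl (F (x k.1))‖ₑ ^ p) :=
        add_le_add hrest ((lintegral_iUnion_le _ _).trans (ENNReal.tsum_le_tsum h1))
    _ = ε₁ + 2 ^ (p - 1) * ((∑' k : K, ‖cl (F (x k.1))‖ₑ ^ p * volume (dyc v k.1.1 k.1.2 \ R)) +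
        ∑' k : K, ∫⁻ y in dyc v k.1.1 k.1.2, ‖cl (F y) - cl (F (x k.1))‖ₑ ^ p) := by
        rw [ENNReal.tsum_mul_left, ENNReal.tsum_add]
    _ ≤ _ := by
        gcongr
        exact B.tsum_leb_le hΩ

/-- the error on the set `R` -/
theorem Bx.on_le (B : Bx p Ω F v K x κ) (hp : 1 ≤ p) (hΩ : IsOpen Ω)
    (hF : St.IsSobolev p Ω f F) {g : V → V} {R : Set V} (D : Idx → Set V)
    (hD : ∀ k ∈ K, D k ⊆ dyo v k.1 k.2) (hDm : ∀ k ∈ K, MeasurableSet (D k))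
    (hRm : MeasurableSet R) {δ : ℝ} (hδ : 0 ≤ δ)
    (hR : ∀ y ∈ R, ∃ k ∈ K, y ∈ D k ∧
      ∀ j, ‖fderiv ℝ g y (ev j) - cl (F (x k)) (ev j)‖ ≤ δ * ‖cl (F (x k))‖) (j : Fin 3) :
    ∫⁻ y in R, ENNReal.ofReal (‖fderiv ℝ g y (ev j) - cl (F y) (ev j)‖ ^ p) ≤
      2 ^ (p - 1) * (ENNReal.ofReal (δ ^ p) *
        (2 ^ (p - 1) * ((∫⁻ y in Ω, ‖cl (F y)‖ₑ ^ p) + κ * volume Ω)) + κ * volume Ω) := by
  have hp0 : 0 ≤ p := by linarith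
  have hsub : R ⊆ ⋃ k : K, R ∩ D k.1 := by
    intro y hy
    obtain ⟨k, hk, hyk, -⟩ := hR y hy
    exact mem_iUnion.2 ⟨⟨k, hk⟩, hy, hyk⟩
  have hdd : ∀ k ∈ K, D k ⊆ dyc v k.1 k.2 := fun k hk =>
    (hD k hk).trans ((dyo_sub_hc _ _ _).trans (hc_sub_dyc _ _ _))
  have h1 : ∀ k : K, ∫⁻ y in R ∩ D k.1,
      ENNReal.ofReal (‖fderiv ℝ g y (ev j) - cl (F y) (ev j)‖ ^ p) ≤
      2 ^ (p - 1) * (ENNReal.ofReal (δ ^ p) * (‖cl (F (x k.1))‖ₑ ^ p *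
        volume (dyc v k.1.1 k.1.2)) +
        ∫⁻ y in dyc v k.1.1 k.1.2, ‖cl (F y) - cl (F (x k.1))‖ₑ ^ p) := by
    rintro ⟨k, hk⟩
    have hSΩ : R ∩ D k ⊆ Ω := inter_subset_right.trans ((hdd k hk).trans (B.sub k hk))
    refine (H490.err_third hp hF hSΩ g (cl (F (x k))) j).trans ?_
    have hm : MeasurableSet (R ∩ D k) := hRm.inter (hDm k hk)
    refine mul_le_mul_right ?_ _
    refine add_le_add ?_ ?_
    · calc ∫⁻ y in R ∩ D k, ENNReal.ofReal (‖fderiv ℝ g y (ev j) - cl (F (x k)) (ev j)‖ ^ p)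
          ≤ ∫⁻ y in R ∩ D k, ENNReal.ofReal (δ ^ p) * ‖cl (F (x k))‖ₑ ^ p := by
            refine setLIntegral_mono' hm fun y hy => ?_
            obtain ⟨k', hk', hyk', h2⟩ := hR y hy.1
            have hkk : k = k' := by
              by_contra hne
              exact Set.disjoint_left.1 (B.disj k hk k' hk' hne) (hD k hk hy.2) (hD k' hk' hyk')
            subst hkk
            rw [← ofReal_norm, ENNReal.ofReal_rpow_of_nonneg (norm_nonneg _) hp0,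
              ← ENNReal.ofReal_mul (by positivity), ← Real.mul_rpow hδ (norm_nonneg _)]
            refine ENNReal.ofReal_le_ofReal ?_
            exact Real.rpow_le_rpow (norm_nonneg _) (h2 j) hp0
        _ = ENNReal.ofReal (δ ^ p) * (‖cl (F (x k))‖ₑ ^ p * volume (R ∩ D k)) := by
            rw [setLIntegral_const, mul_assoc]
        _ ≤ _ := by
            gcongr
            exact inter_subset_right.trans (hdd k hk)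
    · calc ∫⁻ y in R ∩ D k, ENNReal.ofReal (‖cl (F (x k)) (ev j) - cl (F y) (ev j)‖ ^ p)
          ≤ ∫⁻ y in R ∩ D k, ‖cl (F y) - cl (F (x k))‖ₑ ^ p :=
            lintegral_mono fun y => H490.ofReal_ev_le hp0 _ _ j
        _ ≤ _ := lintegral_mono_set (inter_subset_right.trans (hdd k hk))
  calc ∫⁻ y in R, ENNReal.ofReal (‖fderiv ℝ g y (ev j) - cl (F y) (ev j)‖ ^ p)
      ≤ ∑' k : K, ∫⁻ y in R ∩ D k.1,
        ENNReal.ofReal (‖fderiv ℝ g y (ev j) - cl (F y) (ev j)‖ ^ p) :=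
        (lintegral_mono_set hsub).trans (lintegral_iUnion_le _ _)
    _ ≤ ∑' k : K, 2 ^ (p - 1) * (ENNReal.ofReal (δ ^ p) * (‖cl (F (x k.1))‖ₑ ^ p *
        volume (dyc v k.1.1 k.1.2)) +
        ∫⁻ y in dyc v k.1.1 k.1.2, ‖cl (F y) - cl (F (x k.1))‖ₑ ^ p) :=
        ENNReal.tsum_le_tsum h1
    _ = 2 ^ (p - 1) * (ENNReal.ofReal (δ ^ p) * (∑' k : K, ‖cl (F (x k.1))‖ₑ ^ p *
        volume (dyc v k.1.1 k.1.2)) +
        ∑' k : K, ∫⁻ y in dyc v k.1.1 k.1.2, ‖cl (F y) - cl (F (x k.1))‖ₑ ^ p) := by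
        rw [ENNReal.tsum_mul_left, ENNReal.tsum_add, ENNReal.tsum_mul_left]
    _ ≤ _ := by
        gcongr
        · exact B.tsum_aff_le hp hΩ hF
        · exact B.tsum_leb_le hΩ

/-- **[SUMF-M]** the total error -/
theorem Bx.err_le (B : Bx p Ω F v K x κ) (hp : 1 ≤ p) (hΩ : IsOpen Ω)
    (hF : St.IsSobolev p Ω f F) {g : V → V} {R : Set V} (D : Idx → Set V)
    (hD : ∀ k ∈ K, D k ⊆ dyo v k.1 k.2) (hDm : ∀ k ∈ K, MeasurableSet (D k))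
    (hRm : MeasurableSet R) (hRΩ : R ⊆ Ω) {δ : ℝ} (hδ : 0 ≤ δ)
    (hR : ∀ y ∈ R, ∃ k ∈ K, y ∈ D k ∧
      ∀ j, ‖fderiv ℝ g y (ev j) - cl (F (x k)) (ev j)‖ ≤ δ * ‖cl (F (x k))‖)
    {ε₁ ε₂ ε₃ : ℝ≥0∞}
    (hrest : ∫⁻ y in Ω \ ⋃ k ∈ K, dyc v k.1 k.2, ‖cl (F y)‖ₑ ^ p ≤ ε₁)
    (hoff : ∑' k : K, ‖cl (F (x k.1))‖ₑ ^ p * volume (dyc v k.1.1 k.1.2 \ R) ≤ ε₂)
    (hen : ∫⁻ y in Ω \ R, ENNReal.ofReal (‖fderiv ℝ g y‖ ^ p) ≤ ε₃) (j : Fin 3) :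
    ∫⁻ y in Ω, ENNReal.ofReal (‖fderiv ℝ g y (ev j) - cl (F y) (ev j)‖ ^ p) ≤
      2 ^ (p - 1) * (ENNReal.ofReal (δ ^ p) *
        (2 ^ (p - 1) * ((∫⁻ y in Ω, ‖cl (F y)‖ₑ ^ p) + κ * volume Ω)) + κ * volume Ω) +
      2 ^ (p - 1) * (ε₃ + (ε₁ + 2 ^ (p - 1) * (ε₂ + κ * volume Ω))) := by
  have hp0 : 0 ≤ p := by linarith
  refine (H490.err_split hp hF hΩ hRm hRΩ g j).trans ?_
  refine add_le_add (B.on_le hp hΩ hF D hD hDm hRm hδ hR j) ?_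
  refine mul_le_mul_right (add_le_add ?_ ?_) _
  · refine le_trans (lintegral_mono fun y => ?_) hen
    refine ENNReal.ofReal_le_ofReal (Real.rpow_le_rpow (norm_nonneg _) ?_ hp0)
    have hev : ‖ev j‖ ≤ 1 := by
      rw [pi_norm_le_iff_of_nonneg one_pos.le]
      intro k
      by_cases h : k = j
      · subst h; simp [ev]
      · simp [ev, Pi.single_eq_of_ne h]
    exact (ContinuousLinearMap.le_opNorm _ _).trans
      (mul_le_of_le_one_right (norm_nonneg _) hev)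
  · refine le_trans (lintegral_mono fun y => H490.ofReal_ev_le' hp0 (cl (F y)) j) ?_
    exact B.off_le hp hΩ hF hrest hoff

end Vale.Agent.P073.H911
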