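import Vale.Agent.P073.H911.Vol
import Vale.Agent.P073.COL605.Col

/-!
# P073, H911: good cubes with a thin complement

The selection of good cubes (`exists_cubes`) with the weight `τ^{-3}`: the complement in `Λ` of the
affine images of the cubes is open and thin at all scales `≥ τ`, in the form consumed by the
collapse theorem `COL605.col`.
-/

open Set Metric Topology MeasureTheory Filter
open scoped ENNReal

namespace Vale.Agent.P073.H911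

open Vale.Agent.P073.St (V IsHomeo)
open P073.Net (dyc dyo)

/-- Euclidean three-space -/
abbrev E3 : Type := EuclideanSpace ℝ (Fin 3)

/-- the set `S` of `V = Fin 3 → ℝ`, seen in Euclidean space -/
def up (S : Set V) : Set E3 := {y | WithLp.ofLp y ∈ S}

theorem continuous_ofLp3 : Continuous (fun y : E3 => (WithLp.ofLp y : V)) :=
  PiLp.continuous_ofLp 2 _

theorem isOpen_up {S : Set V} (hS : IsOpen S) : IsOpen (up S) := hS.preimage continuous_ofLp3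

theorem norm_ofLp_le (y : E3) : ‖(WithLp.ofLp y : V)‖ ≤ ‖y‖ := by
  rw [pi_norm_le_iff_of_nonneg (norm_nonneg _)]
  intro i
  exact PiLp.norm_apply_le y i

theorem norm_le_ofLp (y : E3) : ‖y‖ ≤ 2 * ‖(WithLp.ofLp y : V)‖ := by
  have h1 : ∀ i, |y i| ≤ ‖(WithLp.ofLp y : V)‖ := fun i => norm_le_pi_norm (WithLp.ofLp y : V) i
  have h2 : ∀ i, y i ^ 2 ≤ ‖(WithLp.ofLp y : V)‖ ^ 2 := fun i => by
    rw [← sq_abs (y i)]; gcongr; exact h1 i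
  have h3 : ‖y‖ ^ 2 ≤ (2 * ‖(WithLp.ofLp y : V)‖) ^ 2 := by
    rw [EuclideanSpace.norm_sq_eq, Fin.sum_univ_three]
    simp only [Real.norm_eq_abs, sq_abs]
    nlinarith [h2 0, h2 1, h2 2, sq_nonneg (‖(WithLp.ofLp y : V)‖)]
  exact le_of_sq_le_sq h3 (by positivity)

theorem volume_up {S : Set V} (hS : MeasurableSet S) : volume (up S) = volume S :=
  (EuclideanSpace.volume_preserving_symm_measurableEquiv_toLp (Fin 3)).symm.symm.measure_preimage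
    hS.nullMeasurableSet

theorem lintegral_up (g : V → ℝ≥0∞) (S : Set V) :
    ∫⁻ y in up S, g (WithLp.ofLp y) = ∫⁻ x in S, g x :=
  (EuclideanSpace.volume_preserving_symm_measurableEquiv_toLp (Fin 3)).setLIntegral_comp_preimage_emb
    (MeasurableEquiv.measurableEmbedding _) g S

/-- The complement in `Λ` of a locally finite family of closed sets is open. -/
theorem isOpen_rest {Ω Λ : Set V} (hΩ : IsOpen Ω) (hΛ : IsOpen Λ) {f : V → V}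
    (hf : IsHomeo Ω Λ f) {v : V} {K : Set (ℕ × (Fin 3 → ℤ))}
    (hKΩ : ∀ k ∈ K, dyc v k.1 k.2 ⊆ Ω)
    (hK : ∀ C ⊆ Ω, IsCompact C → {k ∈ K | (dyc v k.1 k.2 ∩ C).Nonempty}.Finite)
    {S : ℕ × (Fin 3 → ℤ) → Set V} (hS : ∀ k ∈ K, IsClosed (S k))
    (hSf : ∀ k ∈ K, S k ⊆ f '' dyc v k.1 k.2) : IsOpen (Λ \ ⋃ k ∈ K, S k) := by
  obtain ⟨h, hinv, hfc, hhc⟩ := hf
  have hf' : IsHomeo Ω Λ f := ⟨h, hinv, hfc, hhc⟩
  rw [isOpen_iff_mem_nhds]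
  rintro y ⟨hy, hyn⟩
  obtain ⟨h1, h2⟩ := hinv.2 y hy
  obtain ⟨r, hr, hrΩ⟩ := Metric.nhds_basis_closedBall.mem_iff.1 (hΩ.mem_nhds h1)
  have hfin := hK _ hrΩ (isCompact_closedBall (h y) r)
  have ho : IsOpen (f '' ball (h y) r) := isOpen_image hΛ hf' isOpen_ball
    (ball_subset_closedBall.trans hrΩ)
  set J := {k ∈ K | (dyc v k.1 k.2 ∩ closedBall (h y) r).Nonempty} with hJ
  have hcl : IsClosed (⋃ k ∈ J, S k) := hfin.isClosed_biUnion fun k hk => hS k hk.1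
  have hmem : y ∈ f '' ball (h y) r \ ⋃ k ∈ J, S k := by
    refine ⟨⟨h y, mem_ball_self hr, h2⟩, fun h3 => hyn ?_⟩
    obtain ⟨k, hk, hyk⟩ := mem_iUnion₂.1 h3
    exact mem_iUnion₂.2 ⟨k, hk.1, hyk⟩
  refine Filter.mem_of_superset ((ho.sdiff hcl).mem_nhds hmem) ?_
  rintro _ ⟨⟨u, hu, rfl⟩, hun⟩
  have huΩ : u ∈ Ω := hrΩ (ball_subset_closedBall hu)
  refine ⟨(hinv.1 u huΩ).1, fun h3 => ?_⟩
  obtain ⟨k, hk, huk⟩ := mem_iUnion₂.1 h3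
  by_cases hkJ : k ∈ J
  · exact hun (mem_iUnion₂.2 ⟨k, hkJ, huk⟩)
  · apply hkJ
    refine ⟨hk, u, ?_, ball_subset_closedBall hu⟩
    obtain ⟨u', hu', huu⟩ := hSf k hk huk
    have h4 : u' = u := by
      rw [← (hinv.1 u' (hKΩ k hk hu')).2, ← (hinv.1 u huΩ).2, huu]
    rwa [h4] at hu'

theorem thin_const {h : ℝ} (hh : 0 < h) : ∃ c : ℝ≥0∞, c ≠ 0 ∧ ∀ (y : E3) (r : ℝ), 0 < r →
    ENNReal.ofReal (2 * r) ^ 3 * c <
      ENNReal.ofReal ((h / (4 * (1 + h))) ^ Module.finrank ℝ E3) * volume (ball y r) := by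
  have hfr : Module.finrank ℝ E3 = 3 := by simp [E3]
  set δ : ℝ := (h / (4 * (1 + h))) ^ 3 with hδ
  have hδ0 : 0 < δ := by positivity
  have hB0 : volume (ball (0 : E3) 1) ≠ 0 := (measure_ball_pos volume 0 one_pos).ne'
  have hBt : volume (ball (0 : E3) 1) ≠ ⊤ := measure_ball_lt_top.ne
  refine ⟨ENNReal.ofReal (δ / 16) * volume (ball (0 : E3) 1), ?_, fun y r hr => ?_⟩
  · exact mul_ne_zero (ENNReal.ofReal_pos.2 (by positivity)).ne' hB0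
  · rw [Measure.addHaar_ball volume y hr.le, hfr, ← hδ, ← mul_assoc, ← mul_assoc,
      ← ENNReal.ofReal_pow (by positivity), ← ENNReal.ofReal_mul (by positivity),
      ← ENNReal.ofReal_mul (by positivity)]
    refine (ENNReal.mul_lt_mul_iff_left hB0 hBt).2 ?_
    rw [ENNReal.ofReal_lt_ofReal_iff (by positivity)]
    have : 0 < δ * r ^ 3 := by positivity
    nlinarith

/-- **Good cubes with a thin complement.** `τ` is any `1`-Lipschitz function, positive exactly on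
`Λ`; `w` is an additional locally bounded weight. -/
theorem exists_cubes_thin_freq {Ω Λ : Set V} (hΩ : IsOpen Ω) (hΛ : IsOpen Λ)
    (hΛv : Bornology.IsBounded Λ) {f : V → V}
    (hf : IsHomeo Ω Λ f) {D : V → V →L[ℝ] V} {G : Set V} (hGΩ : G ⊆ Ω)
    (hG : volume (f '' (Ω \ G)) = 0) (hD : ∀ x ∈ G, HasFDerivAt f (D x) x)
    (hdet : ∀ x ∈ G, (D x).det ≠ 0) (v : V) {P : V → ℝ → ℕ → (Fin 3 → ℤ) → Prop}
    (hP : ∀ x ∈ G, ∀ κ > 0, ∃ᶠ m in atTop, P x κ m (idx v m x))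
    {κ₀ : V → ℝ} (hκ₀ : ∀ x ∈ G, 0 < κ₀ x) {w : V → ℝ≥0∞}
    (hw : ∀ y ∈ Λ, ∃ B : NNReal, ∀ᶠ z in 𝓝 y, w z ≤ B) {c : ℝ≥0∞} (hc0 : c ≠ 0)
    {h : ℝ} (hh : 0 < h) {τ : E3 → ℝ} (hτL : ∀ x y, τ y ≤ τ x + dist y x)
    (hτ : ∀ y, WithLp.ofLp y ∈ Λ → 0 < τ y) :
    ∃ (K : Set (ℕ × (Fin 3 → ℤ))) (x : ℕ × (Fin 3 → ℤ) → V) (κ : ℕ × (Fin 3 → ℤ) → ℝ),
      (∀ k ∈ K, x k ∈ G ∧ x k ∈ dyc v k.1 k.2 ∧ dyc v k.1 k.2 ⊆ Ω ∧ 0 < κ k ∧ κ k ≤ κ₀ (x k) ∧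
        κ k ≤ 1 / 2 ∧ P (x k) (κ k) k.1 k.2) ∧
      (∀ k ∈ K, ∀ y ∈ dyc v k.1 k.2, ‖f y - aff f D (x k) y‖ ≤ κ k / 2 ^ k.1 ∧
        ∃ y', ‖y' - y‖ ≤ κ k / 4 / 2 ^ k.1 ∧ f y = aff f D (x k) y') ∧
      (∀ k ∈ K, aff f D (x k) '' shr v k.1 k.2 (κ k) ⊆ f '' dyo v k.1 k.2) ∧
      (∀ k ∈ K, ∀ k' ∈ K, k ≠ k' → Disjoint (dyo v k.1 k.2) (dyo v k'.1 k'.2)) ∧
      (∀ C ⊆ Ω, IsCompact C → {k ∈ K | (dyc v k.1 k.2 ∩ C).Nonempty}.Finite) ∧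
      ∫⁻ y in Λ \ ⋃ k ∈ K, aff f D (x k) '' shr v k.1 k.2 (κ k), w y ≤ c ∧
      IsOpen (up (Λ \ ⋃ k ∈ K, aff f D (x k) '' shr v k.1 k.2 (κ k))) ∧
      Bornology.IsBounded (up (Λ \ ⋃ k ∈ K, aff f D (x k) '' shr v k.1 k.2 (κ k))) ∧
      COL605.Thin volume h (up (Λ \ ⋃ k ∈ K, aff f D (x k) '' shr v k.1 k.2 (κ k))) τ := by
  have hΛv' : volume Λ ≠ ⊤ := hΛv.measure_lt_top.ne
  have hτc : Continuous τ := by
    have : LipschitzWith 1 τ := LipschitzWith.of_le_add fun x y => hτL y x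
    exact this.continuous
  obtain ⟨c₁, hc₁0, hc₁⟩ := thin_const hh
  set g : V → ℝ≥0∞ := fun y => ENNReal.ofReal (1 / τ (WithLp.toLp 2 y)) ^ 3 with hg
  have htoLp : Continuous (fun y : V => (WithLp.toLp 2 y : E3)) := PiLp.continuous_toLp 2 _
  have hgb : ∀ y ∈ Λ, ∃ B : NNReal, ∀ᶠ z in 𝓝 y, g z ≤ B := by
    intro y hy
    have h1 : 0 < τ (WithLp.toLp 2 y) := hτ _ hy
    refine ⟨Real.toNNReal (1 / (τ (WithLp.toLp 2 y) / 2)) ^ 3, ?_⟩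
    have h2 : ∀ᶠ z in 𝓝 y, τ (WithLp.toLp 2 y) / 2 < τ (WithLp.toLp 2 z) :=
      ((hτc.comp htoLp).continuousAt (x := y)).eventually (lt_mem_nhds (half_lt_self h1))
    filter_upwards [h2] with z hz
    simp only [hg]
    rw [ENNReal.coe_pow]
    gcongr
    rw [ENNReal.ofReal]
    exact_mod_cast Real.toNNReal_le_toNNReal (one_div_le_one_div_of_le (by positivity) hz.le)
  have hwb : ∀ y ∈ Λ, ∃ B : NNReal, ∀ᶠ z in 𝓝 y, w z + g z ≤ B := by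
    intro y hy
    obtain ⟨B₁, h1⟩ := hw y hy
    obtain ⟨B₂, h2⟩ := hgb y hy
    refine ⟨B₁ + B₂, ?_⟩
    filter_upwards [h1, h2] with z h3 h4
    push_cast
    exact add_le_add h3 h4
  have hc2 : min c c₁ ≠ 0 := (lt_min (pos_iff_ne_zero.2 hc0) (pos_iff_ne_zero.2 hc₁0)).ne'
  obtain ⟨K, x, κ, h1, h2, h3, h4, h5, h6⟩ := exists_cubes_freq hΩ hΛ hΛv' hf hGΩ hG hD hdet v hP hκ₀
    hwb hc2
  have hKΩ : ∀ k ∈ K, dyc v k.1 k.2 ⊆ Ω := fun k hk => (h1 k hk).2.2.1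
  have haffc : ∀ k, Continuous (aff f D (x k)) := by
    intro k
    unfold aff
    fun_prop
  have hScl : ∀ k ∈ K, IsClosed (aff f D (x k) '' shr v k.1 k.2 (κ k)) := fun k hk =>
    ((isCompact_closedBall _ _).image (haffc k)).isClosed
  have hSf : ∀ k ∈ K, aff f D (x k) '' shr v k.1 k.2 (κ k) ⊆ f '' dyc v k.1 k.2 := fun k hk =>
    (h3 k hk).trans (image_mono ((dyo_sub_hc _ _ _).trans (hc_sub_dyc _ _ _)))
  have hopen := isOpen_rest hΩ hΛ hf hKΩ h5 hScl hSf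
  set R := Λ \ ⋃ k ∈ K, aff f D (x k) '' shr v k.1 k.2 (κ k) with hR
  have hRb : Bornology.IsBounded (up R) := by
    obtain ⟨C, hC⟩ := (hΛv.subset (sdiff_subset : R ⊆ Λ)).exists_norm_le
    refine (isBounded_iff_forall_norm_le).2 ⟨2 * C, fun y hy => ?_⟩
    have := hC _ hy
    linarith [norm_le_ofLp y]
  refine ⟨K, x, κ, h1, h2, h3, h4, h5, ?_, isOpen_up hopen, hRb, ?_⟩
  · refine le_trans ?_ (h6.trans (min_le_left _ _))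
    exact lintegral_mono fun y => le_self_add
  · intro y r hr hy
    have h7 : ∫⁻ y in up R, ENNReal.ofReal (1 / τ y) ^ 3 ≤ c₁ := by
      have h8 : ∫⁻ y in up R, g (WithLp.ofLp y) = ∫⁻ x in R, g x := lintegral_up g R
      have h9 : ∀ y : E3, g (WithLp.ofLp y) = ENNReal.ofReal (1 / τ y) ^ 3 := fun y => rfl
      simp only [h9] at h8
      rw [h8]
      refine le_trans ?_ (h6.trans (min_le_right _ _))
      exact lintegral_mono fun y => le_add_self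
    have h10 := thin_of_lintegral volume hτL (isOpen_up hopen).measurableSet
      (fun y hy => hτ y hy.1) hτc.measurable h7 hr hy
    exact lt_of_le_of_lt h10 (hc₁ y r hr)

theorem exists_cubes_thin {Ω Λ : Set V} (hΩ : IsOpen Ω) (hΛ : IsOpen Λ)
    (hΛv : Bornology.IsBounded Λ) {f : V → V}
    (hf : IsHomeo Ω Λ f) {D : V → V →L[ℝ] V} {G : Set V} (hGΩ : G ⊆ Ω)
    (hG : volume (f '' (Ω \ G)) = 0) (hD : ∀ x ∈ G, HasFDerivAt f (D x) x)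
    (hdet : ∀ x ∈ G, (D x).det ≠ 0) (v : V) {P : V → ℝ → ℕ → (Fin 3 → ℤ) → Prop}
    (hP : ∀ x ∈ G, ∀ κ > 0, ∃ M : ℕ, ∀ m ≥ M, ∀ z, x ∈ dyc v m z → P x κ m z)
    {κ₀ : V → ℝ} (hκ₀ : ∀ x ∈ G, 0 < κ₀ x) {w : V → ℝ≥0∞}
    (hw : ∀ y ∈ Λ, ∃ B : NNReal, ∀ᶠ z in 𝓝 y, w z ≤ B) {c : ℝ≥0∞} (hc0 : c ≠ 0)
    {h : ℝ} (hh : 0 < h) {τ : E3 → ℝ} (hτL : ∀ x y, τ y ≤ τ x + dist y x)
    (hτ : ∀ y, WithLp.ofLp y ∈ Λ → 0 < τ y) :
    ∃ (K : Set (ℕ × (Fin 3 → ℤ))) (x : ℕ × (Fin 3 → ℤ) → V) (κ : ℕ × (Fin 3 → ℤ) → ℝ),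
      (∀ k ∈ K, x k ∈ G ∧ x k ∈ dyc v k.1 k.2 ∧ dyc v k.1 k.2 ⊆ Ω ∧ 0 < κ k ∧ κ k ≤ κ₀ (x k) ∧
        κ k ≤ 1 / 2 ∧ P (x k) (κ k) k.1 k.2) ∧
      (∀ k ∈ K, ∀ y ∈ dyc v k.1 k.2, ‖f y - aff f D (x k) y‖ ≤ κ k / 2 ^ k.1 ∧
        ∃ y', ‖y' - y‖ ≤ κ k / 4 / 2 ^ k.1 ∧ f y = aff f D (x k) y') ∧
      (∀ k ∈ K, aff f D (x k) '' shr v k.1 k.2 (κ k) ⊆ f '' dyo v k.1 k.2) ∧
      (∀ k ∈ K, ∀ k' ∈ K, k ≠ k' → Disjoint (dyo v k.1 k.2) (dyo v k'.1 k'.2)) ∧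
      (∀ C ⊆ Ω, IsCompact C → {k ∈ K | (dyc v k.1 k.2 ∩ C).Nonempty}.Finite) ∧
      ∫⁻ y in Λ \ ⋃ k ∈ K, aff f D (x k) '' shr v k.1 k.2 (κ k), w y ≤ c ∧
      IsOpen (up (Λ \ ⋃ k ∈ K, aff f D (x k) '' shr v k.1 k.2 (κ k))) ∧
      Bornology.IsBounded (up (Λ \ ⋃ k ∈ K, aff f D (x k) '' shr v k.1 k.2 (κ k))) ∧
      COL605.Thin volume h (up (Λ \ ⋃ k ∈ K, aff f D (x k) '' shr v k.1 k.2 (κ k))) τ :=
  exists_cubes_thin_freq hΩ hΛ hΛv hf hGΩ hG hD hdet v (fun x hx κ hκ => by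
    obtain ⟨M, hM⟩ := hP x hx κ hκ
    exact (eventually_atTop.2 ⟨M, fun m hm => hM m hm _ (hc_sub_dyc v m _ (mem_hc_idx v m x))⟩).frequently)
    hκ₀ hw hc0 hh hτL hτ

end Vale.Agent.P073.H911
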